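import Mathlib

/-! Fourier analysis on a cube with a family of coordinate sets (cosets). -/

namespace Vale.Agent.P047

open Finset

variable {J : Type*} [Fintype J] [DecidableEq J]

def sg (b : Bool) : ℝ := if b then -1 else 1

theorem sg_sq (b : Bool) : sg b * sg b = 1 := by cases b <;> simp [sg]

theorem sg_xor (a b : Bool) : sg (xor a b) = sg a * sg b := by cases a <;> cases b <;> simp [sg]

theorem abs_sg (b : Bool) : |sg b| = 1 := by cases b <;> simp [sg]

def chi (S : Finset J) (x : J → Bool) : ℝ := ∏ i ∈ S, sg (x i)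

def flipBy (x z : J → Bool) : J → Bool := fun i => xor (x i) (z i)

noncomputable def Nc (J : Type*) [Fintype J] : ℝ := 2 ^ Fintype.card J

omit [DecidableEq J] in
theorem Nc_pos : 0 < Nc J := pow_pos two_pos _

omit [DecidableEq J] in
theorem Nc_one : 1 ≤ Nc J := one_le_pow₀ one_le_two

theorem card_cube : (Fintype.card (J → Bool) : ℝ) = Nc J := by simp [Nc]

omit [Fintype J] [DecidableEq J] in
theorem chi_empty (x : J → Bool) : chi ∅ x = 1 := rfl

omit [Fintype J] [DecidableEq J] in
theorem chi_flip (S : Finset J) (x z : J → Bool) : chi S (flipBy x z) = chi S x * chi S z := by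
  simp [chi, flipBy, sg_xor, prod_mul_distrib]

omit [Fintype J] [DecidableEq J] in
theorem abs_chi (S : Finset J) (x : J → Bool) : |chi S x| = 1 := by
  simp [chi, abs_prod, abs_sg]

omit [Fintype J] [DecidableEq J] in
theorem chi_sq (S : Finset J) (x : J → Bool) : chi S x * chi S x = 1 := by
  simp [chi, ← prod_mul_distrib, sg_sq]

omit [Fintype J] in
theorem chi_mul (S T : Finset J) (x : J → Bool) :
    chi S x * chi T x = chi ((S \ T) ∪ (T \ S)) x := by
  have h1 : chi S x = chi (S \ T) x * chi (S ∩ T) x := by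
    unfold chi; rw [← prod_union (disjoint_sdiff_inter S T), sdiff_union_inter]
  have h2 : chi T x = chi (T \ S) x * chi (S ∩ T) x := by
    unfold chi; rw [inter_comm, ← prod_union (disjoint_sdiff_inter T S), sdiff_union_inter]
  have h3 : chi ((S \ T) ∪ (T \ S)) x = chi (S \ T) x * chi (T \ S) x := by
    unfold chi; rw [prod_union disjoint_sdiff_sdiff]
  rw [h1, h2, h3, mul_mul_mul_comm, chi_sq, mul_one]

theorem sum_chi (S : Finset J) : ∑ x : J → Bool, chi S x = if S = ∅ then Nc J else 0 := by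
  have h : ∀ x : J → Bool, chi S x = ∏ i, (if i ∈ S then sg (x i) else 1) := fun x => by
    rw [prod_ite_mem, univ_inter]; rfl
  simp only [h]
  rw [← Fintype.prod_sum (fun i (b : Bool) => if i ∈ S then sg b else 1)]
  by_cases hS : S = ∅
  · subst hS; simp [Nc]
  · rw [if_neg hS]
    obtain ⟨i, hi⟩ := nonempty_iff_ne_empty.2 hS
    exact prod_eq_zero (mem_univ i) (by simp [hi, sg])

theorem orth (S T : Finset J) :
    ∑ x : J → Bool, chi S x * chi T x = if S = T then Nc J else 0 := by
  simp only [chi_mul, sum_chi]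
  refine if_congr ?_ rfl rfl
  constructor
  · intro h
    ext i
    have := Finset.ext_iff.1 h i
    simp at this
    tauto
  · rintro rfl; simp

theorem complete (x y : J → Bool) :
    ∑ S : Finset J, chi S x * chi S y = if x = y then Nc J else 0 := by
  have : ∑ S : Finset J, chi S x * chi S y = ∏ i, (1 + sg (x i) * sg (y i)) := by
    rw [prod_one_add, powerset_univ]
    exact sum_congr rfl fun S _ => by rw [chi, chi, ← prod_mul_distrib]
  rw [this]
  by_cases h : x = y
  · subst h; simp [sg_sq, Nc]; norm_num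
  · rw [if_neg h]
    obtain ⟨i, hi⟩ := Function.ne_iff.1 h
    refine prod_eq_zero (mem_univ i) ?_
    revert hi; cases x i <;> cases y i <;> simp [sg]

noncomputable def hat (g : (J → Bool) → ℝ) (S : Finset J) : ℝ := (∑ x, g x * chi S x) / Nc J

theorem inversion (g : (J → Bool) → ℝ) (x : J → Bool) : ∑ S, hat g S * chi S x = g x := by
  simp only [hat, div_mul_eq_mul_div, sum_mul, ← sum_div, mul_assoc]
  rw [sum_comm]
  simp only [← mul_sum, complete]
  rw [sum_eq_single x]
  · simp [Nc_pos.ne']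
  · intro y _ hy; simp [hy]
  · simp

noncomputable def avg (g : (J → Bool) → ℝ) : ℝ := (∑ x, g x) / Nc J

theorem avg_eq_hat (g : (J → Bool) → ℝ) : avg g = hat g ∅ := by simp [avg, hat, chi_empty]

theorem flipBy_bij (z : J → Bool) : Function.Bijective fun x : J → Bool => flipBy x z := by
  refine Function.Involutive.bijective fun x => funext fun i => ?_
  simp [flipBy]

theorem sum_flip (z : J → Bool) (g : (J → Bool) → ℝ) : ∑ x, g (flipBy x z) = ∑ x, g x :=
  (flipBy_bij z).sum_comp g

theorem parseval_sum (θ : Finset J → ℝ) (A : Finset (Finset J)) :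
    ∑ x : J → Bool, (∑ S ∈ A, θ S * chi S x) ^ 2 = Nc J * ∑ S ∈ A, (θ S) ^ 2 := by
  simp only [pow_two, sum_mul_sum]
  rw [mul_sum, sum_comm]
  refine sum_congr rfl fun S hS => ?_
  rw [sum_comm, sum_eq_single S]
  · calc ∑ x, θ S * chi S x * (θ S * chi S x) = θ S * θ S * ∑ x, chi S x * chi S x := by
          rw [mul_sum]; exact sum_congr rfl fun x _ => by ring
      _ = _ := by rw [orth, if_pos rfl]; ring
  · intro T _ hne
    calc ∑ x, θ S * chi S x * (θ T * chi T x) = θ S * θ T * ∑ x, chi S x * chi T x := by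
          rw [mul_sum]; exact sum_congr rfl fun x _ => by ring
      _ = 0 := by rw [orth, if_neg hne.symm, mul_zero]
  · intro h; exact absurd hS h

/-- A family `A` of frequencies together with coordinate sets meeting exactly those. -/
structure Blk (J : Type*) [Fintype J] [DecidableEq J] where
  A : Finset (Finset J)
  TT : Finset (Finset J)
  bb : ℕ
  TT_ne : TT.Nonempty
  meets : ∀ S ∈ A, ∀ T ∈ TT, (S ∩ T).Nonempty
  cover : ∀ S, S ∉ A → ∃ T ∈ TT, Disjoint S T
  size : ∀ T ∈ TT, T.card ≤ bb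
  bb_le : bb ≤ Fintype.card J

def Zs (T : Finset J) : Finset (J → Bool) :=
  Fintype.piFinset fun i => if i ∈ T then univ else {false}

theorem mem_Zs {T : Finset J} {z : J → Bool} : z ∈ Zs T ↔ ∀ i, i ∉ T → z i = false := by
  simp only [Zs, Fintype.mem_piFinset]
  constructor
  · intro h i hi; simpa [hi] using h i
  · intro h i; by_cases hi : i ∈ T <;> simp [hi, h i]

theorem card_Zs (T : Finset J) : (Zs T).card = 2 ^ T.card := by
  rw [Zs, Fintype.card_piFinset]
  simp only [apply_ite Finset.card, card_univ, Fintype.card_bool, card_singleton]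
  rw [prod_ite_mem, univ_inter, prod_const]

theorem sum_chi_Zs {S T : Finset J} (h : (S ∩ T).Nonempty) : ∑ z ∈ Zs T, chi S z = 0 := by
  have e : ∀ z : J → Bool, chi S z = ∏ i, (if i ∈ S then sg (z i) else 1) := fun z => by
    rw [prod_ite_mem, univ_inter]; rfl
  simp only [e, Zs]
  rw [← prod_univ_sum (fun i => if i ∈ T then univ else ({false} : Finset Bool))
    (fun i (b : Bool) => if i ∈ S then sg b else 1)]
  obtain ⟨i, hi⟩ := h
  obtain ⟨hiS, hiT⟩ := mem_inter.1 hi
  exact prod_eq_zero (mem_univ i) (by simp [hiS, hiT, sg])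

namespace Blk

variable (B : Blk J)

theorem empty_not_mem : (∅ : Finset J) ∉ B.A := fun h => by
  obtain ⟨T, hT⟩ := B.TT_ne
  simpa using B.meets ∅ h T hT

noncomputable def u (θ : Finset J → ℝ) (x : J → Bool) : ℝ := ∑ S ∈ B.A, θ S * chi S x

theorem u_sub (θ θ' : Finset J → ℝ) (x : J → Bool) : B.u (θ - θ') x = B.u θ x - B.u θ' x := by
  simp [u, sub_mul]

theorem u_add (θ θ' : Finset J → ℝ) (x : J → Bool) : B.u (θ + θ') x = B.u θ x + B.u θ' x := by
  simp [u, add_mul, sum_add_distrib]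

theorem u_smul (t : ℝ) (θ : Finset J → ℝ) (x : J → Bool) : B.u (t • θ) x = t * B.u θ x := by
  simp [u, mul_sum, mul_assoc]

theorem parseval (θ : Finset J → ℝ) :
    ∑ x, (B.u θ x) ^ 2 = Nc J * ∑ S ∈ B.A, (θ S) ^ 2 := parseval_sum θ B.A

/-- Density of the frequency family. -/
noncomputable def dens : ℝ := (B.A.card : ℝ) / Nc J

theorem dens_nonneg : 0 ≤ B.dens := div_nonneg (Nat.cast_nonneg _) Nc_pos.le

theorem u_sq_le (θ : Finset J → ℝ) (x : J → Bool) :
    (B.u θ x) ^ 2 ≤ B.dens * ∑ y, (B.u θ y) ^ 2 := by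
  rw [B.parseval, dens, ← mul_assoc, div_mul_cancel₀ _ Nc_pos.ne']
  calc (B.u θ x) ^ 2 ≤ (∑ S ∈ B.A, (θ S) ^ 2) * ∑ S ∈ B.A, (chi S x) ^ 2 :=
        sum_mul_sq_le_sq_mul_sq _ _ _
    _ = _ := by simp [pow_two, chi_sq, mul_comm]

theorem hat_u (θ : Finset J → ℝ) {S : Finset J} (hS : S ∈ B.A) : hat (B.u θ) S = θ S := by
  simp only [hat, u, sum_mul, mul_assoc]
  rw [sum_comm]
  simp only [← mul_sum, orth, mul_ite, mul_zero, sum_ite_eq', hS, if_true]
  field_simp [(Nc_pos (J := J)).ne']

/-- `g` is orthogonal to every character of the family. -/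
def Perp (g : (J → Bool) → ℝ) : Prop := ∀ S ∈ B.A, ∑ x, g x * chi S x = 0

theorem perp_add {g h : (J → Bool) → ℝ} (hg : B.Perp g) (hh : B.Perp h) :
    B.Perp fun x => g x + h x := fun S hS => by
  simp [add_mul, sum_add_distrib, hg S hS, hh S hS]

theorem perp_sub {g h : (J → Bool) → ℝ} (hg : B.Perp g) (hh : B.Perp h) :
    B.Perp fun x => g x - h x := fun S hS => by
  simp [sub_mul, sum_sub_distrib, hg S hS, hh S hS]

theorem perp_smul {g : (J → Bool) → ℝ} (c : ℝ) (hg : B.Perp g) :
    B.Perp fun x => c * g x := fun S hS => by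
  simp [mul_assoc, ← mul_sum, hg S hS]

theorem perp_sum {ι : Type*} (s : Finset ι) {g : ι → (J → Bool) → ℝ}
    (hg : ∀ i ∈ s, B.Perp (g i)) : B.Perp fun x => ∑ i ∈ s, g i x := fun S hS => by
  simp only [sum_mul]
  rw [sum_comm]
  exact sum_eq_zero fun i hi => hg i hi S hS

/-- Invariant functions along one coordinate set are orthogonal to the family. -/
theorem perp_invariant {g : (J → Bool) → ℝ} {T : Finset J} (hT : T ∈ B.TT)
    (h : ∀ x, ∀ z ∈ Zs T, g (flipBy x z) = g x) : B.Perp g := by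
  intro S hS
  have key : ∀ z ∈ Zs T, ∑ x, g x * chi S x = chi S z * ∑ x, g x * chi S x := by
    intro z hz
    conv_lhs => rw [← sum_flip z fun x => g x * chi S x]
    rw [mul_sum]
    refine sum_congr rfl fun x _ => ?_
    rw [h x z hz, chi_flip]; ring
  have := sum_congr rfl key
  rw [← sum_mul, sum_chi_Zs (B.meets S hS T hT), zero_mul, sum_const, nsmul_eq_mul] at this
  rcases mul_eq_zero.1 this with h0 | h0
  · rw [card_Zs] at h0; simp at h0
  · exact h0

theorem perp_const (c : ℝ) : B.Perp fun _ => c := by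
  obtain ⟨T, hT⟩ := B.TT_ne
  exact B.perp_invariant hT fun _ _ _ => rfl

/-- An integer function with all coset sums of size below one lies in the span of the family. -/
theorem lift_int (Δ : (J → Bool) → ℤ)
    (h : ∀ T ∈ B.TT, ∀ x, |∑ z ∈ Zs T, ((Δ (flipBy x z) : ℤ) : ℝ)| < 1) :
    ∀ x, B.u (hat fun y => (Δ y : ℝ)) x = Δ x := by
  intro x
  set g : (J → Bool) → ℝ := fun y => (Δ y : ℝ)
  have hz : ∀ T ∈ B.TT, ∀ y, ∑ z ∈ Zs T, g (flipBy y z) = 0 := by
    intro T hT y
    have h1 := h T hT y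
    rw [← Int.cast_sum, ← Int.cast_abs] at h1
    have h2 : |∑ z ∈ Zs T, Δ (flipBy y z)| < 1 := by exact_mod_cast h1
    have h3 := Int.abs_lt_one_iff.1 h2
    show ∑ z ∈ Zs T, ((Δ (flipBy y z) : ℤ) : ℝ) = 0
    rw [← Int.cast_sum, h3, Int.cast_zero]
  have hS : ∀ S, S ∉ B.A → hat g S = 0 := by
    intro S hS
    obtain ⟨T, hT, hd⟩ := B.cover S hS
    have hc : ∀ z ∈ Zs T, chi S z = 1 := by
      intro z hz
      refine prod_eq_one fun i hi => ?_
      rw [mem_Zs.1 hz i (disjoint_left.1 hd hi)]; rfl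
    have h0 : ∑ y, (∑ z ∈ Zs T, g (flipBy y z)) * chi S y = 0 := by simp [hz T hT]
    simp only [sum_mul] at h0
    rw [sum_comm] at h0
    have h1 : ∀ z ∈ Zs T, ∑ y, g (flipBy y z) * chi S y = ∑ y, g y * chi S y := by
      intro z hz'
      rw [← sum_flip z fun y => g y * chi S y]
      exact sum_congr rfl fun y _ => by rw [chi_flip, hc z hz', mul_one]
    rw [sum_congr rfl h1, sum_const, nsmul_eq_mul, card_Zs] at h0
    rcases mul_eq_zero.1 h0 with h2 | h2
    · simp at h2
    · simp [hat, h2]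
  conv_rhs => rw [show ((Δ x : ℤ) : ℝ) = g x from rfl, ← inversion g x]
  exact sum_subset (subset_univ _) fun S _ h' => by rw [hS S h', zero_mul]

theorem coset_sum_u (θ : Finset J → ℝ) {T : Finset J} (hT : T ∈ B.TT) (x : J → Bool) :
    ∑ z ∈ Zs T, B.u θ (flipBy x z) = 0 := by
  simp only [u, chi_flip]
  rw [sum_comm]
  refine sum_eq_zero fun S hS => ?_
  rw [← mul_sum, ← mul_sum, sum_chi_Zs (B.meets S hS T hT)]
  ring

/-- A vector whose values are close to integers is close to a lattice vector. -/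
theorem near_lattice (θ : Finset J → ℝ) {b : ℝ} (hb : (2:ℝ) ^ B.bb * b < 1)
    (h : ∀ x, |B.u θ x - round (B.u θ x)| ≤ b) :
    ∃ l : Finset J → ℝ, ∀ x, B.u l x = round (B.u θ x) ∧ |B.u (θ - l) x| ≤ b := by
  refine ⟨hat fun y => ((round (B.u θ y) : ℤ) : ℝ), fun x => ?_⟩
  have key := B.lift_int (fun y => round (B.u θ y)) (fun T hT y => by
    have h0 := B.coset_sum_u θ hT y
    calc |∑ z ∈ Zs T, ((round (B.u θ (flipBy y z)) : ℤ) : ℝ)|
        = |∑ z ∈ Zs T, (B.u θ (flipBy y z) - (round (B.u θ (flipBy y z)) : ℝ))| := by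
          rw [sum_sub_distrib, h0, zero_sub, abs_neg]
      _ ≤ ∑ z ∈ Zs T, |B.u θ (flipBy y z) - (round (B.u θ (flipBy y z)) : ℝ)| :=
          abs_sum_le_sum_abs _ _
      _ ≤ (Zs T).card • b := sum_le_card_nsmul _ _ _ fun z _ => h _
      _ ≤ 2 ^ B.bb * b := by
          have b0 : 0 ≤ b := le_trans (abs_nonneg _) (h y)
          rw [nsmul_eq_mul, card_Zs]
          push_cast
          exact mul_le_mul_of_nonneg_right (pow_le_pow_right₀ one_le_two (B.size T hT)) b0
      _ < 1 := hb) x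
  exact ⟨key, by rw [B.u_sub, key]; exact h x⟩

theorem perp_iff_hat {g : (J → Bool) → ℝ} : B.Perp g ↔ ∀ S ∈ B.A, hat g S = 0 := by
  simp [Perp, hat, Nc_pos.ne']

noncomputable def proj (g : (J → Bool) → ℝ) : (J → Bool) → ℝ := B.u (hat g)

theorem perp_sub_proj (g : (J → Bool) → ℝ) : B.Perp fun x => g x - B.proj g x := by
  rw [perp_iff_hat]
  intro S hS
  have h := B.hat_u (hat g) hS
  simp only [hat, sub_mul, sum_sub_distrib, sub_div] at h ⊢
  simp only [proj]
  rw [sub_eq_zero]
  exact h.symm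

noncomputable def ker (x z : J → Bool) : ℝ := (∑ S ∈ B.A, chi S x * chi S z) / Nc J

theorem proj_eq_ker (g : (J → Bool) → ℝ) (x : J → Bool) :
    B.proj g x = ∑ z, B.ker x z * g z := by
  simp only [proj, u, hat, ker, div_mul_eq_mul_div, sum_mul, ← sum_div]
  rw [sum_comm]
  exact congrArg (· / Nc J) (sum_congr rfl fun z _ => sum_congr rfl fun S _ => by ring)

theorem ker_sq (x : J → Bool) : ∑ z, (B.ker x z) ^ 2 = B.dens := by
  simp only [ker, div_pow, ← sum_div]
  rw [parseval_sum (fun S => chi S x) B.A]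
  simp only [pow_two, chi_sq, sum_const, nsmul_eq_mul, mul_one, dens]
  field_simp [(Nc_pos (J := J)).ne']

end Blk

end Vale.Agent.P047
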