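import Mathlib
import Vale.Agent.P047.Cube

/-! Gadgets: labellings of a cube whose classes have low degree. -/

namespace Vale.Agent.P047

open Finset

/-- All Fourier coefficients above level `d` vanish. -/
def DegLE {n : ℕ} (d : ℕ) (f : (Fin n → Bool) → ℝ) : Prop :=
  ∀ S : Finset (Fin n), d < S.card → hat f S = 0

def ssum {n : ℕ} (x : Fin n → Bool) : ℝ := ∑ i, sg (x i)

/-- A labelling of `Fin n → Bool` by `M` labels, all classes of degree at most `d`. -/
structure Gadget (M : ℕ) where
  n : ℕ
  d : ℕ
  n_pos : 0 < n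
  lab : (Fin n → Bool) → Fin M
  deg : ∀ a, DegLE d fun x => if lab x = a then (1:ℝ) else 0

namespace Gadget

variable {M : ℕ} (g : Gadget M)

noncomputable def P (a : Fin M) : ℝ := avg fun x => if g.lab x = a then (1:ℝ) else 0

noncomputable def v (a : Fin M) : ℝ :=
  (avg fun x => if g.lab x = a then ssum x else 0) / (g.P a * Real.sqrt g.n)

noncomputable def om : ℝ := ∑ a, g.P a * (g.v a) ^ 2

/-- Weight of a word of `k` symbols. -/
noncomputable def wpi {k m : ℕ} (e : (Fin m → Bool) ≃ Fin M) (x : Fin k × Fin m → Bool) : ℝ :=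
  ∏ j, g.P (e fun i => x (j, i))

/-- Sum of the conditional means of a word of `k` symbols. -/
noncomputable def zsum {k m : ℕ} (e : (Fin m → Bool) ≃ Fin M) (x : Fin k × Fin m → Bool) : ℝ :=
  ∑ j, g.v (e fun i => x (j, i))

end Gadget

/-- Blocks met by a set of coordinates. -/
def touched {k m : ℕ} (S : Finset (Fin k × Fin m)) : Finset (Fin k) := S.image Prod.fst

end Vale.Agent.P047
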