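import Vale.Agent.P047.Cube
import Vale.Agent.P047.GadgetDefs

/-!
P047: the frequency family of the product construction: sets meeting more than `k - s` of the
`k` blocks.
-/

namespace Vale.Agent.P047

open Finset

lemma mem_touched {k m : ℕ} {S : Finset (Fin k × Fin m)} {j : Fin k} :
    j ∈ touched S ↔ ∃ i, (j, i) ∈ S := by
  simp [touched]

/-- The number of sets with a prescribed set of untouched blocks. -/
lemma card_touched_eq {k m : ℕ} (U : Finset (Fin k)) :
    ((univ : Finset (Finset (Fin k × Fin m))).filter (fun S => touched S = Uᶜ)).card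
      ≤ (2 ^ m - 1) ^ (k - U.card) := by
  classical
  calc ((univ : Finset (Finset (Fin k × Fin m))).filter (fun S => touched S = Uᶜ)).card
      ≤ (Fintype.piFinset fun j : Fin k =>
          if j ∈ U then ({∅} : Finset (Finset (Fin m))) else univ.erase ∅).card := by
        refine card_le_card_of_injOn (fun S j => univ.filter fun i => (j, i) ∈ S) ?_ ?_
        · intro S hS
          rw [mem_coe, mem_filter] at hS
          rw [mem_coe, Fintype.mem_piFinset]
          intro j
          by_cases hj : j ∈ U
          · rw [if_pos hj, mem_singleton, filter_eq_empty_iff]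
            intro i _ hi
            have : j ∈ touched S := mem_touched.2 ⟨i, hi⟩
            rw [hS.2, mem_compl] at this
            exact this hj
          · rw [if_neg hj, mem_erase]
            refine ⟨?_, mem_univ _⟩
            have : j ∈ touched S := by rw [hS.2, mem_compl]; exact hj
            obtain ⟨i, hi⟩ := mem_touched.1 this
            exact Nonempty.ne_empty ⟨i, by simp [hi]⟩
        · intro S _ S' _ h
          ext ⟨j, i⟩
          have := Finset.ext_iff.1 (congr_fun h j) i
          simpa using this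
    _ = (2 ^ m - 1) ^ (k - U.card) := by
        rw [Fintype.card_piFinset]
        simp only [apply_ite Finset.card, card_singleton, card_erase_of_mem (mem_univ _), card_univ,
          Fintype.card_finset, Fintype.card_fin]
        rw [← prod_compl_mul_prod U, prod_eq_one (s := U) (fun j hj => if_pos hj), mul_one,
          prod_congr rfl (fun j hj => if_neg (mem_compl.1 hj)), prod_const, card_compl,
          Fintype.card_fin]

/-- The number of frequencies touching more than `k - s` blocks. -/
lemma card_A_le {k m : ℕ} (s : ℕ) (hs : s ≤ k) :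
    ((((univ : Finset (Finset (Fin k × Fin m))).filter
      (fun S => k - s < (touched S).card)).card : ℕ) : ℝ)
      ≤ (s : ℝ) * (k : ℝ) ^ s * Real.exp (-(((k : ℝ) - s) / 2 ^ m)) * 2 ^ (k * m) := by
  classical
  set A := (univ : Finset (Finset (Fin k × Fin m))).filter (fun S => k - s < (touched S).card)
  set c := Real.exp (-(((k : ℝ) - s) / 2 ^ m)) * (2 : ℝ) ^ (k * m) with hc
  have hone : ∀ j, j < s → (((2 ^ m - 1) ^ (k - j) : ℕ) : ℝ) ≤ c := by
    intro j hj
    have h1 : (1 : ℕ) ≤ 2 ^ m := Nat.one_le_two_pow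
    have hp : (0 : ℝ) < 2 ^ m := by positivity
    have hle : (1 : ℝ) / 2 ^ m ≤ 1 := by
      rw [div_le_one hp]; exact_mod_cast h1
    have hpow : (2 : ℝ) ^ (k * m) = ((2 : ℝ) ^ m) ^ (k - j) * ((2 : ℝ) ^ m) ^ j := by
      rw [← pow_add, ← pow_mul, Nat.sub_add_cancel (by omega), mul_comm]
    push_cast [h1]
    calc ((2 : ℝ) ^ m - 1) ^ (k - j) = (1 - 1 / 2 ^ m) ^ (k - j) * ((2 : ℝ) ^ m) ^ (k - j) := by
          rw [← mul_pow, sub_mul, one_mul, div_mul_cancel₀ _ hp.ne']
      _ ≤ Real.exp (-(1 / 2 ^ m)) ^ (k - j) * ((2 : ℝ) ^ m) ^ (k - j) := by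
          refine mul_le_mul_of_nonneg_right (pow_le_pow_left₀ (by linarith) ?_ _) (by positivity)
          linarith [Real.add_one_le_exp (-(1 / (2 : ℝ) ^ m))]
      _ ≤ Real.exp (-(((k : ℝ) - s) / 2 ^ m)) * (2 : ℝ) ^ (k * m) := by
          refine mul_le_mul ?_ ?_ (by positivity) (Real.exp_pos _).le
          · rw [← Real.exp_nat_mul, Real.exp_le_exp, mul_neg, mul_one_div, neg_le_neg_iff]
            refine div_le_div_of_nonneg_right ?_ hp.le
            rw [Nat.cast_sub (by omega)]
            have : (j : ℝ) ≤ s := by exact_mod_cast hj.le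
            linarith
          · rw [hpow]
            exact le_mul_of_one_le_right (by positivity) (one_le_pow₀ (one_le_pow₀ one_le_two))
  have hsub : A ⊆ (range s).biUnion fun j => ((univ : Finset (Fin k)).powersetCard j).biUnion
      fun U => (univ : Finset (Finset (Fin k × Fin m))).filter (fun S => touched S = Uᶜ) := by
    intro S hS
    have hS' := (mem_filter.1 hS).2
    have hle : (touched S).card ≤ k := by
      simpa using card_le_univ (touched S)
    refine mem_biUnion.2 ⟨k - (touched S).card, mem_range.2 (by omega),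
      mem_biUnion.2 ⟨(touched S)ᶜ, mem_powersetCard.2 ⟨subset_univ _, ?_⟩,
        mem_filter.2 ⟨mem_univ _, (compl_compl _).symm⟩⟩⟩
    rw [card_compl, Fintype.card_fin]
  calc ((A.card : ℕ) : ℝ)
      ≤ ((∑ j ∈ range s, k.choose j * (2 ^ m - 1) ^ (k - j) : ℕ) : ℝ) := by
        refine Nat.cast_le.2 ((card_le_card hsub).trans (card_biUnion_le.trans
          (sum_le_sum fun j _ => ?_)))
        refine (card_biUnion_le.trans (sum_le_card_nsmul _ _ ((2 ^ m - 1) ^ (k - j))
          fun U hU => ?_)).trans (le_of_eq ?_)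
        · exact (card_touched_eq (m := m) U).trans (le_of_eq (by rw [(mem_powersetCard.1 hU).2]))
        · rw [card_powersetCard, card_univ, Fintype.card_fin, smul_eq_mul]
    _ ≤ ∑ _j ∈ range s, (k : ℝ) ^ s * c := by
        push_cast [Nat.one_le_two_pow]
        refine sum_le_sum fun j hj => ?_
        have hj' := mem_range.1 hj
        have h := hone j hj'
        push_cast [Nat.one_le_two_pow] at h
        refine mul_le_mul ?_ h (pow_nonneg (by
          linarith [one_le_pow₀ (n := m) (one_le_two (α := ℝ))]) _) (by positivity)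
        calc ((k.choose j : ℕ) : ℝ) ≤ (k : ℝ) ^ j := by exact_mod_cast Nat.choose_le_pow k j
          _ ≤ (k : ℝ) ^ s := pow_le_pow_right₀ (by exact_mod_cast (show 1 ≤ k by omega)) hj'.le
    _ = _ := by rw [sum_const, card_range, nsmul_eq_mul, hc]; ring

theorem exists_blk (k m s G : ℕ) (hs : 1 ≤ s) (hk : k = s * G) (hG : 1 ≤ G) (hm : 1 ≤ m) :
    ∃ B : Blk (Fin k × Fin m), (∀ S, S ∈ B.A ↔ k - s < (touched S).card) ∧ B.bb = s * m ∧
      0 < B.dens ∧ B.dens ≤ (s : ℝ) * (k : ℝ) ^ s * Real.exp (-(((k : ℝ) - s) / 2 ^ m)) ∧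
      (∃ T : Fin G → Finset (Fin k × Fin m),
        (∀ i, T i ∈ B.TT) ∧ ∀ i j, i ≠ j → Disjoint (T i) (T j)) ∧
      ∀ (h : (Fin m → Bool) → ℝ) (p : Polynomial ℝ), p.natDegree ≤ k - s →
        B.Perp fun x => p.eval (∑ j, h fun i => x (j, i)) := by
  classical
  have hsk : s ≤ k := by rw [hk]; exact Nat.le_mul_of_pos_right s hG
  set TT : Finset (Finset (Fin k × Fin m)) :=
    ((univ : Finset (Fin k)).powersetCard s).image (fun T => T ×ˢ univ) with hTT
  have hmemTT : ∀ {T₀ : Finset (Fin k)}, T₀.card = s → T₀ ×ˢ univ ∈ TT := fun h =>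
    mem_image_of_mem _ (mem_powersetCard.2 ⟨subset_univ _, h⟩)
  have hfree : ∀ U : Finset (Fin k), U.card ≤ k - s →
      ∃ T₀ : Finset (Fin k), T₀.card = s ∧ Disjoint U T₀ := by
    intro U hU
    obtain ⟨T₀, h1, h2⟩ := exists_subset_card_eq (s := Uᶜ) (n := s)
      (by rw [card_compl, Fintype.card_fin]; omega)
    exact ⟨T₀, h2, disjoint_left.2 fun a ha ha' => mem_compl.1 (h1 ha') ha⟩
  let B : Blk (Fin k × Fin m) :=
    { A := univ.filter (fun S => k - s < (touched S).card)
      TT := TT
      bb := s * m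
      TT_ne := by
        obtain ⟨T₀, h, -⟩ := hfree ∅ (by simp)
        exact ⟨_, hmemTT h⟩
      meets := by
        intro S hS T hT
        obtain ⟨T₀, hT₀, rfl⟩ := mem_image.1 hT
        have hc := (mem_powersetCard.1 hT₀).2
        obtain ⟨j, hj⟩ : (touched S ∩ T₀).Nonempty := by
          rw [← card_pos]
          have h1 := card_union_add_card_inter (touched S) T₀
          have h2 : (touched S ∪ T₀).card ≤ k := by simpa using card_le_univ (touched S ∪ T₀)
          have h3 := (mem_filter.1 hS).2
          omega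
        obtain ⟨hj1, hj2⟩ := mem_inter.1 hj
        obtain ⟨i, hi⟩ := mem_touched.1 hj1
        exact ⟨(j, i), mem_inter.2 ⟨hi, mem_product.2 ⟨hj2, mem_univ _⟩⟩⟩
      cover := by
        intro S hS
        obtain ⟨T₀, h, hd⟩ := hfree (touched S) (by simpa using hS)
        refine ⟨_, hmemTT h, disjoint_left.2 fun ⟨j, i⟩ hx hx' => ?_⟩
        exact disjoint_left.1 hd (mem_touched.2 ⟨i, hx⟩) (mem_product.1 hx').1
      size := by
        intro T hT
        obtain ⟨T₀, hT₀, rfl⟩ := mem_image.1 hT
        rw [card_product, (mem_powersetCard.1 hT₀).2, card_univ, Fintype.card_fin]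
      bb_le := by
        rw [Fintype.card_prod, Fintype.card_fin, Fintype.card_fin]
        exact Nat.mul_le_mul_right m hsk }
  have hnc : Nc (Fin k × Fin m) = (2 : ℝ) ^ (k * m) := by simp [Nc]
  refine ⟨B, fun S => by simp [B], rfl, div_pos ?_ Nc_pos, ?_, ?_, fun h p hp => ?_⟩
  · refine Nat.cast_pos.2 (card_pos.2 ⟨univ, mem_filter.2 ⟨mem_univ _, ?_⟩⟩)
    have : touched (univ : Finset (Fin k × Fin m)) = univ := by
      ext j
      simp only [mem_touched, mem_univ, iff_true, and_true]
      exact ⟨⟨0, by omega⟩, trivial⟩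
    rw [this, card_univ, Fintype.card_fin]
    omega
  · rw [Blk.dens, div_le_iff₀ Nc_pos, hnc]
    exact card_A_le s hsk
  · refine ⟨fun i => (univ.filter fun j : Fin k => (j : ℕ) / s = i) ×ˢ univ, fun i => hmemTT ?_,
      fun i j hij => ?_⟩
    · have hi := i.2
      rw [← card_map Fin.valEmbedding, show (univ.filter fun j : Fin k => (j : ℕ) / s = i).map
        Fin.valEmbedding = Ico ((i : ℕ) * s) ((i + 1 : ℕ) * s) from ?_, Nat.card_Ico, add_mul,
        one_mul, Nat.add_sub_cancel_left]
      ext a
      simp only [mem_map, mem_filter, mem_univ, true_and, Fin.valEmbedding_apply, mem_Ico]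
      constructor
      · rintro ⟨b, hb, rfl⟩
        exact (Nat.div_eq_iff (by omega)).1 hb |> fun h => ⟨h.1, by rw [add_mul, one_mul]; omega⟩
      · rintro ⟨h1, h2⟩
        refine ⟨⟨a, ?_⟩, Nat.div_eq_of_lt_le h1 h2, rfl⟩
        calc a < ((i : ℕ) + 1) * s := h2
          _ ≤ G * s := Nat.mul_le_mul_right s hi
          _ = k := by rw [hk, mul_comm]
    · refine disjoint_left.2 fun x hx hx' => hij (Fin.ext ?_)
      rw [← (mem_filter.1 (mem_product.1 hx).1).2, (mem_filter.1 (mem_product.1 hx').1).2]
  · simp only [Polynomial.eval_eq_sum_range, Finset.mul_sum, Fintype.sum_pow]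
    refine B.perp_sum _ fun e he => B.perp_sum _ fun f _ => ?_
    have he' : e ≤ k - s := by
      have := mem_range.1 he; omega
    obtain ⟨T₀, hc, hd⟩ := hfree (univ.image f) (card_image_le.trans (by simpa using he'))
    refine B.perp_invariant (hmemTT hc) fun x z hz => ?_
    refine congrArg _ (prod_congr rfl fun l _ => congrArg h (funext fun i => ?_))
    have : z (f l, i) = false := mem_Zs.1 hz _ fun hmem =>
      disjoint_left.1 hd (mem_image_of_mem f (mem_univ l)) (mem_product.1 hmem).1
    simp [flipBy, this]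

end Vale.Agent.P047
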