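import Mathlib

/-! Finite product probability spaces. -/

namespace Vale.Agent.P047

open Finset

variable {Z α : Type*} [Fintype Z] [Fintype α]

/-- A probability weight for each coordinate. -/
structure PW (Z α : Type*) [Fintype Z] [Fintype α] where
  w : Z → α → ℝ
  nonneg : ∀ z a, 0 ≤ w z a
  sum_one : ∀ z, ∑ a, w z a = 1

namespace PW

variable [DecidableEq Z] (P : PW Z α)

def wt (ω : Z → α) : ℝ := ∏ z, P.w z (ω z)

def E (X : (Z → α) → ℝ) : ℝ := ∑ ω, P.wt ω * X ω

noncomputable def pr (p : (Z → α) → Prop) : ℝ := by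
  classical exact P.E fun ω => if p ω then 1 else 0

omit [DecidableEq Z] in
theorem wt_nonneg (ω : Z → α) : 0 ≤ P.wt ω := prod_nonneg fun _ _ => P.nonneg _ _

theorem E_prod (φ : Z → α → ℝ) : P.E (fun ω => ∏ z, φ z (ω z)) = ∏ z, ∑ a, P.w z a * φ z a := by
  simp only [E, wt, ← prod_mul_distrib]
  exact (Fintype.prod_sum fun z a => P.w z a * φ z a).symm

theorem E_const (c : ℝ) : P.E (fun _ => c) = c := by
  have := P.E_prod fun _ _ => 1
  simp only [prod_const_one, mul_one, P.sum_one, E] at this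
  simp only [E, ← sum_mul]
  rw [this, one_mul]

theorem E_add (X Y : (Z → α) → ℝ) : P.E (fun ω => X ω + Y ω) = P.E X + P.E Y := by
  simp only [E, mul_add, sum_add_distrib]

theorem E_smul (c : ℝ) (X : (Z → α) → ℝ) : P.E (fun ω => c * X ω) = c * P.E X := by
  simp only [E, mul_sum]
  exact sum_congr rfl fun _ _ => by ring

theorem E_sum {ι : Type*} (s : Finset ι) (X : ι → (Z → α) → ℝ) :
    P.E (fun ω => ∑ i ∈ s, X i ω) = ∑ i ∈ s, P.E (X i) := by
  simp only [E, mul_sum]
  exact sum_comm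

theorem E_mono {X Y : (Z → α) → ℝ} (h : ∀ ω, X ω ≤ Y ω) : P.E X ≤ P.E Y :=
  sum_le_sum fun ω _ => mul_le_mul_of_nonneg_left (h ω) (P.wt_nonneg ω)

theorem E_single (z : Z) (φ : α → ℝ) : P.E (fun ω => φ (ω z)) = ∑ a, P.w z a * φ a := by
  have h := P.E_prod fun y a => if y = z then φ a else 1
  have h1 : ∀ ω : Z → α, (∏ y, if y = z then φ (ω y) else 1) = φ (ω z) := fun ω => by
    rw [prod_ite_eq' univ z fun y => φ (ω y)]; simp
  simp only [h1] at h
  rw [h, ← mul_prod_erase univ _ (mem_univ z), prod_eq_one, mul_one]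
  · exact sum_congr rfl fun a _ => by rw [if_pos rfl]
  · intro y hy
    simp [ne_of_mem_erase hy, P.sum_one]

theorem E_pair {z z' : Z} (hne : z ≠ z') (φ ψ : α → ℝ) :
    P.E (fun ω => φ (ω z) * ψ (ω z')) = (∑ a, P.w z a * φ a) * ∑ a, P.w z' a * ψ a := by
  have h := P.E_prod fun y a => if y = z then φ a else if y = z' then ψ a else 1
  have hz' : z' ∈ (univ : Finset Z).erase z := mem_erase.2 ⟨hne.symm, mem_univ _⟩
  have h1 : ∀ ω : Z → α,
      (∏ y, if y = z then φ (ω y) else if y = z' then ψ (ω y) else 1) = φ (ω z) * ψ (ω z') := by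
    intro ω
    rw [← mul_prod_erase univ _ (mem_univ z), ← mul_prod_erase _ _ hz', prod_eq_one]
    · simp [hne.symm]
    · intro y hy
      simp [ne_of_mem_erase hy, ne_of_mem_erase (mem_of_mem_erase hy)]
  simp only [h1] at h
  rw [h, ← mul_prod_erase univ _ (mem_univ z), ← mul_prod_erase _ _ hz', prod_eq_one]
  · simp [hne.symm]
  · intro y hy
    simp [ne_of_mem_erase hy, ne_of_mem_erase (mem_of_mem_erase hy), P.sum_one]

theorem pr_nonneg (p : (Z → α) → Prop) : 0 ≤ P.pr p := by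
  classical
  exact sum_nonneg fun ω _ => mul_nonneg (P.wt_nonneg ω) (by beta_reduce; split_ifs <;> norm_num)

theorem pr_mono {p q : (Z → α) → Prop} (h : ∀ ω, p ω → q ω) : P.pr p ≤ P.pr q := by
  classical
  refine P.E_mono fun ω => ?_
  by_cases hp : p ω
  · simp [hp, h ω hp]
  · simp only [hp, if_false]; split_ifs <;> norm_num

theorem pr_or (p q : (Z → α) → Prop) : P.pr (fun ω => p ω ∨ q ω) ≤ P.pr p + P.pr q := by
  classical
  unfold pr
  rw [← P.E_add]
  refine P.E_mono fun ω => ?_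
  by_cases hp : p ω <;> by_cases hq : q ω <;> simp [hp, hq]

theorem pr_exists {ι : Type*} (s : Finset ι) (p : ι → (Z → α) → Prop) :
    P.pr (fun ω => ∃ i ∈ s, p i ω) ≤ ∑ i ∈ s, P.pr (p i) := by
  classical
  unfold pr
  rw [← P.E_sum]
  refine P.E_mono fun ω => ?_
  by_cases h : ∃ i ∈ s, p i ω
  · obtain ⟨i, hi, hp⟩ := h
    rw [if_pos ⟨i, hi, hp⟩]
    exact le_trans (by simp [hp])
      (single_le_sum (f := fun i => if p i ω then (1:ℝ) else 0)
        (fun j _ => by split_ifs <;> norm_num) hi)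
  · rw [if_neg h]
    exact sum_nonneg fun j _ => by split_ifs <;> norm_num

theorem markov {X : (Z → α) → ℝ} (h0 : ∀ ω, 0 ≤ X ω) {a : ℝ} (ha : 0 < a) :
    P.pr (fun ω => a ≤ X ω) ≤ P.E X / a := by
  classical
  rw [div_eq_inv_mul, ← P.E_smul]
  refine P.E_mono fun ω => ?_
  by_cases h : a ≤ X ω
  · rw [if_pos h, ← mul_le_mul_iff_right₀ ha, mul_one, ← mul_assoc, mul_inv_cancel₀ ha.ne', one_mul]
    exact h
  · rw [if_neg h]; exact mul_nonneg (inv_nonneg.2 ha.le) (h0 ω)

theorem exists_not {p : (Z → α) → Prop} (h : P.pr p < 1) : ∃ ω, ¬ p ω := by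
  classical
  by_contra hc
  push Not at hc
  have : P.pr p = 1 := by
    unfold pr
    simp only [hc, if_true]
    exact P.E_const 1
  linarith

theorem pr_exp_bound (X : (Z → α) → ℝ) (a b : ℝ) (h : P.E (fun ω => Real.exp (X ω)) ≤ Real.exp b) :
    P.pr (fun ω => a ≤ X ω) ≤ Real.exp (b - a) := by
  refine le_trans (P.pr_mono (q := fun ω => Real.exp a ≤ Real.exp (X ω))
    fun ω hω => Real.exp_le_exp.2 hω) ?_
  refine le_trans (P.markov (fun ω => (Real.exp_pos _).le) (Real.exp_pos a)) ?_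
  rw [Real.exp_sub]
  gcongr

end PW

theorem exp_chord {y b : ℝ} (hb : 0 < b) (hy : |y| ≤ b) :
    Real.exp y ≤ Real.cosh b + y / b * Real.sinh b := by
  obtain ⟨h1, h2⟩ := abs_le.1 hy
  have hw1 : 0 ≤ (b + y) / (2 * b) := div_nonneg (by linarith) (by linarith)
  have hw2 : 0 ≤ (b - y) / (2 * b) := div_nonneg (by linarith) (by linarith)
  have hsum : (b + y) / (2 * b) + (b - y) / (2 * b) = 1 := by field_simp; ring
  have := convexOn_exp.2 (Set.mem_univ b) (Set.mem_univ (-b)) hw1 hw2 hsum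
  simp only [smul_eq_mul] at this
  rw [show (b + y) / (2 * b) * b + (b - y) / (2 * b) * -b = y by field_simp; ring] at this
  refine le_trans this (le_of_eq ?_)
  rw [Real.cosh_eq, Real.sinh_eq]
  field_simp
  ring

/-- Hoeffding's bound for one bounded centred variable. -/
theorem hoeff_one {α : Type*} [Fintype α] (w x : α → ℝ) (h0 : ∀ a, 0 ≤ w a) (h1 : ∑ a, w a = 1)
    (hm : ∑ a, w a * x a = 0) {b : ℝ} (hb : ∀ a, |x a| ≤ b) :
    ∑ a, w a * Real.exp (x a) ≤ Real.exp (b ^ 2 / 2) := by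
  rcases le_or_gt b 0 with hb0 | hb0
  · have : ∀ a, x a = 0 := fun a => abs_nonpos_iff.1 (le_trans (hb a) hb0)
    simp only [this, Real.exp_zero, mul_one, h1]
    exact Real.one_le_exp (by positivity)
  calc ∑ a, w a * Real.exp (x a) ≤ ∑ a, w a * (Real.cosh b + x a / b * Real.sinh b) :=
        sum_le_sum fun a _ => mul_le_mul_of_nonneg_left (exp_chord hb0 (hb a)) (h0 a)
    _ = (∑ a, w a) * Real.cosh b + (∑ a, w a * x a) * (Real.sinh b / b) := by
        simp only [mul_add, sum_add_distrib, sum_mul]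
        congr 1
        exact sum_congr rfl fun a _ => by ring
    _ ≤ _ := by
        rw [h1, hm, one_mul, zero_mul, add_zero]
        exact Real.cosh_le_exp_half_sq b

end Vale.Agent.P047
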