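import Mathlib
import Vale.Agent.P047.Cube
import Vale.Agent.P047.Prob

/-! Short descriptions of torus points whose values are close to integers on average. -/

namespace Vale.Agent.P047

open Finset

noncomputable def d1 (y : ℝ) : ℝ := |y - round y|

theorem d1_nonneg (y : ℝ) : 0 ≤ d1 y := abs_nonneg _
theorem d1_le_half (y : ℝ) : d1 y ≤ 1/2 := abs_sub_round y
theorem d1_le (y : ℝ) (n : ℤ) : d1 y ≤ |y - n| := round_le y n

theorem d1_add (a b : ℝ) : d1 (a + b) ≤ d1 a + d1 b := by
  refine le_trans (d1_le _ (round a + round b)) ?_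
  push_cast
  refine le_trans (le_of_eq ?_) (abs_add_le _ _)
  congr 1; ring

theorem d1_neg (a : ℝ) : d1 (-a) = d1 a := by
  have h : ∀ a, d1 (-a) ≤ d1 a := fun a => by
    refine le_trans (d1_le _ (-round a)) (le_of_eq ?_)
    rw [d1, ← abs_neg]; push_cast; ring_nf
  exact le_antisymm (h a) (by simpa using h (-a))

theorem d1_zero : d1 0 = 0 := by simp [d1]

theorem d1_sub_comm (a b : ℝ) : d1 (a - b) = d1 (b - a) := by rw [← d1_neg (a - b), neg_sub]

theorem d1_tri (a b c : ℝ) : d1 (a - c) ≤ d1 (a - b) + d1 (b - c) :=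
  le_trans (le_of_eq (by ring_nf)) (d1_add (a - b) (b - c))

variable {J : Type*} [Fintype J] [DecidableEq J]

noncomputable def unifPW (Z α : Type*) [Fintype Z] [Fintype α] [Nonempty α] : PW Z α where
  w _ _ := 1 / Fintype.card α
  nonneg _ _ := by positivity
  sum_one _ := by simp

def pt {L : ℕ} (c : Fin L → Bool) (h : Fin L → J → Bool) : J → Bool := fun j =>
  decide (Odd (univ.filter fun i => c i = true ∧ h i j = true).card)

def sc {L : ℕ} (c : Fin L → Bool) : ℝ := ∏ i, if c i then -1 else 1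

theorem sc_abs {L : ℕ} (c : Fin L → Bool) : |sc c| = 1 := by
  rw [sc, abs_prod]; exact prod_eq_one fun i _ => by split_ifs <;> simp

omit [Fintype J] [DecidableEq J] in
theorem chi_pt {L : ℕ} (S : Finset J) (c : Fin L → Bool) (h : Fin L → J → Bool) :
    chi S (pt c h) = ∏ i, if c i then chi S (h i) else 1 := by
  have h1 : ∀ i, (if c i then chi S (h i) else 1) = ∏ j ∈ S, if c i then sg (h i j) else 1 :=
    fun i => by by_cases hc : c i <;> simp [hc, chi]
  simp only [h1]
  rw [prod_comm]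
  refine prod_congr rfl fun j _ => ?_
  have h2 : ∀ i, (if c i then sg (h i j) else 1) =
      if c i = true ∧ h i j = true then (-1:ℝ) else 1 := fun i => by
    cases c i <;> cases h i j <;> simp [sg]
  rw [prod_congr rfl fun i _ => h2 i]
  simp only [prod_ite, prod_const, prod_const_one, mul_one, one_pow, pt, sg]
  by_cases ho : Odd (univ.filter fun i => c i = true ∧ h i j = true).card
  · simp [ho, ho.neg_one_pow, filter_filter]
  · simp [ho, (Nat.not_odd_iff_even.1 ho).neg_one_pow, filter_filter]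

omit [Fintype J] [DecidableEq J] in
theorem pt_zero {L : ℕ} (x : J → Bool) (h : Fin L → J → Bool) :
    flipBy x (pt (fun _ => false) h) = x := by
  funext j; simp [flipBy, pt]

theorem avg_chi (S : Finset J) : avg (chi S) = if S = ∅ then 1 else 0 := by
  rw [avg, sum_chi]; split_ifs <;> simp [Nc_pos.ne']

theorem unif_sum (φ : (J → Bool) → ℝ) :
    ∑ a, (1 / (Fintype.card (J → Bool) : ℝ)) * φ a = avg φ := by
  rw [card_cube, ← mul_sum, avg]; ring

theorem E_chi_pair {L : ℕ} (S T : Finset J) (c c' : Fin L → Bool) :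
    (unifPW (Fin L) (J → Bool)).E (fun h => chi S (pt c h) * chi T (pt c' h)) =
      ∏ i, avg (fun a => (if c i then chi S a else 1) * if c' i then chi T a else 1) := by
  simp only [chi_pt, ← prod_mul_distrib]
  rw [(unifPW (Fin L) (J → Bool)).E_prod fun i a =>
    (if c i then chi S a else 1) * if c' i then chi T a else 1]
  exact prod_congr rfl fun i _ => unif_sum _

theorem E_pair_indep {L : ℕ} (g : (J → Bool) → ℝ) (x : J → Bool) {c c' : Fin L → Bool}
    (hc : c ≠ fun _ => false) (hc' : c' ≠ fun _ => false) (hne : c ≠ c') :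
    (unifPW (Fin L) (J → Bool)).E (fun h => g (flipBy x (pt c h)) * g (flipBy x (pt c' h))) =
      avg g ^ 2 := by
  have e : ∀ z z', g (flipBy x z) * g (flipBy x z') = ∑ S, ∑ T,
      (hat g S * chi S x * (hat g T * chi T x)) * (chi S z * chi T z') := by
    intro z z'
    rw [← inversion g (flipBy x z), ← inversion g (flipBy x z'), sum_mul_sum]
    refine sum_congr rfl fun S _ => sum_congr rfl fun T _ => ?_
    rw [chi_flip, chi_flip]; ring
  simp only [e, PW.E_sum, PW.E_smul, E_chi_pair]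
  have key : ∀ S T : Finset J, ¬(S = ∅ ∧ T = ∅) →
      (∏ i, avg (fun a => (if c i then chi S a else 1) * if c' i then chi T a else 1)) = 0 := by
    intro S T hST
    obtain ⟨i, hi⟩ : ∃ i, ∃ U : Finset J, U ≠ ∅ ∧
        (fun a => (if c i then chi S a else 1) * if c' i then chi T a else 1) = chi U := by
      obtain ⟨i1, h1⟩ := Function.ne_iff.1 hc
      obtain ⟨i2, h2⟩ := Function.ne_iff.1 hc'
      obtain ⟨i3, h3⟩ := Function.ne_iff.1 hne
      simp only [ne_eq, Bool.not_eq_false] at h1 h2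
      by_cases hS : S = ∅
      · have hT : T ≠ ∅ := fun h => hST ⟨hS, h⟩
        exact ⟨i2, T, hT, by simp [h2, hS, chi_empty]⟩
      by_cases hT : T = ∅
      · exact ⟨i1, S, hS, by simp [h1, hT, chi_empty]⟩
      cases h : c i3
      · cases h' : c' i3
        · simp [h, h'] at h3
        · exact ⟨i3, T, hT, by simp [h, h']⟩
      · cases h' : c' i3
        · exact ⟨i3, S, hS, by simp [h, h']⟩
        · simp [h, h'] at h3
    obtain ⟨U, hU, hf⟩ := hi
    exact prod_eq_zero (mem_univ i) (by rw [hf, avg_chi, if_neg hU])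
  rw [sum_eq_single ∅, sum_eq_single ∅]
  · have h1 : ∀ i, avg (fun a : J → Bool =>
        (if c i then chi ∅ a else 1) * if c' i then chi ∅ a else 1) = 1 := fun i => by
      simp [chi_empty, avg, Nc, pow_ne_zero]
    rw [prod_congr rfl fun i _ => h1 i, prod_const_one]
    simp [chi_empty, avg_eq_hat, pow_two]
  · intro T _ hT; rw [key _ _ (fun h => hT h.2), mul_zero]
  · simp
  · intro S _ hS; exact sum_eq_zero fun T _ => by rw [key _ _ (fun h => hS h.1), mul_zero]
  · simp

theorem E_single_point {L : ℕ} (g : (J → Bool) → ℝ) (x : J → Bool) {c : Fin L → Bool}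
    (hc : c ≠ fun _ => false) :
    (unifPW (Fin L) (J → Bool)).E (fun h => g (flipBy x (pt c h))) = avg g := by
  conv_lhs => enter [2, h]; rw [← inversion g (flipBy x (pt c h))]
  simp only [chi_flip, ← mul_assoc, PW.E_sum, PW.E_smul]
  obtain ⟨i, hi⟩ := Function.ne_iff.1 hc
  simp only [ne_eq, Bool.not_eq_false] at hi
  have hE : ∀ S : Finset J, (unifPW (Fin L) (J → Bool)).E (fun h => chi S (pt c h)) =
      if S = ∅ then 1 else 0 := by
    intro S
    by_cases hS : S = ∅
    · subst hS; simp only [chi_empty, PW.E_const]; simp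
    · rw [if_neg hS]
      have := E_chi_pair S ∅ c c
      simp only [chi_empty, mul_one, ite_self] at this
      rw [this]
      exact prod_eq_zero (mem_univ i) (by simp [hi, avg_chi, hS])
  simp only [hE, mul_ite, mul_one, mul_zero, sum_ite_eq', mem_univ, if_true, chi_empty, avg_eq_hat]

namespace Blk

variable (B : Blk J)

noncomputable def err (θ : Finset J → ℝ) (x : J → Bool) : ℝ := B.u θ x - round (B.u θ x)

noncomputable def esq (θ : Finset J → ℝ) : ℝ := ∑ x, (B.err θ x) ^ 2

theorem esq_nonneg (θ : Finset J → ℝ) : 0 ≤ B.esq θ := sum_nonneg fun _ _ => sq_nonneg _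

noncomputable def GS {L : ℕ} (h : Fin L → J → Bool) : Finset (Finset J) :=
  B.A.filter fun S => ∀ i, chi S (h i) = -1

noncomputable def noise {L : ℕ} (θ : Finset J → ℝ) (h : Fin L → J → Bool) (x : J → Bool) : ℝ :=
  ∑ c ∈ univ.erase (fun _ => false), sc c * B.err θ (flipBy x (pt c h))

noncomputable def Fest {L : ℕ} (θ : Finset J → ℝ) (h : Fin L → J → Bool) (x : J → Bool) : ℝ :=
  2 ^ L * ∑ S ∈ B.GS h, θ S * chi S x

theorem Fest_eq {L : ℕ} (θ : Finset J → ℝ) (h : Fin L → J → Bool) (x : J → Bool) :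
    B.Fest θ h x = ∑ c : Fin L → Bool, sc c * B.u θ (flipBy x (pt c h)) := by
  simp only [u, chi_flip, chi_pt, mul_sum]
  rw [sum_comm, Fest, GS, mul_sum, sum_filter]
  refine sum_congr rfl fun S _ => ?_
  have : ∑ c : Fin L → Bool, sc c * ∏ i, (if c i then chi S (h i) else 1) =
      ∏ i, (1 - chi S (h i)) := by
    simp only [sc, ← prod_mul_distrib]
    rw [← Fintype.prod_sum (fun i (b : Bool) =>
      (if b then (-1:ℝ) else 1) * if b then chi S (h i) else 1)]
    exact prod_congr rfl fun i _ => by simp; ring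
  calc (if ∀ i, chi S (h i) = -1 then 2 ^ L * (θ S * chi S x) else 0)
      = θ S * chi S x * ∏ i, (1 - chi S (h i)) := by
        by_cases ha : ∀ i, chi S (h i) = -1
        · rw [if_pos ha]
          simp only [ha, prod_const, card_univ, Fintype.card_fin]
          norm_num; ring
        · rw [if_neg ha]
          push Not at ha
          obtain ⟨i, hi⟩ := ha
          have h1 : chi S (h i) = 1 := by
            rcases eq_or_eq_neg_of_abs_eq (abs_chi S (h i)) with q | q
            · exact q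
            · exact absurd q hi
          rw [prod_eq_zero (mem_univ i) (by rw [h1, sub_self]), mul_zero]
    _ = _ := by
        rw [← this, mul_sum]
        exact sum_congr rfl fun c _ => by ring

theorem Fest_close {L : ℕ} (θ : Finset J → ℝ) (h : Fin L → J → Bool) (x : J → Bool) :
    d1 (B.u θ x - B.Fest θ h x) ≤ |B.noise θ h x| := by
  rw [Fest_eq, ← add_sum_erase univ _ (mem_univ (fun _ : Fin L => false)), pt_zero]
  have h0 : sc (fun _ : Fin L => false) = 1 := by simp [sc]
  rw [h0, one_mul]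
  obtain ⟨n, hn⟩ : ∃ n : ℤ, ∑ c ∈ univ.erase (fun _ : Fin L => false),
      sc c * (round (B.u θ (flipBy x (pt c h))) : ℝ) = n := by
    refine ⟨∑ c ∈ univ.erase (fun _ : Fin L => false),
      (∏ i, if c i then (-1:ℤ) else 1) * round (B.u θ (flipBy x (pt c h))), ?_⟩
    simp [sc, apply_ite (Int.cast : ℤ → ℝ)]
  refine le_trans (d1_le _ (-n)) (le_of_eq ?_)
  rw [noise, ← abs_neg (∑ c ∈ _, _)]
  simp only [err, mul_sub, sum_sub_distrib, hn]
  congr 1
  push_cast
  ring

theorem E_noise {L : ℕ} (θ : Finset J → ℝ) (x : J → Bool) :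
    (unifPW (Fin L) (J → Bool)).E (fun h => B.noise θ h x ^ 2) ≤
      if L = 0 then 0 else 2 ^ L * (B.esq θ / Nc J) := by
  by_cases hL : L = 0
  · subst hL
    rw [if_pos rfl]
    refine le_of_eq ?_
    have : (univ.erase (fun _ : Fin 0 => false)) = ∅ := by decide
    simp only [noise, this, sum_empty, ne_eq, OfNat.ofNat_ne_zero, not_false_eq_true, zero_pow,
      PW.E_const]
  rw [if_neg hL]
  set g := B.err θ
  set μ := avg g
  set τ := B.esq θ / Nc J with hτ
  have hμ : μ ^ 2 ≤ τ := by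
    simp only [μ, avg, hτ, esq, g, div_pow]
    rw [div_le_div_iff₀ (pow_pos Nc_pos 2) Nc_pos]
    have h := sq_sum_le_card_mul_sum_sq (s := (univ : Finset (J → Bool))) (f := B.err θ)
    rw [card_univ, card_cube] at h
    calc _ ≤ (Nc J * ∑ x, B.err θ x ^ 2) * Nc J := mul_le_mul_of_nonneg_right h Nc_pos.le
      _ = _ := by ring
  set C := univ.erase (fun _ : Fin L => false)
  simp only [noise, pow_two, sum_mul_sum, PW.E_sum]
  have e1 : ∀ c ∈ C, ∀ c' ∈ C, (unifPW (Fin L) (J → Bool)).E
      (fun h => sc c * g (flipBy x (pt c h)) * (sc c' * g (flipBy x (pt c' h)))) =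
      sc c * sc c' * μ ^ 2 + if c = c' then τ - μ ^ 2 else 0 := by
    intro c hc c' hc'
    have r : ∀ h : Fin L → J → Bool,
        sc c * g (flipBy x (pt c h)) * (sc c' * g (flipBy x (pt c' h))) =
          (sc c * sc c') * (g (flipBy x (pt c h)) * g (flipBy x (pt c' h))) := fun h => by ring
    simp only [r, PW.E_smul]
    by_cases hcc : c = c'
    · subst hcc
      rw [if_pos rfl, E_single_point (fun z => g z * g z) x (ne_of_mem_erase hc)]
      have s1 : sc c * sc c = 1 := by rw [← abs_mul_abs_self, sc_abs]; norm_num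
      rw [s1, hτ, esq, avg]
      simp only [g, pow_two]
      ring
    · rw [if_neg hcc, add_zero,
        E_pair_indep g x (ne_of_mem_erase hc) (ne_of_mem_erase hc') hcc]
  rw [sum_congr rfl fun c hc => sum_congr rfl (e1 c hc)]
  simp only [sum_add_distrib, sum_ite_eq, ← sum_mul, ← mul_sum]
  rw [sum_ite_mem, inter_self, sum_const, nsmul_eq_mul]
  have hsum : ∑ c ∈ C, sc c = -1 := by
    have h0 : ∑ c : Fin L → Bool, sc c = 0 := by
      simp only [sc]
      rw [← Fintype.prod_sum (fun (_ : Fin L) (b : Bool) => if b then (-1:ℝ) else 1)]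
      exact prod_eq_zero (mem_univ ⟨0, Nat.pos_of_ne_zero hL⟩) (by simp)
    rw [← add_sum_erase univ _ (mem_univ (fun _ : Fin L => false))] at h0
    have : sc (fun _ : Fin L => false) = 1 := by simp [sc]
    linarith
  rw [hsum]
  have hC : (C.card : ℝ) + 1 = 2 ^ L := by
    have h : C.card + 1 = Fintype.card (Fin L → Bool) := by
      rw [← card_univ]; exact card_erase_add_one (mem_univ _)
    rw [Fintype.card_fun, Fintype.card_bool, Fintype.card_fin] at h
    exact_mod_cast h
  rw [← hC]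
  nlinarith [sq_nonneg μ, mul_nonneg (Nat.cast_nonneg (α := ℝ) C.card) (sq_nonneg μ)]

theorem E_rank (L : ℕ) :
    (unifPW (Fin L) (J → Bool)).E (fun h => ((B.GS h).card : ℝ)) = B.A.card / 2 ^ L := by
  have e : ∀ h : Fin L → J → Bool, ((B.GS h).card : ℝ) =
      ∑ S ∈ B.A, ∏ i, (1 - chi S (h i)) / 2 := by
    intro h
    rw [GS, natCast_card_filter]
    refine sum_congr rfl fun S _ => ?_
    by_cases ha : ∀ i, chi S (h i) = -1
    · rw [if_pos ha]; simp only [ha]; norm_num
    · rw [if_neg ha]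
      push Not at ha
      obtain ⟨i, hi⟩ := ha
      rcases eq_or_eq_neg_of_abs_eq (abs_chi S (h i)) with q | q
      · rw [prod_eq_zero (mem_univ i) (by simp [q])]
      · exact absurd q hi
  simp only [e, PW.E_sum]
  have : ∀ S ∈ B.A, (unifPW (Fin L) (J → Bool)).E (fun h => ∏ i, (1 - chi S (h i)) / 2) =
      1 / 2 ^ L := by
    intro S hS
    rw [(unifPW (Fin L) (J → Bool)).E_prod fun _ a => (1 - chi S a) / 2]
    have hz : ∑ a : J → Bool, (1 / (Fintype.card (J → Bool) : ℝ)) * ((1 - chi S a) / 2) = 1/2 := by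
      have hne : S ≠ ∅ := fun h => B.empty_not_mem (h ▸ hS)
      rw [unif_sum, avg, ← sum_div, sum_sub_distrib, sum_chi, if_neg hne, sum_const, card_univ,
        nsmul_eq_mul, card_cube]
      field_simp [(Nc_pos (J := J)).ne']
      ring
    simp only [unifPW, hz, prod_const, card_univ, Fintype.card_fin, div_pow, one_pow]
  rw [sum_congr rfl this, sum_const, nsmul_eq_mul]
  ring

noncomputable def nT (_B : Blk J) : ℕ := 4 * Fintype.card J

noncomputable def rk (L : ℕ) : ℝ := 4 * B.nT * B.A.card / 2 ^ L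

theorem samples (hn : 1 ≤ Fintype.card J) (θ : Finset J → ℝ) {η : ℝ} (hη : 0 < η) (L : ℕ)
    (hL : L = 0 ∨ 2 ^ L * (B.esq θ / Nc J) ≤ η ^ 2 / 64) :
    ∃ hs : Fin B.nT → Fin L → J → Bool, ((∑ i, (B.GS (hs i)).card : ℕ) : ℝ) ≤ B.rk L ∧
      ∀ x, 2 * (univ.filter fun i => η < d1 (B.u θ x - B.Fest θ (hs i) x)).card < B.nT := by
  classical
  set W := unifPW (Fin L) (J → Bool) with hW
  set t := B.nT with ht
  let V : PW (Fin t) (Fin L → J → Bool) :=
    { w := fun _ h => W.wt h
      nonneg := fun _ h => W.wt_nonneg h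
      sum_one := fun _ => by simpa [PW.E] using W.E_const 1 }
  have hV : ∀ φ : (Fin L → J → Bool) → ℝ, ∀ i : Fin t, ∑ a, V.w i a * φ a = W.E φ :=
    fun φ i => rfl
  have t4 : (4:ℝ) ≤ t := by
    have : 4 ≤ t := by rw [ht, nT]; omega
    exact_mod_cast this
  let bad : (J → Bool) → (Fin L → J → Bool) → Prop := fun x h => η < |B.noise θ h x|
  have hbad : ∀ x, W.pr (bad x) ≤ 1/64 := by
    intro x
    refine le_trans (W.pr_mono (q := fun h => η ^ 2 ≤ B.noise θ h x ^ 2) fun h hh => ?_) ?_
    · rw [← sq_abs (B.noise θ h x)]; exact pow_le_pow_left₀ hη.le (le_of_lt hh) 2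
    refine le_trans (W.markov (fun h => sq_nonneg _) (pow_pos hη 2)) ?_
    rw [div_le_iff₀ (pow_pos hη 2)]
    refine le_trans (B.E_noise θ x) ?_
    by_cases h0 : L = 0
    · rw [if_pos h0]; positivity
    · rw [if_neg h0]; linarith [hL.resolve_left h0]
  let l8 : ℝ := Real.log 8
  have hl8 : (2:ℝ) ≤ l8 := by
    simp only [l8]
    rw [show (8:ℝ) = 2 ^ (3:ℕ) by norm_num, Real.log_pow]
    have := Real.log_two_gt_d9
    push_cast; linarith
  have many : ∀ x, V.pr (fun hs => (t:ℝ) / 2 * l8 ≤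
      ∑ i, if bad x (hs i) then l8 else 0) ≤ Real.exp (7/64 * t - t / 2 * l8) := by
    intro x
    refine V.pr_exp_bound _ _ _ ?_
    simp only [Real.exp_sum]
    rw [V.E_prod fun _ h => Real.exp (if bad x h then l8 else 0)]
    have : ∀ i : Fin t, ∑ a, V.w i a * Real.exp (if bad x a then l8 else 0) ≤ Real.exp (7/64) := by
      intro i
      rw [hV]
      have e : ∀ a, Real.exp (if bad x a then l8 else 0) = 1 + 7 * (if bad x a then 1 else 0) := by
        intro a; split_ifs <;> simp [l8, Real.exp_log]; norm_num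
      simp only [e, W.E_add, W.E_const, W.E_smul]
      have h2 := hbad x
      unfold PW.pr at h2
      refine le_trans ?_ (Real.add_one_le_exp _)
      have : W.E (fun a => if bad x a then (1:ℝ) else 0) ≤ 1/64 := by convert h2
      linarith
    refine le_trans (prod_le_prod (fun i _ => sum_nonneg fun a _ =>
      mul_nonneg (V.nonneg i a) (Real.exp_pos _).le) fun i _ => this i) ?_
    rw [prod_const, card_univ, Fintype.card_fin, ← Real.exp_nat_mul]
    exact le_of_eq (by ring_nf)
  let Rs : (Fin t → Fin L → J → Bool) → ℝ := fun hs => ∑ i, ((B.GS (hs i)).card : ℝ)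
  have hR : V.E Rs = t * (B.A.card / 2 ^ L) := by
    simp only [Rs, V.E_sum]
    have h1 : ∀ i : Fin t, V.E (fun hs => ((B.GS (hs i)).card : ℝ)) = B.A.card / 2 ^ L := fun i => by
      rw [V.E_single i fun h => ((B.GS h).card : ℝ), hV, B.E_rank]
    rw [sum_congr rfl fun i _ => h1 i, sum_const, card_univ, Fintype.card_fin, nsmul_eq_mul]
  have hbig : V.pr (fun hs => B.rk L < Rs hs) ≤ 1/4 := by
    rcases eq_or_ne B.A.card 0 with h0 | h0
    · have : ∀ hs, ¬ (B.rk L < Rs hs) := by
        intro hs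
        have : ∀ i, (B.GS (hs i)).card = 0 := fun i =>
          Nat.le_zero.1 (le_trans (card_filter_le _ _) h0.le)
        simp [Rs, this, rk, h0]
      simp [PW.pr, this, V.E_const]
    · have hp : 0 < B.rk L := by
        have : (0:ℝ) < B.A.card := by exact_mod_cast Nat.pos_of_ne_zero h0
        have t0 : (0:ℝ) < t := by linarith
        simp only [rk]; positivity
      refine le_trans (V.pr_mono (q := fun hs => B.rk L ≤ Rs hs) fun hs h => h.le) ?_
      refine le_trans (V.markov (fun hs => sum_nonneg fun i _ => Nat.cast_nonneg _) hp) ?_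
      rw [hR, div_le_iff₀ hp, rk]
      exact le_of_eq (by ring)
  have htot : V.pr (fun hs => (∃ x ∈ (univ : Finset (J → Bool)),
      (t:ℝ) / 2 * l8 ≤ ∑ i, if bad x (hs i) then l8 else 0) ∨ B.rk L < Rs hs) < 1 := by
    refine lt_of_le_of_lt (V.pr_or _ _) ?_
    have h1 := le_trans (V.pr_exists univ _) (sum_le_card_nsmul (univ : Finset (J → Bool)) _ _
      fun x _ => many x)
    rw [nsmul_eq_mul, card_univ, card_cube, Nc] at h1
    have h2 : (2:ℝ) ^ Fintype.card J * Real.exp (7/64 * t - t / 2 * l8) ≤ 1/3 := by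
      have hc : (1:ℝ) ≤ Fintype.card J := by exact_mod_cast hn
      have htc : (t:ℝ) = 4 * Fintype.card J := by rw [ht, nT]; push_cast; ring
      have : (2:ℝ) ^ Fintype.card J ≤ Real.exp (Fintype.card J) := by
        rw [← mul_one (Fintype.card J : ℝ), Real.exp_nat_mul]
        exact pow_le_pow_left₀ (by norm_num) (by linarith [Real.add_one_le_exp (1:ℝ)]) _
      refine le_trans (mul_le_mul_of_nonneg_right this (Real.exp_pos _).le) ?_
      rw [← Real.exp_add]
      refine le_trans (Real.exp_le_exp.2 (by nlinarith : _ ≤ -(2:ℝ))) ?_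
      rw [Real.exp_neg, ← one_div]
      exact one_div_le_one_div_of_le (by norm_num) (by linarith [Real.add_one_le_exp (2:ℝ)])
    linarith
  obtain ⟨hs, hhs⟩ := V.exists_not htot
  simp only [not_or, not_exists, not_and, not_le, not_lt] at hhs
  refine ⟨hs, by push_cast; exact hhs.2, fun x => ?_⟩
  have h := hhs.1 x (mem_univ _)
  rw [← sum_filter, sum_const, nsmul_eq_mul] at h
  have h' : 2 * (univ.filter fun i => bad x (hs i)).card < t := by
    have : (((2 * (univ.filter fun i => bad x (hs i)).card : ℕ)) : ℝ) < (t:ℝ) := by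
      push_cast; nlinarith
    exact_mod_cast this
  refine lt_of_le_of_lt (Nat.mul_le_mul_left 2 (card_le_card ?_)) h'
  intro i hi
  simp only [mem_filter, mem_univ, true_and] at hi ⊢
  exact lt_of_lt_of_le hi (B.Fest_close θ (hs i) x)

theorem all_close_of_rk (hn : 1 ≤ Fintype.card J) (θ : Finset J → ℝ) {η : ℝ} (hη : 0 < η) (L : ℕ)
    (hL : L = 0 ∨ 2 ^ L * (B.esq θ / Nc J) ≤ η ^ 2 / 64) (hr : B.rk L < 1) (x : J → Bool) :
    d1 (B.u θ x) ≤ η := by
  obtain ⟨hs, h1, h2⟩ := B.samples hn θ hη L hL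
  have h0 : (∑ i, (B.GS (hs i)).card) = 0 := by
    have : ((∑ i, (B.GS (hs i)).card : ℕ) : ℝ) < ((1 : ℕ) : ℝ) := by
      push_cast at h1 ⊢; linarith
    exact Nat.lt_one_iff.1 (Nat.cast_lt.1 this)
  by_contra hcon
  have h := h2 x
  have hall : (univ.filter fun i => η < d1 (B.u θ x - B.Fest θ (hs i) x)) = univ := by
    refine filter_true_of_mem fun i hi => ?_
    have : B.GS (hs i) = ∅ := card_eq_zero.1 (sum_eq_zero_iff.1 h0 i hi)
    simpa [Fest, this] using hcon
  rw [hall, card_univ, Fintype.card_fin] at h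
  omega

noncomputable def qq (L : ℕ) (η : ℝ) : ℝ := η / (2 ^ L * B.A.card + 1)

noncomputable def kq (L : ℕ) (η : ℝ) : ℕ := ⌊1 / B.qq L η⌋₊

noncomputable def decodeFn {L : ℕ} (η : ℝ) (hs : Fin B.nT → Fin L → J → Bool)
    (co : (Σ i, B.GS (hs i)) → Fin (B.kq L η + 1)) (x : J → Bool) : ℝ :=
  Classical.epsilon fun p : ℝ => 2 * (univ.filter fun i => 2 * η < d1 (p - 2 ^ L *
    ∑ S : B.GS (hs i), ((co ⟨i, S⟩ : ℕ) : ℝ) * B.qq L η * chi S.1 x)).card < B.nT

/-- Finite set of approximating functions. -/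
noncomputable def net (L : ℕ) (η : ℝ) (R : ℕ) : Finset ((J → Bool) → ℝ) := by
  classical
  exact (univ.filter fun hs : Fin B.nT → Fin L → J → Bool =>
      ∑ i, (B.GS (hs i)).card ≤ R).biUnion
    fun hs => univ.image fun co : (Σ i, B.GS (hs i)) → Fin (B.kq L η + 1) => B.decodeFn η hs co

theorem net_card (L : ℕ) (η : ℝ) (R : ℕ) :
    (B.net L η R).card ≤ 2 ^ (Fintype.card J * L * B.nT) * (B.kq L η + 1) ^ R := by
  classical
  refine le_trans (card_biUnion_le_card_mul _ _ ((B.kq L η + 1) ^ R) fun hs hh => ?_) ?_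
  · refine le_trans card_image_le ?_
    rw [card_univ, Fintype.card_fun, Fintype.card_fin, Fintype.card_sigma]
    simp only [Fintype.card_coe]
    exact Nat.pow_le_pow_right (Nat.succ_pos _) (mem_filter.1 hh).2
  · refine Nat.mul_le_mul_right _ (le_trans (card_filter_le _ _) (le_of_eq ?_))
    rw [card_univ, Fintype.card_fun, Fintype.card_fun, Fintype.card_fun, Fintype.card_bool,
      Fintype.card_fin, Fintype.card_fin, ← pow_mul, ← pow_mul, mul_assoc]

theorem net_close (hn : 1 ≤ Fintype.card J) (θ : Finset J → ℝ) {η : ℝ} (hη : 0 < η) (L : ℕ)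
    (hL : L = 0 ∨ 2 ^ L * (B.esq θ / Nc J) ≤ η ^ 2 / 64) :
    ∃ φ ∈ B.net L η ⌊B.rk L⌋₊, ∀ x, d1 (B.u θ x - φ x) ≤ 4 * η := by
  classical
  obtain ⟨hs, h1, h2⟩ := B.samples hn θ hη L hL
  have q0 : 0 < B.qq L η := div_pos hη (by positivity)
  let co : (Σ i, B.GS (hs i)) → Fin (B.kq L η + 1) := fun p =>
    ⟨⌊Int.fract (θ p.2.1) / B.qq L η⌋₊, Nat.lt_succ_of_le (Nat.floor_le_floor
      (div_le_div_of_nonneg_right (Int.fract_lt_one _).le q0.le))⟩
  refine ⟨B.decodeFn η hs co, mem_biUnion.2 ⟨hs, mem_filter.2 ⟨mem_univ _, Nat.le_floor h1⟩,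
    mem_image.2 ⟨co, mem_univ _, rfl⟩⟩, fun x => ?_⟩
  set G : Fin B.nT → ℝ := fun i => 2 ^ L * ∑ S : B.GS (hs i),
    ((co ⟨i, S⟩ : ℕ) : ℝ) * B.qq L η * chi S.1 x with hG
  have hq : ∀ i, d1 (B.Fest θ (hs i) x - G i) ≤ η := by
    intro i
    have hint : ∀ S : B.GS (hs i), ∃ n : ℤ, ∀ a : ℝ,
        |(θ S.1 * chi S.1 x - a * chi S.1 x) - n| = |Int.fract (θ S.1) - a| := by
      intro S
      rcases eq_or_eq_neg_of_abs_eq (abs_chi S.1 x) with q | q
      · refine ⟨⌊θ S.1⌋, fun a => ?_⟩; rw [q, Int.fract]; congr 1; ring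
      · refine ⟨-⌊θ S.1⌋, fun a => ?_⟩; rw [q, Int.fract, ← abs_neg]; congr 1; push_cast; ring
    choose n hn' using hint
    refine le_trans (d1_le _ (2 ^ L * ∑ S, n S)) ?_
    simp only [Fest, hG]
    rw [← sum_coe_sort (B.GS (hs i)) fun S => θ S * chi S x]
    push_cast
    rw [← mul_sub, ← mul_sub, ← sum_sub_distrib, ← sum_sub_distrib, abs_mul, abs_pow, abs_two]
    refine le_trans (mul_le_mul_of_nonneg_left (le_trans (abs_sum_le_sum_abs _ _)
      (sum_le_card_nsmul univ _ (B.qq L η) fun S _ => ?_)) (by positivity)) ?_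
    · rw [hn' S]
      have a1 := Nat.floor_le (div_nonneg (Int.fract_nonneg (θ S.1)) q0.le)
      have a2 := Nat.lt_floor_add_one (Int.fract (θ S.1) / B.qq L η)
      rw [le_div_iff₀ q0] at a1
      rw [div_lt_iff₀ q0, add_mul, one_mul] at a2
      rw [abs_le]
      constructor <;> linarith
    · rw [nsmul_eq_mul, card_univ, Fintype.card_coe]
      have hc : ((B.GS (hs i)).card : ℝ) ≤ B.A.card := Nat.cast_le.2 (card_filter_le _ _)
      calc (2:ℝ) ^ L * (((B.GS (hs i)).card : ℝ) * B.qq L η) ≤ 2 ^ L * B.A.card * B.qq L η := by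
            rw [mul_assoc ((2:ℝ) ^ L)]
            gcongr
        _ ≤ (2 ^ L * B.A.card + 1) * B.qq L η := by nlinarith
        _ = η := by rw [qq]; field_simp
  have good : 2 * (univ.filter fun i => 2 * η < d1 (B.u θ x - G i)).card < B.nT := by
    refine lt_of_le_of_lt (Nat.mul_le_mul_left 2 (card_le_card ?_)) (h2 x)
    intro i hi
    simp only [mem_filter, mem_univ, true_and] at hi ⊢
    linarith [d1_tri (B.u θ x) (B.Fest θ (hs i) x) (G i), hq i]
  have good' := Classical.epsilon_spec (p := fun p : ℝ => 2 * (univ.filter fun i =>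
    2 * η < d1 (p - G i)).card < B.nT) ⟨_, good⟩
  obtain ⟨i, hi1, hi2⟩ : ∃ i, d1 (B.u θ x - G i) ≤ 2 * η ∧
      d1 (B.decodeFn η hs co x - G i) ≤ 2 * η := by
    by_contra hcon
    push Not at hcon
    have hsub : (univ : Finset (Fin B.nT)) ⊆ (univ.filter fun i => 2 * η < d1 (B.u θ x - G i)) ∪
        univ.filter fun i => 2 * η < d1 (B.decodeFn η hs co x - G i) := by
      intro i _
      simp only [mem_union, mem_filter, mem_univ, true_and]
      by_cases h : d1 (B.u θ x - G i) ≤ 2 * η
      · exact Or.inr (hcon i h)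
      · exact Or.inl (lt_of_not_ge h)
    have h3 := le_trans (card_le_card hsub) (card_union_le _ _)
    rw [card_univ, Fintype.card_fin] at h3
    have h4 : 2 * (univ.filter fun i => 2 * η < d1 (B.decodeFn η hs co x - G i)).card < B.nT := good'
    omega
  have h5 := d1_tri (B.u θ x) (G i) (B.decodeFn η hs co x)
  rw [d1_sub_comm (G i)] at h5
  linarith

end Blk

end Vale.Agent.P047
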