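import Mathlib
import Vale.Agent.P047.Est

/-! Random sets of sites see every function in the span of the family. -/

namespace Vale.Agent.P047

open Finset

namespace Blk

variable {J : Type*} [Fintype J] [DecidableEq J] (B : Blk J)

/-- The frame property of a set of sites, for values modulo one. -/
def Sees (W : Finset (J → Bool)) (γ : ℝ) : Prop :=
  ∀ θ, γ * B.esq θ ≤ ∑ x ∈ W, (B.err θ x) ^ 2

theorem err_abs (θ : Finset J → ℝ) (x : J → Bool) : |B.err θ x| = d1 (B.u θ x) := rfl

theorem err_of_small (θ : Finset J → ℝ) (x : J → Bool) (h : |B.u θ x| < 1/2) :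
    B.err θ x = B.u θ x := by
  have : round (B.u θ x) = 0 := by
    rw [round_eq, Int.floor_eq_zero_iff, Set.mem_Ico]
    obtain ⟨a, b⟩ := abs_lt.1 h
    constructor <;> linarith
  rw [err, this]; simp

theorem esq_of_small (θ : Finset J → ℝ) (h : ∀ x, |B.u θ x| < 1/2) :
    B.esq θ = ∑ x, (B.u θ x) ^ 2 :=
  sum_congr rfl fun x _ => by rw [B.err_of_small θ x (h x)]

/-- The frame property for real values. -/
theorem sees_real {W : Finset (J → Bool)} {γ : ℝ} (h : B.Sees W γ) (θ : Finset J → ℝ) :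
    γ * ∑ x, (B.u θ x) ^ 2 ≤ ∑ x ∈ W, (B.u θ x) ^ 2 := by
  set m := ∑ x, |B.u θ x| + 1 with hm
  have m0 : 0 < m := by
    have : 0 ≤ ∑ x, |B.u θ x| := sum_nonneg fun _ _ => abs_nonneg _
    linarith
  set t := 1 / (4 * m) with ht
  have t0 : 0 < t := by positivity
  have hs : ∀ x, |B.u (t • θ) x| < 1/2 := by
    intro x
    rw [B.u_smul, abs_mul, abs_of_pos t0]
    have h1 : |B.u θ x| ≤ ∑ y, |B.u θ y| :=
      single_le_sum (fun y _ => abs_nonneg (B.u θ y)) (mem_univ x)
    have h2 : t * m = 1/4 := by rw [ht]; field_simp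
    nlinarith
  have h1 := h (t • θ)
  have he : ∀ x, B.err (t • θ) x = B.u (t • θ) x := fun x => B.err_of_small _ x (hs x)
  rw [B.esq_of_small _ hs] at h1
  simp only [he] at h1
  simp only [B.u_smul, mul_pow, ← mul_sum] at h1
  rw [mul_left_comm] at h1
  exact le_of_mul_le_mul_left h1 (pow_pos t0 2)

noncomputable def sc0 (l : ℕ) : ℝ := (1/2 : ℝ) ^ l

noncomputable def dhat (l : ℕ) (φ : (J → Bool) → ℝ) : Finset (J → Bool) := by
  classical
  exact univ.filter fun x => sc0 l / 2 < d1 (φ x)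

/-- Failure event for the frame property. -/
def FrameBad (ρ : ℝ) (W : Finset (J → Bool)) : Prop :=
  ∃ p ∈ (Icc 1 (2 * Fintype.card J)) ×ˢ range (5 * Fintype.card J + 1),
    ∃ φ ∈ B.net p.2 (sc0 p.1 / 32) ⌊B.rk p.2⌋₊,
      30 * (Fintype.card J : ℝ) ^ 3 + 9 * (Fintype.card J : ℝ) * (⌊B.rk p.2⌋₊ : ℝ) ≤
          ρ * (dhat p.1 φ).card / 3 ∧
        ((W ∩ dhat p.1 φ).card : ℝ) < ρ * (dhat p.1 φ).card / 4

theorem kq_bound {l L : ℕ} (hl : l ≤ 2 * Fintype.card J) (hL : L ≤ 5 * Fintype.card J)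
    (hn : 20 ≤ Fintype.card J) :
    ((B.kq L (sc0 l / 32) + 1 : ℕ) : ℝ) ≤ Real.exp (9 * Fintype.card J) := by
  set n := Fintype.card J
  have q0 : 0 < B.qq L (sc0 l / 32) := div_pos (by unfold sc0; positivity) (by positivity)
  push_cast
  refine le_trans (add_le_add_left (Nat.floor_le (div_nonneg zero_le_one q0.le)) 1) ?_
  have hA : (B.A.card : ℝ) ≤ 2 ^ n := by
    have h := card_le_univ B.A
    rw [Fintype.card_finset] at h
    exact_mod_cast h
  have e1 : 1 / B.qq L (sc0 l / 32) = (2 ^ L * B.A.card + 1) * 32 * 2 ^ l := by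
    rw [qq, sc0, one_div_pow]
    field_simp
  rw [e1]
  have h1 : (2:ℝ) ^ L * B.A.card + 1 ≤ 2 ^ (6 * n + 1) := by
    have a : (2:ℝ) ^ L * B.A.card ≤ 2 ^ (6 * n) := by
      calc (2:ℝ) ^ L * B.A.card ≤ 2 ^ (5 * n) * 2 ^ n :=
            mul_le_mul (pow_le_pow_right₀ one_le_two hL) hA (Nat.cast_nonneg _) (by positivity)
        _ = _ := by rw [← pow_add]; congr 1; omega
    have b : (1:ℝ) ≤ 2 ^ (6 * n) := one_le_pow₀ one_le_two
    rw [pow_succ]; linarith
  have h2 : (2 ^ L * (B.A.card:ℝ) + 1) * 32 * 2 ^ l + 1 ≤ (2:ℝ) ^ (8 * n + 7) := by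
    have a : (2 ^ L * (B.A.card:ℝ) + 1) * 32 * 2 ^ l ≤ (2:ℝ) ^ (8 * n + 6) := by
      calc _ ≤ (2:ℝ) ^ (6 * n + 1) * 32 * 2 ^ (2 * n) := by
            gcongr; norm_num
        _ = _ := by
          rw [show (32:ℝ) = 2 ^ 5 by norm_num, ← pow_add, ← pow_add]
          congr 1; omega
    have b : (1:ℝ) ≤ 2 ^ (8 * n + 6) := one_le_pow₀ one_le_two
    rw [pow_succ _ (8 * n + 6)]; linarith
  refine le_trans (by linarith) (le_trans h2 ?_)
  rw [← Real.rpow_natCast, Real.rpow_def_of_pos two_pos]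
  apply Real.exp_le_exp.2
  push_cast
  have hn' : (20:ℝ) ≤ n := by exact_mod_cast hn
  nlinarith [Real.log_two_lt_d9]

theorem frame_bad_pr {α : Type*} [Fintype α] (P : PW (J → Bool) α) (sel : α → Bool) {ρ : ℝ}
    (hsel : ∀ x, ∑ a, P.w x a * (if sel a then 1 else 0) = ρ) (hn : 20 ≤ Fintype.card J) :
    P.pr (fun ω => B.FrameBad ρ (univ.filter fun x => sel (ω x) = true)) ≤
      Real.exp (-(Fintype.card J : ℝ)) := by
  classical
  set n := Fintype.card J with hndef
  have hn' : (20:ℝ) ≤ n := by exact_mod_cast hn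
  have tail : ∀ D : Finset (J → Bool), P.pr (fun ω =>
      (((univ.filter fun x => sel (ω x) = true) ∩ D).card : ℝ) < ρ * D.card / 4) ≤
        Real.exp (-(ρ * D.card / 3)) := by
    intro D
    refine le_trans (P.pr_mono (q := fun ω => -(ρ * D.card / 4) ≤
      ∑ x, if x ∈ D then (if sel (ω x) = true then (-1:ℝ) else 0) else 0) fun ω h => ?_) ?_
    · have e : (((univ.filter fun x => sel (ω x) = true) ∩ D).card : ℝ) =
          ∑ x, if x ∈ D then (if sel (ω x) = true then (1:ℝ) else 0) else 0 := by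
        rw [filter_inter, univ_inter, natCast_card_filter, sum_ite_mem, univ_inter]
      have e2 : (∑ x, if x ∈ D then (if sel (ω x) = true then (-1:ℝ) else 0) else 0) =
          -∑ x, if x ∈ D then (if sel (ω x) = true then (1:ℝ) else 0) else 0 := by
        rw [← sum_neg_distrib]
        exact sum_congr rfl fun x _ => by split_ifs <;> simp
      rw [e2, ← e]
      exact neg_le_neg h.le
    refine le_trans (P.pr_exp_bound _ _ (-(0.63 * ρ * D.card)) ?_) (Real.exp_le_exp.2 ?_)
    · simp only [Real.exp_sum]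
      rw [P.E_prod fun x a => Real.exp (if x ∈ D then (if sel a = true then (-1:ℝ) else 0) else 0)]
      calc ∏ x, ∑ a, P.w x a * Real.exp (if x ∈ D then (if sel a = true then (-1:ℝ) else 0) else 0)
          ≤ ∏ x, Real.exp (if x ∈ D then -(0.63 * ρ) else 0) := by
            refine prod_le_prod (fun x _ => sum_nonneg fun a _ =>
              mul_nonneg (P.nonneg x a) (Real.exp_pos _).le) fun x _ => ?_
            by_cases hx : x ∈ D
            · simp only [hx, if_true]
              have e : ∀ a, P.w x a * Real.exp (if sel a = true then (-1:ℝ) else 0) =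
                  P.w x a - (1 - Real.exp (-1)) * (P.w x a * (if sel a = true then 1 else 0)) := by
                intro a; split_ifs <;> simp; ring
              rw [sum_congr rfl fun a _ => e a, sum_sub_distrib, P.sum_one, ← mul_sum, hsel]
              refine le_trans ?_ (Real.add_one_le_exp _)
              have hρ : 0 ≤ ρ := by
                rw [← hsel x]
                exact sum_nonneg fun a _ => mul_nonneg (P.nonneg x a) (by split_ifs <;> norm_num)
              have := Real.exp_neg_one_lt_d9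
              nlinarith
            · simp [hx, P.sum_one]
        _ = _ := by
          rw [← Real.exp_sum, sum_ite_mem, univ_inter, sum_const, nsmul_eq_mul]
          ring_nf
    · have hρD : 0 ≤ ρ * D.card := by
        rcases D.eq_empty_or_nonempty with h | ⟨x, -⟩
        · simp [h]
        · refine mul_nonneg ?_ (Nat.cast_nonneg _)
          rw [← hsel x]
          exact sum_nonneg fun a _ => mul_nonneg (P.nonneg x a) (by split_ifs <;> norm_num)
      linarith
  refine le_trans (P.pr_exists _ _) ?_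
  refine le_trans (sum_le_card_nsmul _ _ (Real.exp (-(10 * (n:ℝ) ^ 3))) fun p hp => ?_) ?_
  · obtain ⟨hp1, hp2⟩ := mem_product.1 hp
    refine le_trans (P.pr_exists _ _) ?_
    set R := ⌊B.rk p.2⌋₊
    refine le_trans (sum_le_card_nsmul _ _ (Real.exp (-(30 * (n:ℝ) ^ 3 + 9 * n * R))) fun φ _ => ?_) ?_
    · by_cases hreq : 30 * (n:ℝ) ^ 3 + 9 * (n:ℝ) * R ≤ ρ * (dhat p.1 φ).card / 3
      · exact le_trans (P.pr_mono fun ω h => h.2)
          (le_trans (tail _) (Real.exp_le_exp.2 (by linarith)))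
      · refine le_trans (le_of_eq ?_) (Real.exp_pos _).le
        unfold PW.pr
        have : ∀ ω : (J → Bool) → α, ¬ (30 * (n:ℝ) ^ 3 + 9 * (n:ℝ) * R ≤ ρ * (dhat p.1 φ).card / 3 ∧
            ((((univ.filter fun x => sel (ω x) = true) ∩ dhat p.1 φ).card : ℝ) <
              ρ * (dhat p.1 φ).card / 4)) := fun ω h => hreq h.1
        simp only [R] at this
        simp only [R, ← hndef]
        simp [this, P.E_const]
    rw [nsmul_eq_mul]
    have hL : p.2 ≤ 5 * n := Nat.lt_succ_iff.1 (mem_range.1 hp2)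
    have hc := B.kq_bound (l := p.1) (mem_Icc.1 hp1).2 hL hn
    have h1 : ((B.net p.2 (sc0 p.1 / 32) R).card : ℝ) ≤
        Real.exp (20 * (n:ℝ) ^ 3 + 9 * n * R) := by
      refine le_trans (Nat.cast_le.2 (B.net_card _ _ _)) ?_
      rw [Nat.cast_mul, Nat.cast_pow, Nat.cast_pow, Nat.cast_ofNat, Real.exp_add]
      refine mul_le_mul ?_ ?_ (by positivity) (Real.exp_pos _).le
      · refine le_trans (pow_le_pow_right₀ one_le_two (?_ : _ ≤ 20 * n ^ 3)) ?_
        · rw [nT, ← hndef]
          calc n * p.2 * (4 * n) ≤ n * (5 * n) * (4 * n) := by gcongr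
            _ = 20 * n ^ 3 := by ring
        · rw [show (20 * (n:ℝ) ^ 3) = ((20 * n ^ 3 : ℕ) : ℝ) * 1 by push_cast; ring, Real.exp_nat_mul]
          exact pow_le_pow_left₀ (by norm_num) (by linarith [Real.add_one_le_exp (1:ℝ)]) _
      · refine le_trans (pow_le_pow_left₀ (Nat.cast_nonneg _) hc R) ?_
        rw [← Real.exp_nat_mul]
        exact Real.exp_le_exp.2 (by ring_nf; rfl)
    refine le_trans (mul_le_mul_of_nonneg_right h1 (Real.exp_pos _).le) ?_
    rw [← Real.exp_add]
    exact Real.exp_le_exp.2 (by ring_nf; rfl)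
  rw [nsmul_eq_mul, card_product, Nat.card_Icc, card_range]
  have h1 : (((2 * n + 1 - 1) * (5 * n + 1) : ℕ) : ℝ) ≤ Real.exp (4 * (n:ℝ)) := by
    rw [Nat.add_sub_cancel]; push_cast
    have h := Real.add_one_le_exp (2 * (n:ℝ))
    rw [show (4 * (n:ℝ)) = 2 * n + 2 * n by ring, Real.exp_add]
    have h' := Real.quadratic_le_exp_of_nonneg (x := 2 * (n:ℝ)) (by positivity)
    exact mul_le_mul (by linarith) (by nlinarith) (by positivity) (Real.exp_pos _).le
  refine le_trans (mul_le_mul_of_nonneg_right h1 (Real.exp_pos _).le) ?_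
  rw [← Real.exp_add]
  exact Real.exp_le_exp.2 (by nlinarith [pow_le_pow_left₀ (by norm_num) hn' 2])

theorem sees_of_not_bad {ρ : ℝ} {W : Finset (J → Bool)} (hn : 20 ≤ Fintype.card J)
    (hW : ¬ B.FrameBad ρ W)
    (hnum : 2 ^ 32 * (Fintype.card J : ℝ) ^ 5 * B.dens ≤ ρ) :
    B.Sees W (ρ / (512 * Fintype.card J)) := by
  classical
  set n := Fintype.card J with hndef
  have hn' : (20:ℝ) ≤ n := by exact_mod_cast hn
  have ρ0 : 0 ≤ ρ := le_trans (mul_nonneg (by positivity) B.dens_nonneg) hnum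
  have large : ∀ θ, (1/4:ℝ) ^ n ≤ B.esq θ → ρ / (512 * n) * B.esq θ ≤ ∑ x ∈ W, (B.err θ x) ^ 2 := by
    intro θ hs
    set s := B.esq θ with hsdef
    have s0 : 0 < s := lt_of_lt_of_le (by positivity) hs
    have pt' : ∀ x, (B.err θ x) ^ 2 ≤ (sc0 (2 * n)) ^ 2 +
        4 * ∑ l ∈ Icc 1 (2 * n), if sc0 l < |B.err θ x| then (sc0 l) ^ 2 else 0 := by
      intro x
      have nn : 0 ≤ ∑ l ∈ Icc 1 (2 * n), if sc0 l < |B.err θ x| then (sc0 l) ^ 2 else 0 :=
        sum_nonneg fun l _ => by split_ifs <;> positivity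
      by_cases h : sc0 (2 * n) < |B.err θ x|
      · have hex : ∃ l, sc0 l < |B.err θ x| := ⟨_, h⟩
        set l := Nat.find hex
        have l1 := Nat.find_spec hex
        have l2 : l ≤ 2 * n := Nat.find_min' hex h
        have lp : 1 ≤ l := by
          rcases Nat.eq_zero_or_pos l with h0 | h0
          · have : sc0 l < |B.err θ x| := l1
            rw [h0, sc0, pow_zero, B.err_abs] at this
            linarith [d1_le_half (B.u θ x)]
          · exact h0
        have l3 := not_lt.1 (Nat.find_min hex (show l - 1 < l by omega))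
        have e : sc0 (l - 1) = 2 * sc0 l := by
          unfold sc0
          conv_rhs => rw [show l = l - 1 + 1 by omega, pow_succ]
          ring
        have h4 : (B.err θ x) ^ 2 ≤ 4 * (sc0 l) ^ 2 := by
          rw [← sq_abs (B.err θ x)]
          calc |B.err θ x| ^ 2 ≤ (2 * sc0 l) ^ 2 :=
                pow_le_pow_left₀ (abs_nonneg _) (le_trans l3 e.le) 2
            _ = _ := by ring
        have h5 : (sc0 l) ^ 2 ≤ ∑ l ∈ Icc 1 (2 * n), if sc0 l < |B.err θ x| then (sc0 l) ^ 2 else 0 := by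
          refine le_trans ?_ (single_le_sum (f := fun l => if sc0 l < |B.err θ x| then (sc0 l) ^ 2 else 0)
            (fun l _ => by split_ifs <;> positivity) (mem_Icc.2 ⟨lp, l2⟩))
          show _ ≤ if sc0 l < |B.err θ x| then (sc0 l) ^ 2 else 0
          rw [if_pos l1]
        nlinarith [sq_nonneg (sc0 (2 * n))]
      · rw [← sq_abs (B.err θ x)]
        have := pow_le_pow_left₀ (abs_nonneg _) (not_lt.1 h) 2
        linarith
    let Dl : ℕ → Finset (J → Bool) := fun l => univ.filter fun x => sc0 l < |B.err θ x|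
    have tot : s ≤ Nc J * (sc0 (2 * n)) ^ 2 +
        4 * ∑ l ∈ Icc 1 (2 * n), ((Dl l).card : ℝ) * (sc0 l) ^ 2 := by
      refine le_trans (sum_le_sum fun x _ => pt' x) (le_of_eq ?_)
      rw [sum_add_distrib, sum_const, nsmul_eq_mul, card_univ, card_cube, ← mul_sum, sum_comm]
      congr 2
      refine sum_congr rfl fun l _ => ?_
      rw [← sum_filter, sum_const, nsmul_eq_mul]
    have low : Nc J * (sc0 (2 * n)) ^ 2 ≤ s / 2 := by
      have : Nc J * (sc0 (2 * n)) ^ 2 = (1/8:ℝ) ^ n := by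
        rw [Nc, sc0, ← hndef, ← pow_mul, mul_comm (2 * n) 2, ← mul_assoc 2 2 n,
          pow_mul (1/2:ℝ), ← mul_pow]
        norm_num
      rw [this]
      have h2 : (1/8:ℝ) ^ n = (1/4) ^ n * (1/2) ^ n := by rw [← mul_pow]; norm_num
      have h3 : ((1/2:ℝ)) ^ n ≤ 1/2 := by
        calc ((1/2:ℝ)) ^ n ≤ (1/2) ^ 1 := pow_le_pow_of_le_one (by norm_num) (by norm_num) (by omega)
          _ = _ := pow_one _
      rw [h2]
      nlinarith [show (0:ℝ) ≤ (1/4) ^ n by positivity]
    obtain ⟨l, hl, hDl⟩ : ∃ l ∈ Icc 1 (2 * n), s / (16 * n) ≤ ((Dl l).card : ℝ) * (sc0 l) ^ 2 := by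
      by_contra hcon
      push Not at hcon
      have h := sum_lt_sum_of_nonempty ⟨1, mem_Icc.2 ⟨le_rfl, by omega⟩⟩ hcon
      rw [sum_const, Nat.card_Icc, nsmul_eq_mul, Nat.add_sub_cancel] at h
      push_cast at h
      have : (2:ℝ) * n * (s / (16 * n)) = s / 8 := by field_simp; ring
      linarith
    set η := sc0 l / 32 with hη
    have l0 : 0 < sc0 l := by unfold sc0; positivity
    have η0 : 0 < η := by positivity
    have Dpos : (0:ℝ) < (Dl l).card := by
      rcases (Dl l).eq_empty_or_nonempty with h | h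
      · rw [h] at hDl; simp at hDl
        have : 0 < s / (16 * n) := by positivity
        linarith
      · exact_mod_cast h.card_pos
    let Ls := (range (5 * n + 1)).filter fun L => L = 0 ∨ 2 ^ L * (s / Nc J) ≤ η ^ 2 / 64
    have hne : Ls.Nonempty := ⟨0, mem_filter.2 ⟨mem_range.2 (by omega), Or.inl rfl⟩⟩
    set L := Ls.max' hne
    obtain ⟨hLr, hLc⟩ := mem_filter.1 (Ls.max'_mem hne)
    have hbig : η ^ 2 / 64 < 2 ^ (L + 1) * (s / Nc J) := by
      rcases lt_or_ge L (5 * n) with h | h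
      · by_contra hcon
        push Not at hcon
        have := Ls.le_max' (L + 1) (mem_filter.2 ⟨mem_range.2 (by omega), Or.inr hcon⟩)
        omega
      · have hle : (1:ℝ) ≤ 2 ^ (L + 1) * (s / Nc J) := by
          calc (1:ℝ) ≤ (2:ℝ) ^ (5 * n) * ((1/4) ^ n / 2 ^ n) := by
                rw [pow_mul, ← div_pow, ← mul_pow]
                exact one_le_pow₀ (by norm_num)
            _ ≤ _ := by
              rw [Nc, ← hndef]
              gcongr
              · exact one_le_two
              · omega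
        have hl1 : sc0 l ≤ 1 := pow_le_one₀ (by norm_num) (by norm_num)
        have : η ^ 2 / 64 < 1 := by rw [hη]; nlinarith
        linarith
    obtain ⟨φ, hφ, hclose⟩ := B.net_close (by omega) θ η0 L hLc
    have hrk : B.rk L ≤ 2 ^ 25 * (n:ℝ) ^ 2 * B.dens * (Dl l).card := by
      have h1 : (1:ℝ) / 2 ^ L ≤ 2 ^ 17 * (s / (sc0 l) ^ 2) / Nc J := by
        rw [div_le_iff₀ (by positivity), hη] at *
        have : (sc0 l / 32) ^ 2 / 64 = (sc0 l) ^ 2 / 2 ^ 16 := by ring
        rw [this, pow_succ (2:ℝ) L] at hbig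
        have hN := Nc_pos (J := J)
        rw [div_lt_iff₀ (by positivity)] at hbig
        calc (1:ℝ) = (sc0 l) ^ 2 / (sc0 l) ^ 2 := by field_simp
          _ ≤ (2 ^ L * 2 * (s / Nc J) * 2 ^ 16) / (sc0 l) ^ 2 := by gcongr
          _ = _ := by ring
      have h2 : s / (sc0 l) ^ 2 ≤ 16 * n * (Dl l).card := by
        rw [div_le_iff₀ (by positivity)]
        rw [div_le_iff₀ (by positivity)] at hDl
        linarith
      calc B.rk L = 16 * n * B.A.card * (1 / 2 ^ L) := by rw [rk, nT, ← hndef]; push_cast; ring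
        _ ≤ 16 * n * B.A.card * (2 ^ 17 * (16 * n * (Dl l).card) / Nc J) := by
            refine mul_le_mul_of_nonneg_left (le_trans h1 ?_) (by positivity)
            have hN := Nc_pos (J := J)
            gcongr
        _ = _ := by rw [dens]; ring
    by_cases hr : B.rk L < 1
    · exfalso
      have hz : (Dl l).card = 0 := by
        rw [card_eq_zero, filter_eq_empty_iff]
        intro x _
        rw [not_lt, B.err_abs]
        have := B.all_close_of_rk (by omega) θ η0 L hLc hr x
        linarith [hη ▸ this]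
      rw [hz] at Dpos
      simp at Dpos
    push Not at hr
    have hsub : Dl l ⊆ dhat l φ := by
      intro x hx'
      have hx : sc0 l < d1 (B.u θ x) := by rw [← B.err_abs]; exact (mem_filter.1 hx').2
      refine mem_filter.2 ⟨mem_univ _, ?_⟩
      have h1 := hclose x
      have h2 := d1_tri (B.u θ x) (φ x) 0
      rw [sub_zero, sub_zero] at h2
      linarith
    have hcard : ((Dl l).card : ℝ) ≤ (dhat l φ).card := Nat.cast_le.2 (card_le_card hsub)
    have hreq : 30 * (n:ℝ) ^ 3 + 9 * (n:ℝ) * (⌊B.rk L⌋₊ : ℝ) ≤ ρ * (dhat l φ).card / 3 := by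
      have hR := Nat.floor_le (le_trans zero_le_one hr)
      have h1 : 30 * (n:ℝ) ^ 3 + 9 * n * (⌊B.rk L⌋₊ : ℝ) ≤ 39 * (n:ℝ) ^ 3 * B.rk L := by
        have : (n:ℝ) ≤ (n:ℝ) ^ 3 := le_self_pow₀ (by linarith) (by norm_num)
        have hn3 : (0:ℝ) ≤ (n:ℝ) ^ 3 := by positivity
        nlinarith
      have h2 : 39 * (n:ℝ) ^ 3 * B.rk L ≤ ρ * (Dl l).card / 3 := by
        calc 39 * (n:ℝ) ^ 3 * B.rk L ≤ 39 * (n:ℝ) ^ 3 * (2 ^ 25 * (n:ℝ) ^ 2 * B.dens * (Dl l).card) :=
              mul_le_mul_of_nonneg_left hrk (by positivity)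
          _ = (3 * 39 * 2 ^ 25) * ((n:ℝ) ^ 5 * B.dens * (Dl l).card) / 3 := by ring
          _ ≤ 2 ^ 32 * ((n:ℝ) ^ 5 * B.dens * (Dl l).card) / 3 := by
              have := B.dens_nonneg
              gcongr; norm_num
          _ ≤ _ := by
              rw [← mul_assoc, ← mul_assoc]
              gcongr
      nlinarith
    have hWc : ρ * (dhat l φ).card / 4 ≤ ((W ∩ dhat l φ).card : ℝ) := by
      by_contra hcon
      push Not at hcon
      exact hW ⟨(l, L), mem_product.2 ⟨hl, hLr⟩, φ, hφ, hreq, hcon⟩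
    calc ρ / (512 * n) * s
        ≤ ρ / (512 * n) * (16 * n * ((Dl l).card * (sc0 l) ^ 2)) := by
          refine mul_le_mul_of_nonneg_left ?_ (by positivity)
          rw [div_le_iff₀ (by positivity)] at hDl
          linarith
      _ = ρ * (Dl l).card / 4 * ((sc0 l) ^ 2 / 8) := by field_simp; ring
      _ ≤ ((W ∩ dhat l φ).card : ℝ) * ((sc0 l) ^ 2 / 8) := by
          refine mul_le_mul_of_nonneg_right (le_trans ?_ hWc) (by positivity)
          gcongr
      _ = ∑ _x ∈ W ∩ dhat l φ, (sc0 l) ^ 2 / 8 := by rw [sum_const, nsmul_eq_mul]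
      _ ≤ ∑ x ∈ W ∩ dhat l φ, (B.err θ x) ^ 2 := by
          refine sum_le_sum fun x hx => ?_
          obtain ⟨-, hx⟩ := mem_inter.1 hx
          simp only [dhat, mem_filter, mem_univ, true_and] at hx
          have h2 := d1_tri (φ x) (B.u θ x) 0
          rw [sub_zero, sub_zero, d1_sub_comm] at h2
          have h3 : 3/8 * sc0 l ≤ |B.err θ x| := by rw [B.err_abs]; linarith [hclose x]
          rw [← sq_abs (B.err θ x)]
          nlinarith [pow_le_pow_left₀ (by positivity) h3 2]
      _ ≤ _ := sum_le_sum_of_subset_of_nonneg inter_subset_left fun x _ _ => sq_nonneg _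
  intro θ
  rcases le_or_gt ((1/4:ℝ) ^ n) (B.esq θ) with h | h
  · exact large θ h
  rcases eq_or_lt_of_le (B.esq_nonneg θ) with h0 | h0
  · rw [← h0, mul_zero]; exact sum_nonneg fun x _ => sq_nonneg _
  have hb : ∀ x, |B.u θ x - round (B.u θ x)| ≤ Real.sqrt (B.esq θ) := fun x => by
    rw [← Real.sqrt_sq_eq_abs]
    exact Real.sqrt_le_sqrt (single_le_sum (f := fun x => (B.err θ x) ^ 2)
      (fun y _ => sq_nonneg _) (mem_univ x))
  have hbb : (2:ℝ) ^ B.bb * Real.sqrt (B.esq θ) < 1 := by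
    have h1 : Real.sqrt (B.esq θ) < (1/2:ℝ) ^ n := by
      rw [Real.sqrt_lt' (by positivity), ← pow_mul, mul_comm n 2, pow_mul]
      norm_num
      norm_num at h
      exact h
    calc (2:ℝ) ^ B.bb * Real.sqrt (B.esq θ) < 2 ^ B.bb * (1/2:ℝ) ^ n :=
          mul_lt_mul_of_pos_left h1 (by positivity)
      _ ≤ 2 ^ n * (1/2:ℝ) ^ n := by
          gcongr
          · exact one_le_two
          · exact B.bb_le
      _ = 1 := by rw [← mul_pow]; norm_num
  obtain ⟨l, hl⟩ := B.near_lattice θ hbb hb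
  have hu : ∀ x, B.u (θ - l) x = B.err θ x := fun x => by rw [B.u_sub, (hl x).1]; rfl
  obtain ⟨x0, -, hx0⟩ := exists_max_image univ (fun x => |B.err θ x|) univ_nonempty
  have m0 : 0 < |B.err θ x0| := by
    rcases eq_or_lt_of_le (abs_nonneg (B.err θ x0)) with q | q
    · exfalso
      have hz : B.esq θ = 0 := sum_eq_zero fun x _ => by
        have := hx0 x (mem_univ x)
        rw [← q] at this
        rw [abs_nonpos_iff.1 this]; ring
      linarith
    · exact q
  set t := 1 / (4 * |B.err θ x0|) with ht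
  have t0 : 0 < t := by positivity
  have hsm : ∀ x, |B.u (t • (θ - l)) x| < 1/2 := by
    intro x
    rw [B.u_smul, hu, abs_mul, abs_of_pos t0]
    have h2 : t * |B.err θ x0| = 1/4 := by rw [ht]; field_simp
    have h3 := mul_le_mul_of_nonneg_left (hx0 x (mem_univ x)) t0.le
    linarith
  have e1 : ∀ x, B.err (t • (θ - l)) x = t * B.err θ x := fun x => by
    rw [B.err_of_small _ x (hsm x), B.u_smul, hu]
  have e2 : B.esq (t • (θ - l)) = t ^ 2 * B.esq θ := by
    simp only [esq, e1, mul_pow, ← mul_sum]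
  have big : (1/4:ℝ) ^ n ≤ B.esq (t • (θ - l)) := by
    refine le_trans ?_ (single_le_sum (f := fun x => (B.err (t • (θ - l)) x) ^ 2)
      (fun y _ => sq_nonneg _) (mem_univ x0))
    show _ ≤ (B.err (t • (θ - l)) x0) ^ 2
    rw [e1, mul_pow, ← sq_abs (B.err θ x0), ← mul_pow, ht]
    rw [show 1 / (4 * |B.err θ x0|) * |B.err θ x0| = 1/4 by field_simp]
    exact pow_le_pow_of_le_one (by norm_num) (by norm_num) (by omega)
  have := large _ big
  simp only [e1, e2, mul_pow, ← mul_sum] at this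
  rw [mul_left_comm] at this
  exact le_of_mul_le_mul_left this (pow_pos t0 2)

end Blk

end Vale.Agent.P047
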