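import Mathlib

/-! The midpoint case of the Prekopa-Leindler inequality on `Fin n → ℝ`. -/

namespace Vale.Agent.P047

open MeasureTheory Set
open scoped ENNReal

theorem bm_compact {K₁ K₂ C : Set ℝ} (h₁ : IsCompact K₁) (h₂ : IsCompact K₂)
    (n₁ : K₁.Nonempty) (n₂ : K₂.Nonempty)
    (h : ∀ a ∈ K₁, ∀ b ∈ K₂, (a + b) / 2 ∈ C) :
    volume K₁ + volume K₂ ≤ 2 * volume C := by
  obtain ⟨p, hp, hpmax⟩ := h₁.exists_isGreatest n₁
  obtain ⟨q, hq, hqmin⟩ := h₂.exists_isLeast n₂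
  set A := (fun x : ℝ => 2 * x) ⁻¹' ((fun x : ℝ => x + (-q)) ⁻¹' K₁) with hA
  set B := (fun x : ℝ => 2 * x) ⁻¹' ((fun x : ℝ => x + (-p)) ⁻¹' K₂) with hB
  have vA : 2 * volume A = volume K₁ := by
    rw [hA, Real.volume_preimage_mul_left (two_ne_zero), measure_preimage_add_right, ← mul_assoc]
    norm_num [ENNReal.ofReal_div_of_pos]
    rw [ENNReal.mul_inv_cancel (by norm_num) (by norm_num), one_mul]
  have vB : 2 * volume B = volume K₂ := by
    rw [hB, Real.volume_preimage_mul_left (two_ne_zero), measure_preimage_add_right, ← mul_assoc]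
    norm_num [ENNReal.ofReal_div_of_pos]
    rw [ENNReal.mul_inv_cancel (by norm_num) (by norm_num), one_mul]
  have hAC : A ⊆ C := fun x hx => by
    have := h _ hx _ hq
    convert this using 1
    ring
  have hBC : B ⊆ C := fun x hx => by
    have := h _ hp _ hx
    convert this using 1
    ring
  have hAB : A ∩ B ⊆ {(p + q) / 2} := fun x ⟨hx, hy⟩ => by
    have a := hpmax hx
    have b := hqmin hy
    simp only [mem_singleton_iff]
    linarith
  have hd : AEDisjoint volume A B := by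
    refine measure_mono_null hAB ?_
    simp
  have hBm : NullMeasurableSet B volume := by
    apply MeasurableSet.nullMeasurableSet
    exact (measurable_const.mul measurable_id) ((measurable_id.add_const _) h₂.measurableSet)
  rw [← vA, ← vB, ← mul_add, ← measure_union₀ hBm hd]
  exact mul_le_mul_right (measure_mono (union_subset hAC hBC)) _

theorem bm_measurable {A B C : Set ℝ} (hA : MeasurableSet A) (hB : MeasurableSet B)
    (nA : A.Nonempty) (nB : B.Nonempty)
    (h : ∀ a ∈ A, ∀ b ∈ B, (a + b) / 2 ∈ C) :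
    volume A + volume B ≤ 2 * volume C := by
  obtain ⟨a, ha⟩ := nA
  obtain ⟨b, hb⟩ := nB
  rw [hA.measure_eq_iSup_isCompact, hB.measure_eq_iSup_isCompact]
  have red : ∀ (A : Set ℝ) (a : ℝ), a ∈ A → ∀ K : Set ℝ, ∃ K' : Set ℝ, K'.Nonempty ∧
      IsCompact K' ∧ K' ⊆ A ∧ (⨆ (_ : K ⊆ A), ⨆ (_ : IsCompact K), volume K) ≤ volume K' := by
    intro A a ha K
    by_cases hK : K ⊆ A ∧ IsCompact K
    · exact ⟨insert a K, insert_nonempty _ _, hK.2.insert a, insert_subset ha hK.1,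
        iSup₂_le fun _ _ => measure_mono (subset_insert _ _)⟩
    · exact ⟨{a}, singleton_nonempty a, isCompact_singleton, singleton_subset_iff.2 ha,
        iSup₂_le fun h1 h2 => absurd ⟨h1, h2⟩ hK⟩
  refine ENNReal.iSup_add_iSup_le fun K₁ K₂ => ?_
  obtain ⟨L₁, n₁, c₁, s₁, e₁⟩ := red A a ha K₁
  obtain ⟨L₂, n₂, c₂, s₂, e₂⟩ := red B b hb K₂
  exact le_trans (add_le_add e₁ e₂)
    (bm_compact c₁ c₂ n₁ n₂ fun x hx y hy => h x (s₁ hx) y (s₂ hy))

theorem ennreal_sq_of_avg {x y h : ℝ≥0∞} (H : x + y ≤ 2 * h) : x * y ≤ h * h := by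
  by_cases hh : h = ⊤
  · simp [hh]
  have h2 : (2 : ℝ≥0∞) * h ≠ ⊤ := ENNReal.mul_ne_top (by norm_num) hh
  have hx : x ≠ ⊤ := ne_top_of_le_ne_top h2 (le_trans le_self_add H)
  have hy : y ≠ ⊤ := ne_top_of_le_ne_top h2 (le_trans le_add_self H)
  rw [← ENNReal.toReal_le_toReal (ENNReal.mul_ne_top hx hy) (ENNReal.mul_ne_top hh hh),
    ENNReal.toReal_mul, ENNReal.toReal_mul]
  have H' := (ENNReal.toReal_le_toReal (ENNReal.add_ne_top.2 ⟨hx, hy⟩) h2).2 H
  rw [ENNReal.toReal_add hx hy, ENNReal.toReal_mul] at H'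
  simp only [ENNReal.toReal_ofNat] at H'
  nlinarith [sq_nonneg (x.toReal - y.toReal), ENNReal.toReal_nonneg (a := x),
    ENNReal.toReal_nonneg (a := y), ENNReal.toReal_nonneg (a := h)]

/-- One dimension, functions with supremum one. -/
theorem pl_one_norm (f g : ℝ → ℝ) (hf : Measurable f) (hg : Measurable g)
    (f0 : ∀ x, 0 ≤ f x) (g0 : ∀ x, 0 ≤ g x) (f1 : ∀ x, f x ≤ 1) (g1 : ∀ x, g x ≤ 1)
    (fs : ∀ t < (1 : ℝ), ∃ x, t < f x) (gs : ∀ t < (1 : ℝ), ∃ x, t < g x)
    (h : ℝ → ℝ≥0∞) (hh : Measurable h)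
    (H : ∀ a b, ENNReal.ofReal (f a) * ENNReal.ofReal (g b) ≤ h ((a + b) / 2) ^ 2) :
    (∫⁻ x, ENNReal.ofReal (f x)) * (∫⁻ x, ENNReal.ofReal (g x)) ≤ (∫⁻ x, h x) ^ 2 := by
  let h' : ℝ → ℝ := fun x => (min (h x) 1).toReal
  have hh' : Measurable h' := (hh.min measurable_const).ennreal_toReal
  rw [sq]
  apply ennreal_sq_of_avg
  have le : ∫⁻ x, ENNReal.ofReal (h' x) ≤ ∫⁻ x, h x := by
    refine lintegral_mono fun x => ?_
    exact le_trans ENNReal.ofReal_toReal_le (min_le_left _ _)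
  refine le_trans ?_ (mul_le_mul_right le _)
  rw [lintegral_eq_lintegral_meas_lt _ (ae_of_all _ f0) hf.aemeasurable,
    lintegral_eq_lintegral_meas_lt _ (ae_of_all _ g0) hg.aemeasurable,
    lintegral_eq_lintegral_meas_lt _ (ae_of_all _ fun x => ENNReal.toReal_nonneg)
      hh'.aemeasurable,
    ← lintegral_const_mul' _ _ (by norm_num)]
  have anti : ∀ (u : ℝ → ℝ), Measurable (fun t => volume {a | t < u a}) := fun u =>
    Antitone.measurable fun s t hst => measure_mono fun a ha => lt_of_le_of_lt hst ha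
  rw [← lintegral_add_left (anti f)]
  refine setLIntegral_mono ((measurable_const.mul (anti h'))) ?_
  intro t ht
  rcases le_or_gt 1 t with t1 | t1
  · have ef : {a | t < f a} = (∅ : Set ℝ) := by
      ext a; simpa using le_trans (f1 a) t1
    have eg : {a | t < g a} = (∅ : Set ℝ) := by
      ext a; simpa using le_trans (g1 a) t1
    simp [ef, eg]
  · apply bm_measurable (hf measurableSet_Ioi) (hg measurableSet_Ioi) (fs t t1) (gs t t1)
    intro a ha b hb
    simp only [mem_ofPred_eq, mem_preimage, mem_Ioi] at ha hb ⊢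
    have t0 : 0 < t := ht
    have hab := H a b
    rw [← ENNReal.ofReal_mul (f0 a)] at hab
    by_cases h1 : 1 ≤ h ((a + b) / 2)
    · simp only [min_eq_right h1, ENNReal.toReal_one]; exact t1
    · have h1' := le_of_not_ge h1
      have ne : h ((a + b) / 2) ≠ ⊤ := ne_top_of_le_ne_top (by norm_num) h1'
      simp only [min_eq_left h1']
      rw [← ENNReal.ofReal_toReal ne, ← ENNReal.ofReal_pow ENNReal.toReal_nonneg] at hab
      rw [ENNReal.ofReal_le_ofReal_iff (by positivity)] at hab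
      have : t * t < f a * g b := mul_lt_mul'' ha hb t0.le t0.le
      nlinarith [ENNReal.toReal_nonneg (a := h ((a + b) / 2))]

theorem pl_one (f g h : ℝ → ℝ≥0∞) (hf : Measurable f) (hg : Measurable g) (hh : Measurable h)
    (H : ∀ a b, f a * g b ≤ h ((a + b) / 2) ^ 2) :
    (∫⁻ x, f x) * (∫⁻ x, g x) ≤ (∫⁻ x, h x) ^ 2 := by
  have bd : ∀ (f g : ℝ → ℝ≥0∞), Measurable f → Measurable g →
      (⨆ x, f x) ≠ ⊤ → (⨆ x, g x) ≠ ⊤ →
      (∀ a b, f a * g b ≤ h ((a + b) / 2) ^ 2) →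
      (∫⁻ x, f x) * (∫⁻ x, g x) ≤ (∫⁻ x, h x) ^ 2 := by
    intro f g hf hg hA hB H
    set A := ⨆ x, f x with hAd
    set B := ⨆ x, g x with hBd
    by_cases A0 : A = 0
    · have : ∀ x, f x = 0 := fun x => le_antisymm (A0 ▸ le_iSup f x) zero_le
      simp [this]
    by_cases B0 : B = 0
    · have : ∀ x, g x = 0 := fun x => le_antisymm (B0 ▸ le_iSup g x) zero_le
      simp [this]
    have sq_exists : ∃ c : ℝ≥0∞, c * c = A⁻¹ * B⁻¹ ∧ c ≠ ⊤ ∧ c ≠ 0 := by
      refine ⟨ENNReal.ofReal (Real.sqrt ((A⁻¹ * B⁻¹).toReal)), ?_, ENNReal.ofReal_ne_top, ?_⟩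
      · rw [← ENNReal.ofReal_mul (Real.sqrt_nonneg _), Real.mul_self_sqrt ENNReal.toReal_nonneg,
          ENNReal.ofReal_toReal]
        exact ENNReal.mul_ne_top (ENNReal.inv_ne_top.2 A0) (ENNReal.inv_ne_top.2 B0)
      · simp only [ne_eq, ENNReal.ofReal_eq_zero, not_le, Real.sqrt_pos]
        exact ENNReal.toReal_pos (mul_ne_zero (ENNReal.inv_ne_zero.2 hA) (ENNReal.inv_ne_zero.2 hB))
          (ENNReal.mul_ne_top (ENNReal.inv_ne_top.2 A0) (ENNReal.inv_ne_top.2 B0))
    obtain ⟨c, hc, hct, hc0⟩ := sq_exists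
    let f' : ℝ → ℝ := fun x => (A⁻¹ * f x).toReal
    let g' : ℝ → ℝ := fun x => (B⁻¹ * g x).toReal
    have key : ∀ (u : ℝ → ℝ≥0∞) (U : ℝ≥0∞), U = (⨆ x, u x) → U ≠ 0 → U ≠ ⊤ →
        (∀ x, U⁻¹ * u x ≤ 1) ∧ (∀ x, ENNReal.ofReal ((U⁻¹ * u x).toReal) = U⁻¹ * u x) ∧
        (∀ t < (1 : ℝ), ∃ x, t < (U⁻¹ * u x).toReal) := by
      intro u U hU U0 Ut
      have le1 : ∀ x, U⁻¹ * u x ≤ 1 := fun x => by
        rw [← ENNReal.inv_mul_cancel U0 Ut]
        exact mul_le_mul_right (hU ▸ le_iSup u x) _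
      refine ⟨le1, fun x => ENNReal.ofReal_toReal (ne_top_of_le_ne_top (by norm_num) (le1 x)), ?_⟩
      intro t ht
      by_contra hcon
      push Not at hcon
      have sup : (⨆ x, U⁻¹ * u x) = 1 := by
        rw [← ENNReal.mul_iSup, ← hU, ENNReal.inv_mul_cancel U0 Ut]
      have : (⨆ x, U⁻¹ * u x) ≤ ENNReal.ofReal t := iSup_le fun x => by
        rw [← ENNReal.ofReal_toReal (ne_top_of_le_ne_top (by norm_num) (le1 x))]
        exact ENNReal.ofReal_le_ofReal (hcon x)
      rw [sup] at this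
      have := ENNReal.one_le_ofReal.1 this
      linarith
    obtain ⟨fl, fe, fsup⟩ := key f A hAd A0 hA
    obtain ⟨gl, ge, gsup⟩ := key g B hBd B0 hB
    have main := pl_one_norm f' g' (hf.const_mul _).ennreal_toReal (hg.const_mul _).ennreal_toReal
      (fun x => ENNReal.toReal_nonneg) (fun x => ENNReal.toReal_nonneg)
      (fun x => ENNReal.toReal_le_of_le_ofReal zero_le_one (by simpa using fl x))
      (fun x => ENNReal.toReal_le_of_le_ofReal zero_le_one (by simpa using gl x))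
      fsup gsup (fun x => c * h x) (hh.const_mul _) (by
        intro a b
        rw [fe, ge, mul_pow, sq c, hc]
        calc A⁻¹ * f a * (B⁻¹ * g b) = A⁻¹ * B⁻¹ * (f a * g b) := by ring
          _ ≤ A⁻¹ * B⁻¹ * h ((a + b) / 2) ^ 2 := mul_le_mul_right (H a b) _)
    simp only [f', g', fe, ge] at main
    rw [lintegral_const_mul _ hf, lintegral_const_mul _ hg, lintegral_const_mul _ hh, mul_pow,
      sq c, hc] at main
    have : A⁻¹ * B⁻¹ * ((∫⁻ x, f x) * (∫⁻ x, g x)) ≤ A⁻¹ * B⁻¹ * (∫⁻ x, h x) ^ 2 := by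
      calc _ = A⁻¹ * (∫⁻ x, f x) * (B⁻¹ * ∫⁻ x, g x) := by ring
        _ ≤ _ := main
    rwa [ENNReal.mul_le_mul_iff_right
      (mul_ne_zero (ENNReal.inv_ne_zero.2 hA) (ENNReal.inv_ne_zero.2 hB))
      (ENNReal.mul_ne_top (ENNReal.inv_ne_top.2 A0) (ENNReal.inv_ne_top.2 B0))] at this
  have lim : ∀ (u : ℝ → ℝ≥0∞), Measurable u →
      ∫⁻ x, u x = ⨆ N : ℕ, ∫⁻ x, min (u x) N := by
    intro u hu
    rw [← lintegral_iSup (fun N => hu.min measurable_const)]
    · congr 1; funext x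
      rw [← inf_iSup_eq, ENNReal.iSup_natCast, inf_top_eq]
    · intro i j hij x
      exact min_le_min le_rfl (Nat.cast_le.2 hij)
  rw [lim f hf, lim g hg, ENNReal.iSup_mul]
  refine iSup_le fun N => ?_
  rw [ENNReal.mul_iSup]
  refine iSup_le fun K => bd _ _ (hf.min measurable_const) (hg.min measurable_const) ?_ ?_ ?_
  · exact ne_top_of_le_ne_top (ENNReal.natCast_ne_top N) (iSup_le fun x => min_le_right _ _)
  · exact ne_top_of_le_ne_top (ENNReal.natCast_ne_top K) (iSup_le fun x => min_le_right _ _)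
  · exact fun a b => le_trans (mul_le_mul' (min_le_left _ _) (min_le_left _ _)) (H a b)

theorem pl_pi : ∀ (n : ℕ) (f g h : (Fin n → ℝ) → ℝ≥0∞),
    Measurable f → Measurable g → Measurable h →
    (∀ a b : Fin n → ℝ, f a * g b ≤ h ((2 : ℝ)⁻¹ • (a + b)) ^ 2) →
    (∫⁻ x, f x) * (∫⁻ x, g x) ≤ (∫⁻ x, h x) ^ 2 := by
  intro n
  induction n with
  | zero =>
    intro f g h hf hg hh H
    have hu : (volume : Measure (Fin 0 → ℝ)) Set.univ = 1 := by
      rw [volume_pi, Measure.pi_univ]; simp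
    simp only [lintegral_unique, hu, mul_one]
    exact le_trans (H _ _) (le_of_eq (congrArg (fun z => h z ^ 2) (Subsingleton.elim _ _)))
  | succ n ih =>
    intro f g h hf hg hh H
    have mp := (volume_preserving_piFinSuccAbove (fun _ : Fin (n + 1) => ℝ) 0).symm
    have red : ∀ u : (Fin (n + 1) → ℝ) → ℝ≥0∞, Measurable u →
        ∫⁻ x, u x = ∫⁻ y : Fin n → ℝ, ∫⁻ t : ℝ, u (Fin.cons t y) := by
      intro u hu
      rw [← mp.lintegral_comp hu]
      rw [Measure.volume_eq_prod, lintegral_prod_symm]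
      · simp [MeasurableEquiv.piFinSuccAbove, Fin.insertNthEquiv]
      · exact (hu.comp mp.measurable).aemeasurable
    have cm : Measurable fun p : (Fin n → ℝ) × ℝ => (Fin.cons p.2 p.1 : Fin (n + 1) → ℝ) := by
      apply measurable_pi_lambda
      intro i
      refine Fin.cases ?_ ?_ i
      · simpa using measurable_snd
      · intro j; simp only [Fin.cons_succ]; exact (measurable_pi_apply j).comp measurable_fst
    have cm1 : ∀ y : Fin n → ℝ, Measurable fun t : ℝ => (Fin.cons t y : Fin (n + 1) → ℝ) :=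
      fun y => cm.comp (measurable_const.prodMk measurable_id)
    rw [red f hf, red g hg, red h hh]
    refine ih _ _ _ ((hf.comp cm).lintegral_prod_right') ((hg.comp cm).lintegral_prod_right')
      ((hh.comp cm).lintegral_prod_right') ?_
    intro a b
    refine pl_one _ _ _ (hf.comp (cm1 a)) (hg.comp (cm1 b)) (hh.comp (cm1 _)) ?_
    intro s t
    have := H (Fin.cons s a) (Fin.cons t b)
    convert this using 3
    funext i
    refine Fin.cases ?_ ?_ i
    · simp; ring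
    · intro j; simp; ring

theorem pl_fintype {ι : Type*} [Fintype ι] (f g h : (ι → ℝ) → ℝ≥0∞)
    (hf : Measurable f) (hg : Measurable g) (hh : Measurable h)
    (H : ∀ a b : ι → ℝ, f a * g b ≤ h ((2 : ℝ)⁻¹ • (a + b)) ^ 2) :
    (∫⁻ x, f x) * (∫⁻ x, g x) ≤ (∫⁻ x, h x) ^ 2 := by
  let e := Fintype.equivFin ι
  have mp := volume_measurePreserving_piCongrLeft (fun _ : ι => ℝ) e.symm
  rw [← mp.lintegral_comp hf, ← mp.lintegral_comp hg, ← mp.lintegral_comp hh]
  refine pl_pi _ _ _ _ (hf.comp mp.measurable) (hg.comp mp.measurable) (hh.comp mp.measurable) ?_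
  intro a b
  have := H (MeasurableEquiv.piCongrLeft (fun _ : ι => ℝ) e.symm a)
    (MeasurableEquiv.piCongrLeft (fun _ : ι => ℝ) e.symm b)
  convert this using 3
  funext i
  obtain ⟨j, rfl⟩ := e.symm.surjective i
  simp [MeasurableEquiv.piCongrLeft_apply_apply]; ring

end Vale.Agent.P047
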