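import Mathlib

/-! The comparison weight `gg`: a Gaussian times an even log-concave factor, equal to
`cos (π t)` near zero. -/

namespace Vale.Agent.P047

open Real

noncomputable def cl (t : ℝ) : ℝ := max (-(3/10)) (min t (3/10))

noncomputable def w0 (s : ℝ) : ℝ := π * tan (π * s) - π ^ 2 * s

noncomputable def ww (t : ℝ) : ℝ := w0 (cl t)

noncomputable def psi (t : ℝ) : ℝ := ∫ s in (0:ℝ)..t, ww s

noncomputable def rho (t : ℝ) : ℝ := exp (-psi t)

noncomputable def kap : ℝ := π ^ 2 / 2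

noncomputable def gg (t : ℝ) : ℝ := exp (-(kap * t ^ 2)) * rho t

theorem cl_mem (t : ℝ) : -(3/10) ≤ cl t ∧ cl t ≤ 3/10 :=
  ⟨le_max_left _ _, max_le (by norm_num) (min_le_right _ _)⟩

theorem cl_mono : Monotone cl := fun _ _ h => max_le_max le_rfl (min_le_min h le_rfl)

theorem cl_of_abs_le {t : ℝ} (h : |t| ≤ 3/10) : cl t = t := by
  obtain ⟨h1, h2⟩ := abs_le.1 h
  rw [cl, min_eq_left h2, max_eq_right h1]

theorem cl_neg (t : ℝ) : cl (-t) = -cl t := by
  simp only [cl, max_def, min_def]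
  split_ifs <;> linarith

theorem mem_half {s : ℝ} (h : |s| < 1/2) : π * s ∈ Set.Ioo (-(π/2)) (π/2) := by
  obtain ⟨h1, h2⟩ := abs_lt.1 h
  constructor <;> nlinarith [pi_pos]

theorem cos_pi_pos {s : ℝ} (h : |s| < 1/2) : 0 < cos (π * s) := cos_pos_of_mem_Ioo (mem_half h)

theorem abs_lt_half_of {s : ℝ} (h : |s| ≤ 3/10) : |s| < 1/2 := by linarith

theorem hasDerivAt_w0 {s : ℝ} (h : |s| < 1/2) :
    HasDerivAt w0 (π ^ 2 / cos (π * s) ^ 2 - π ^ 2) s := by
  have h1 := ((hasDerivAt_tan (cos_pi_pos h).ne').comp s ((hasDerivAt_id s).const_mul π)).const_mul π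
  have h2 := (hasDerivAt_id s).const_mul (π ^ 2)
  unfold w0
  refine (h1.sub h2).congr_deriv ?_
  ring

theorem w0_monoOn : MonotoneOn w0 {s : ℝ | |s| < 1/2} := by
  have hset : {s : ℝ | |s| < 1/2} = Set.Ioo (-(1/2)) (1/2) := by
    ext s; simp [abs_lt]
  rw [hset]
  have ab : ∀ {s : ℝ}, s ∈ Set.Ioo (-(1/2) : ℝ) (1/2) → |s| < 1/2 := fun h => abs_lt.2 h
  refine monotoneOn_of_hasDerivWithinAt_nonneg (convex_Ioo _ _)
    (fun s hs => (hasDerivAt_w0 (ab hs)).continuousAt.continuousWithinAt)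
    (fun s hs => (hasDerivAt_w0 (ab (interior_subset hs))).hasDerivWithinAt) ?_
  intro s hs
  have hc := cos_pi_pos (ab (interior_subset hs))
  rw [sub_nonneg, le_div_iff₀ (by positivity)]
  exact mul_le_of_le_one_right (sq_nonneg _) (cos_sq_le_one _)

theorem w0_neg (s : ℝ) : w0 (-s) = -w0 s := by simp [w0, tan_neg]; ring

theorem ww_cont : Continuous ww := by
  have : Continuous cl := continuous_const.max (continuous_id.min continuous_const)
  refine continuous_iff_continuousAt.2 fun t => ?_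
  exact ContinuousAt.comp (hasDerivAt_w0 (abs_lt_half_of (abs_le.2 (cl_mem t)))).continuousAt
    this.continuousAt

theorem ww_mono : Monotone ww := fun _ _ h =>
  w0_monoOn (abs_lt_half_of (abs_le.2 (cl_mem _))) (abs_lt_half_of (abs_le.2 (cl_mem _)))
    (cl_mono h)

theorem ww_neg (t : ℝ) : ww (-t) = -ww t := by rw [ww, ww, cl_neg, w0_neg]

theorem psi_hasDeriv (t : ℝ) : HasDerivAt psi (ww t) t :=
  (ww_cont.integral_hasStrictDerivAt 0 t).hasDerivAt

theorem psi_convex : ConvexOn ℝ Set.univ psi := by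
  refine Monotone.convexOn_univ_of_deriv (fun t => (psi_hasDeriv t).differentiableAt) ?_
  have : deriv psi = ww := funext fun t => (psi_hasDeriv t).deriv
  rw [this]; exact ww_mono

theorem psi_zero : psi 0 = 0 := by simp [psi]

theorem psi_neg (t : ℝ) : psi (-t) = psi t := by
  have h := intervalIntegral.integral_comp_neg (a := 0) (b := t) ww
  simp only [ww_neg, neg_zero, intervalIntegral.integral_neg] at h
  rw [psi, psi, intervalIntegral.integral_symm, ← h, neg_neg]

theorem psi_mid (a b : ℝ) : 2 * psi ((a + b) / 2) ≤ psi a + psi b := by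
  have := psi_convex.2 (Set.mem_univ a) (Set.mem_univ b) (show (0:ℝ) ≤ 1/2 by norm_num)
    (show (0:ℝ) ≤ 1/2 by norm_num) (by norm_num)
  simp only [smul_eq_mul] at this
  rw [show (a + b) / 2 = 1/2 * a + 1/2 * b by ring]
  linarith

theorem psi_nonneg (t : ℝ) : 0 ≤ psi t := by
  have := psi_mid t (-t)
  rw [psi_neg, add_neg_cancel, zero_div, psi_zero] at this
  linarith

theorem psi_cont : Continuous psi :=
  continuous_iff_continuousAt.2 fun t => (psi_hasDeriv t).continuousAt

theorem rho_pos (t : ℝ) : 0 < rho t := exp_pos _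

theorem rho_le_one (t : ℝ) : rho t ≤ 1 := exp_le_one_iff.2 (neg_nonpos.2 (psi_nonneg t))

theorem rho_neg (t : ℝ) : rho (-t) = rho t := by rw [rho, rho, psi_neg]

theorem rho_mid (a b : ℝ) : rho a * rho b ≤ rho ((a + b) / 2) ^ 2 := by
  rw [rho, rho, rho, ← exp_add, ← exp_nat_mul]
  apply exp_le_exp.2
  push_cast
  linarith [psi_mid a b]

theorem rho_cont : Continuous rho := continuous_exp.comp psi_cont.neg

theorem gg_pos (t : ℝ) : 0 < gg t := mul_pos (exp_pos _) (rho_pos t)

theorem gg_neg (t : ℝ) : gg (-t) = gg t := by simp [gg, rho_neg]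

theorem gg_cont : Continuous gg :=
  (continuous_exp.comp (continuous_const.mul (continuous_pow 2)).neg).mul rho_cont

theorem logcos_eq {t : ℝ} (h : |t| < 1/2) :
    ∫ s in (0:ℝ)..t, w0 s = -log (cos (π * t)) - kap * t ^ 2 := by
  have mem : ∀ s ∈ Set.uIcc (0:ℝ) t, |s| < 1/2 := by
    intro s hs
    have := Set.abs_sub_left_of_mem_uIcc hs
    simp only [sub_zero] at this
    linarith
  rw [intervalIntegral.integral_eq_sub_of_hasDerivAt
    (f := fun s => -log (cos (π * s)) - kap * s ^ 2)]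
  · simp
  · intro s hs
    have h1 := (((hasDerivAt_id s).const_mul π).cos.log (cos_pi_pos (mem s hs)).ne').neg
    have h2 := (hasDerivAt_pow 2 s).const_mul kap
    refine (h1.sub h2).congr_deriv ?_
    simp only [w0, kap, tan_eq_sin_div_cos, id_eq]
    ring
  · refine ContinuousOn.intervalIntegrable fun s hs => ?_
    exact (hasDerivAt_w0 (mem s hs)).continuousAt.continuousWithinAt

theorem gg_eq_cos {t : ℝ} (h : |t| ≤ 3/10) : gg t = cos (π * t) := by
  have e : psi t = ∫ s in (0:ℝ)..t, w0 s := by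
    refine intervalIntegral.integral_congr fun s hs => ?_
    have := Set.abs_sub_left_of_mem_uIcc hs
    simp only [sub_zero] at this
    rw [ww, cl_of_abs_le (le_trans this h)]
  rw [gg, rho, e, logcos_eq (abs_lt_half_of h), ← exp_add]
  rw [show -(kap * t ^ 2) + -(-log (cos (π * t)) - kap * t ^ 2) = log (cos (π * t)) by ring,
    exp_log (cos_pi_pos (abs_lt_half_of h))]

theorem abs_cos_le_gg {t : ℝ} (h : |t| ≤ 1/2) : |cos (π * t)| ≤ gg t := by
  wlog t0 : 0 ≤ t generalizing t
  · have := this (t := -t) (by rwa [abs_neg]) (by linarith)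
    rwa [mul_neg, cos_neg, gg_neg] at this
  rw [abs_of_nonneg t0] at h
  rcases eq_or_lt_of_le h with rfl | h'
  · rw [show π * (1/2) = π / 2 by ring, cos_pi_div_two, abs_zero]; exact (gg_pos _).le
  have hab : |t| < 1/2 := by rwa [abs_of_nonneg t0]
  have e : psi t ≤ ∫ s in (0:ℝ)..t, w0 s := by
    refine intervalIntegral.integral_mono_on t0 (ww_cont.intervalIntegrable _ _) ?_ ?_
    · refine ContinuousOn.intervalIntegrable fun s hs => ?_
      rw [Set.uIcc_of_le t0] at hs
      exact (hasDerivAt_w0 (by rw [abs_of_nonneg hs.1]; linarith [hs.2])).continuousAt.continuousWithinAt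
    · intro s hs
      refine w0_monoOn (abs_lt_half_of (abs_le.2 (cl_mem _))) ?_ ?_
      · show |s| < 1/2
        rw [abs_of_nonneg hs.1]; linarith [hs.2]
      · simp only [cl, max_le_iff]
        exact ⟨by linarith [hs.1], min_le_left _ _⟩
  rw [logcos_eq hab] at e
  have hc := cos_pi_pos hab
  rw [abs_of_pos hc, gg, rho, ← exp_add, ← log_le_iff_le_exp hc]
  linarith

theorem gg_lower {t : ℝ} (h : |t| ≤ 51/100) : exp (-8) ≤ gg t := by
  wlog t0 : 0 ≤ t generalizing t
  · have := this (t := -t) (by rwa [abs_neg]) (by linarith)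
    rwa [gg_neg] at this
  rw [abs_of_nonneg t0] at h
  have b : ∀ s, ww s ≤ 10 := by
    intro s
    obtain ⟨c1, c2⟩ := cl_mem s
    have h0 : ww s ≤ w0 (3/10) := w0_monoOn (abs_lt_half_of (abs_le.2 ⟨c1, c2⟩))
      (by norm_num [abs_of_pos]) c2
    have hs : sin (π * (3/10)) ≤ 1 := sin_le_one _
    have hc : (2/5 : ℝ) ≤ cos (π * (3/10)) := by
      rw [show π * (3/10) = π/2 - π/5 by ring, cos_pi_div_two_sub]
      have := mul_le_sin (x := π/5) (by positivity) (by linarith [pi_pos])
      calc (2/5 : ℝ) = 2 / π * (π / 5) := by field_simp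
        _ ≤ _ := this
    refine le_trans h0 ?_
    rw [w0, tan_eq_sin_div_cos]
    have hd : sin (π * (3/10)) / cos (π * (3/10)) ≤ 5/2 := by
      rw [div_le_iff₀ (by linarith)]; linarith
    nlinarith [pi_pos, pi_lt_four, sq_nonneg π]
  have : psi t ≤ ∫ _ in (0:ℝ)..t, (10:ℝ) :=
    intervalIntegral.integral_mono_on t0 (ww_cont.intervalIntegrable _ _)
      intervalIntegrable_const (fun s _ => b s)
  simp only [intervalIntegral.integral_const, sub_zero, smul_eq_mul] at this
  rw [gg, rho, ← exp_add]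
  apply exp_le_exp.2
  have hk : kap ≤ 8 := by unfold kap; nlinarith [pi_pos, pi_lt_four]
  nlinarith

end Vale.Agent.P047
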