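import Mathlib

/-! Unfolding integrals over a box against a lattice containing the integer vectors. -/

namespace Vale.Agent.P047

open MeasureTheory Set
open scoped ENNReal

variable {I : Type*} [Fintype I]

def box (I : Type*) : Set (I → ℝ) := Set.univ.pi fun _ => Set.Ico (0:ℝ) 1

def intVec (z : I → ℤ) : I → ℝ := fun i => (z i : ℝ)

theorem measurableSet_box : MeasurableSet (box I) :=
  MeasurableSet.univ_pi fun _ => measurableSet_Ico

omit [Fintype I] in
theorem mem_box {θ : I → ℝ} : θ ∈ box I ↔ ∀ i, 0 ≤ θ i ∧ θ i < 1 := by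
  simp [box]

theorem tile (h : (I → ℝ) → ℝ≥0∞) :
    ∫⁻ θ, h θ = ∑' z : I → ℤ, ∫⁻ θ in box I, h (θ + intVec z) := by
  let S : (I → ℤ) → Set (I → ℝ) := fun z => (fun θ => θ - intVec z) ⁻¹' box I
  have hun : (⋃ z, S z) = Set.univ := by
    refine Set.eq_univ_of_forall fun θ => Set.mem_iUnion.2 ⟨fun i => ⌊θ i⌋, ?_⟩
    simp only [S, Set.mem_preimage, mem_box, Pi.sub_apply, intVec]
    intro i
    constructor <;> linarith [Int.floor_le (θ i), Int.lt_floor_add_one (θ i)]
  have hS : ∀ z, MeasurableSet (S z) := fun z =>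
    (measurable_id.sub_const _) measurableSet_box
  have hd : Pairwise fun a b => Disjoint (S a) (S b) := by
    intro a b hab
    rw [Set.disjoint_left]
    intro θ ha hb
    simp only [S, Set.mem_preimage, mem_box, Pi.sub_apply, intVec] at ha hb
    apply hab
    funext i
    obtain ⟨a1, a2⟩ := ha i
    obtain ⟨b1, b2⟩ := hb i
    have h1 : ((a i - b i : ℤ) : ℝ) < 1 := by push_cast; linarith
    have h2 : ((b i - a i : ℤ) : ℝ) < 1 := by push_cast; linarith
    norm_cast at h1 h2
    omega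
  rw [← setLIntegral_univ, ← hun, lintegral_iUnion hS hd]
  refine tsum_congr fun z => ?_
  have mp : MeasurePreserving (fun θ : I → ℝ => θ + intVec z) volume volume :=
    measurePreserving_add_right volume _
  have := mp.setLIntegral_comp_preimage_emb
    (MeasurableEquiv.addRight (intVec z)).measurableEmbedding h (S z)
  rw [← this]
  refine congrArg (fun s => ∫⁻ θ in s, h (θ + intVec z)) ?_
  ext θ
  simp [S]

/-- An additive subgroup containing the integer vectors, in bounded denominator. -/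
structure FineLattice (I : Type*) where
  L : AddSubgroup (I → ℝ)
  den : ℕ
  den_pos : 0 < den
  int_mem : ∀ z : I → ℤ, intVec z ∈ L
  bdd : ∀ θ ∈ L, ∀ i, ∃ m : ℤ, (den : ℝ) * θ i = m

namespace FineLattice

variable (Λ : FineLattice I)

def reps : Set (I → ℝ) := {θ | θ ∈ Λ.L ∧ θ ∈ box I}

theorem reps_finite : Λ.reps.Finite := by
  refine (Set.Finite.pi (t := fun _ : I => ((fun m : ℤ => (m : ℝ) / Λ.den) ''
    Set.Icc (0:ℤ) (Λ.den : ℤ))) fun _ => (Set.finite_Icc _ _).image _).subset ?_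
  rintro θ ⟨hL, hB⟩ i -
  obtain ⟨m, hm⟩ := Λ.bdd θ hL i
  obtain ⟨h0, h1⟩ := mem_box.1 hB i
  have dp : (0:ℝ) < Λ.den := Nat.cast_pos.2 Λ.den_pos
  refine ⟨m, ⟨?_, ?_⟩, ?_⟩
  · have : (0:ℝ) ≤ m := by rw [← hm]; positivity
    exact_mod_cast this
  · have : (m:ℝ) ≤ (Λ.den : ℝ) := by rw [← hm]; nlinarith
    exact_mod_cast this
  · field_simp
    linarith

noncomputable def split : (Λ.reps × (I → ℤ)) ≃ Λ.L where
  toFun p := ⟨p.1.1 + intVec p.2, Λ.L.add_mem p.1.2.1 (Λ.int_mem _)⟩
  invFun l := (⟨l.1 - intVec (fun i => ⌊l.1 i⌋),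
    Λ.L.sub_mem l.2 (Λ.int_mem _), mem_box.2 fun i => by
      simp only [Pi.sub_apply, intVec]
      constructor <;> linarith [Int.floor_le (l.1 i), Int.lt_floor_add_one (l.1 i)]⟩,
    fun i => ⌊l.1 i⌋)
  left_inv := by
    rintro ⟨⟨r, hr, hb⟩, z⟩
    have hz : (fun i => ⌊(r + intVec z) i⌋) = z := by
      funext i
      rw [Int.floor_eq_iff]
      obtain ⟨h0, h1⟩ := mem_box.1 hb i
      simp only [Pi.add_apply, intVec]
      constructor <;> linarith
    simp only [hz]
    simp
  right_inv := by intro l; simp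

noncomputable def mult : ℝ≥0∞ := (Λ.reps_finite.toFinset.card : ℝ≥0∞)

theorem mult_ne_top : Λ.mult ≠ ⊤ := ENNReal.natCast_ne_top _

theorem mult_ne_zero : Λ.mult ≠ 0 := by
  simp only [mult, ne_eq, Nat.cast_eq_zero, Finset.card_eq_zero]
  intro h
  have : (0 : I → ℝ) ∈ Λ.reps := ⟨Λ.L.zero_mem, mem_box.2 fun i => by simp⟩
  rw [← Set.Finite.mem_toFinset Λ.reps_finite, h] at this
  simp at this

instance : Countable Λ.L := by
  have : Finite Λ.reps := Λ.reps_finite.to_subtype
  exact Countable.of_equiv _ Λ.split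

theorem unfold_eq (h : (I → ℝ) → ℝ≥0∞) (hh : Measurable h) :
    ∫⁻ θ in box I, ∑' l : Λ.L, h (θ + l.1) = Λ.mult * ∫⁻ θ, h θ := by
  have : Finite Λ.reps := Λ.reps_finite.to_subtype
  have hfin : Fintype Λ.reps := Fintype.ofFinite _
  rw [lintegral_tsum (f := fun (l : Λ.L) θ => h (θ + l.1))
    (fun l => (hh.comp (measurable_id.add_const _)).aemeasurable)]
  rw [← Equiv.tsum_eq Λ.split, ENNReal.tsum_prod', tsum_fintype]
  have : ∀ r : Λ.reps, (∑' z : I → ℤ, ∫⁻ θ in box I, h (θ + (Λ.split (r, z)).1)) =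
      ∫⁻ θ, h θ := by
    intro r
    rw [← lintegral_add_right_eq_self h r.1, tile]
    refine tsum_congr fun z => lintegral_congr fun θ => ?_
    show h (θ + (r.1 + intVec z)) = h (θ + intVec z + r.1)
    congr 1; abel
  simp only [this, Finset.sum_const, Finset.card_univ, nsmul_eq_mul, mult]
  congr 2
  rw [← Set.toFinset_card, Set.Finite.toFinset_eq_toFinset]

theorem measurable_sum (h : (I → ℝ) → ℝ≥0∞) (hh : Measurable h) :
    Measurable fun θ => ∑' l : Λ.L, h (θ + l.1) :=
  Measurable.tsum fun _ => hh.comp (measurable_id.add_const _)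

end FineLattice

end Vale.Agent.P047
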