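import Mathlib
import Vale.Agent.P047.Gfun
import Vale.Agent.P047.Prob
import Vale.Agent.P047.Unfold

/-! Data for the positivity theorem, Riesz vectors and the sparse approximation step. -/

namespace Vale.Agent.P047

open Finset MeasureTheory
open scoped RealInnerProductSpace

/-- Two integer linear maps: site forms `D` and coordinate forms `uu`. -/
structure Form (I Y Z : Type*) [Fintype I] [Fintype Y] [Fintype Z] where
  D : (I → ℝ) →ₗ[ℝ] EuclideanSpace ℝ Y
  uu : (I → ℝ) →ₗ[ℝ] (Z → ℝ)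
  dl : ℝ
  Γ : ℝ
  dl_pos : 0 < dl
  Γ_one : 1 ≤ Γ
  lev : ∀ θ z, (uu θ z) ^ 2 ≤ dl * ‖D θ‖ ^ 2
  frame : ∀ θ, ∑ z, (uu θ z) ^ 2 ≤ Γ * ‖D θ‖ ^ 2
  inj : ∀ θ, D θ = 0 → θ = 0
  site : ∀ θ y b, 0 ≤ b → (∀ z, |uu θ z| ≤ b) → |D θ y| ≤ 2 * b

namespace Form

variable {I Y Z : Type*} [Fintype I] [Fintype Y] [Fintype Z] (S : Form I Y Z)

theorem D_injective : Function.Injective S.D := by
  rw [injective_iff_map_eq_zero]; exact S.inj

theorem exists_riesz (φ : (I → ℝ) →ₗ[ℝ] ℝ) :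
    ∃ θ₀, ∀ θ, ⟪S.D θ₀, S.D θ⟫ = φ θ := by
  let e := LinearEquiv.ofInjective S.D S.D_injective
  let ψ : StrongDual ℝ (LinearMap.range S.D) := (φ.comp e.symm.toLinearMap).toContinuousLinearMap
  let v := (InnerProductSpace.toDual ℝ (LinearMap.range S.D)).symm ψ
  refine ⟨e.symm v, fun θ => ?_⟩
  have h := InnerProductSpace.toDual_symm_apply (𝕜 := ℝ) (x := e θ) (y := ψ)
  have h1 : ψ (e θ) = φ θ := by simp [ψ]
  rw [h1] at h
  rw [← h]
  have h2 : S.D (e.symm v) = ((v : LinearMap.range S.D) : EuclideanSpace ℝ Y) :=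
    congrArg Subtype.val (e.apply_symm_apply v)
  rw [h2]
  rfl

noncomputable def rv (z : Z) : I → ℝ :=
  Classical.choose (S.exists_riesz ((LinearMap.proj z).comp S.uu))

theorem rv_spec (z : Z) (θ : I → ℝ) : ⟪S.D (S.rv z), S.D θ⟫ = S.uu θ z :=
  Classical.choose_spec (S.exists_riesz ((LinearMap.proj z).comp S.uu)) θ

theorem exists_pre (e : EuclideanSpace ℝ Y) :
    ∃ θ₀, ∀ θ, ⟪S.D θ₀, S.D θ⟫ = ⟪e, S.D θ⟫ :=
  S.exists_riesz ((innerSL ℝ e).toLinearMap.comp S.D)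

noncomputable def pre (e : EuclideanSpace ℝ Y) : I → ℝ := Classical.choose (S.exists_pre e)

theorem pre_spec (e : EuclideanSpace ℝ Y) (θ : I → ℝ) :
    ⟪S.D (S.pre e), S.D θ⟫ = ⟪e, S.D θ⟫ :=
  Classical.choose_spec (S.exists_pre e) θ

theorem pre_pyth (e : EuclideanSpace ℝ Y) (θ : I → ℝ) :
    ‖S.D θ - e‖ ^ 2 = ‖S.D (θ - S.pre e)‖ ^ 2 + ‖S.D (S.pre e) - e‖ ^ 2 := by
  have h1 := S.pre_spec e (θ - S.pre e)
  have e1 : S.D θ - e = S.D (θ - S.pre e) + (S.D (S.pre e) - e) := by rw [map_sub]; abel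
  rw [e1, norm_add_sq_real]
  have : ⟪S.D (θ - S.pre e), S.D (S.pre e) - e⟫ = 0 := by
    rw [inner_sub_right, real_inner_comm (S.D (S.pre e)), real_inner_comm e, h1, sub_self]
  rw [this]; ring

theorem pre_sub (e : EuclideanSpace ℝ Y) (l : I → ℝ) :
    S.pre (e - S.D l) = S.pre e - l := by
  apply S.D_injective
  refine eq_of_sub_eq_zero (inner_self_eq_zero (𝕜 := ℝ).1 ?_)
  rw [← map_sub]
  set w := S.pre (e - S.D l) - (S.pre e - l) with hw
  have h1 := S.pre_spec (e - S.D l) w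
  have h2 := S.pre_spec e w
  have e : S.D w = S.D (S.pre (e - S.D l)) - (S.D (S.pre e) - S.D l) := by
    rw [hw, map_sub, map_sub]
  nth_rewrite 1 [e]
  rw [inner_sub_left, inner_sub_left, h1, h2, inner_sub_left, sub_self]

theorem rv_norm (z : Z) : ‖S.D (S.rv z)‖ ^ 2 ≤ S.dl := by
  set a := ‖S.D (S.rv z)‖ ^ 2 with ha
  have h1 : a = S.uu (S.rv z) z := by rw [ha, ← S.rv_spec z (S.rv z), real_inner_self_eq_norm_sq]
  have h2 := S.lev (S.rv z) z
  rw [← h1, ← ha] at h2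
  rcases eq_or_lt_of_le (sq_nonneg ‖S.D (S.rv z)‖) with h | h
  · rw [ha, ← h]; exact S.dl_pos.le
  · rw [← ha] at h; nlinarith

theorem ker_abs (z z' : Z) : |S.uu (S.rv z) z'| ≤ S.dl := by
  have h := S.lev (S.rv z) z'
  have h' := mul_le_mul_of_nonneg_left (S.rv_norm z) S.dl_pos.le
  rw [← abs_of_pos S.dl_pos, ← sq_le_sq]
  nlinarith

theorem ker_symm (z z' : Z) : S.uu (S.rv z) z' = S.uu (S.rv z') z := by
  rw [← S.rv_spec z' (S.rv z), ← S.rv_spec z (S.rv z'), real_inner_comm]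

theorem ker_sq (z' : Z) : ∑ z, (S.uu (S.rv z) z') ^ 2 ≤ S.Γ * S.dl := by
  calc ∑ z, (S.uu (S.rv z) z') ^ 2 = ∑ z, (S.uu (S.rv z') z) ^ 2 :=
        sum_congr rfl fun z _ => by rw [S.ker_symm]
    _ ≤ S.Γ * ‖S.D (S.rv z')‖ ^ 2 := S.frame _
    _ ≤ _ := mul_le_mul_of_nonneg_left (S.rv_norm z') (le_trans zero_le_one S.Γ_one)

noncomputable def comb (c : Z → ℝ) : I → ℝ := ∑ z, c z • S.rv z

theorem uu_comb (c : Z → ℝ) (z' : Z) :
    S.uu (S.comb c) z' = ∑ z, c z * S.uu (S.rv z) z' := by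
  simp [comb, map_sum, Finset.sum_apply]

theorem uu_comb_le (c : Z → ℝ) (z' : Z) : |S.uu (S.comb c) z'| ≤ (∑ z, |c z|) * S.dl := by
  rw [uu_comb, sum_mul]
  refine le_trans (abs_sum_le_sum_abs _ _) (sum_le_sum fun z _ => ?_)
  rw [abs_mul]
  exact mul_le_mul_of_nonneg_left (S.ker_abs z z') (abs_nonneg _)

theorem comb_sub (c c' : Z → ℝ) : S.comb (c - c') = S.comb c - S.comb c' := by
  simp [comb, sub_smul, sum_sub_distrib]

theorem comb_single_add [DecidableEq Z] (c : Z → ℝ) (z : Z) (t : ℝ) :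
    S.comb (c + Pi.single z t) = S.comb c + t • S.rv z := by
  simp only [comb, Pi.add_apply, add_smul, sum_add_distrib]
  congr 1
  rw [sum_eq_single z]
  · simp
  · intro b _ hb; simp [hb]
  · simp

theorem lasso (v : I → ℝ) {η : ℝ} (hη : 0 < η) :
    ∃ c : Z → ℝ, (∀ z, |S.uu (v - S.comb c) z| ≤ η) ∧
      ‖S.D (v - S.comb c)‖ ^ 2 + 2 * η * (∑ z, |c z|) ≤ ‖S.D v‖ ^ 2 := by
  classical
  let Φ : (Z → ℝ) → ℝ := fun c => ‖S.D (v - S.comb c)‖ ^ 2 + 2 * η * ∑ z, |c z|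
  have hDc : Continuous S.D := S.D.continuous_of_finiteDimensional
  have hc : Continuous Φ := by
    have h1 : Continuous fun c : Z → ℝ => v - S.comb c :=
      continuous_const.sub (continuous_finsetSum _ fun z _ =>
        (continuous_apply z).smul continuous_const)
    exact ((hDc.comp h1).norm.pow 2).add (continuous_const.mul
      (continuous_finsetSum _ fun z _ => (continuous_apply z).abs))
  set B := ‖S.D v‖ ^ 2 / (2 * η) with hB
  have hB0 : 0 ≤ B := by positivity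
  have hK : IsCompact (Set.univ.pi fun _ : Z => Set.Icc (-B) B) :=
    isCompact_univ_pi fun _ => isCompact_Icc
  obtain ⟨c, -, hmin⟩ := hK.exists_isMinOn ⟨0, fun z _ => ⟨neg_nonpos.2 hB0, hB0⟩⟩ hc.continuousOn
  have hz : Φ 0 = ‖S.D v‖ ^ 2 := by simp [Φ, comb]
  have glob : ∀ c', Φ c ≤ Φ c' := by
    intro c'
    by_cases h : c' ∈ Set.univ.pi fun _ : Z => Set.Icc (-B) B
    · exact hmin h
    · have h0 : Φ c ≤ Φ 0 := hmin (fun z _ => ⟨neg_nonpos.2 hB0, hB0⟩)
      obtain ⟨z, hz'⟩ : ∃ z, B < |c' z| := by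
        simp only [Set.mem_pi, Set.mem_univ, Set.mem_Icc, forall_true_left] at h
        push Not at h
        obtain ⟨z, hz'⟩ := h
        refine ⟨z, ?_⟩
        by_contra hh
        push Not at hh
        obtain ⟨a, b⟩ := abs_le.1 hh
        linarith [hz' a]
      have : Φ 0 ≤ Φ c' := by
        rw [hz]
        have h2 : |c' z| ≤ ∑ y, |c' y| := single_le_sum (fun y _ => abs_nonneg (c' y)) (mem_univ z)
        have h3 : ‖S.D v‖ ^ 2 = 2 * η * B := by rw [hB]; field_simp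
        have h4 : 0 ≤ ‖S.D (v - S.comb c')‖ ^ 2 := by positivity
        show _ ≤ ‖S.D (v - S.comb c')‖ ^ 2 + 2 * η * ∑ y, |c' y|
        nlinarith
      exact le_trans h0 this
  refine ⟨c, fun z => ?_, hz ▸ glob 0⟩
  have key : ∀ t : ℝ, 0 ≤ -(2 * t * S.uu (v - S.comb c) z) + t ^ 2 * ‖S.D (S.rv z)‖ ^ 2 +
      2 * η * |t| := by
    intro t
    have h := glob (c + Pi.single z t)
    simp only [Φ] at h
    rw [S.comb_single_add, ← sub_sub, map_sub _ (v - S.comb c), map_smul, norm_sub_sq_real,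
      inner_smul_right, real_inner_comm, S.rv_spec, norm_smul, mul_pow, Real.norm_eq_abs, sq_abs] at h
    have hs : ∑ y, |(c + Pi.single z t : Z → ℝ) y| ≤ (∑ y, |c y|) + |t| := by
      calc _ ≤ ∑ y, (|c y| + |(Pi.single z t : Z → ℝ) y|) := sum_le_sum fun y _ => abs_add_le _ _
        _ = _ := by
          rw [sum_add_distrib]
          congr 1
          rw [sum_eq_single z]
          · simp
          · intro b _ hb; simp [hb]
          · simp
    nlinarith [mul_le_mul_of_nonneg_left hs (by linarith : (0:ℝ) ≤ 2 * η)]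
  by_contra hcon
  push Not at hcon
  set a := S.uu (v - S.comb c) z
  set R := ‖S.D (S.rv z)‖ ^ 2
  have hR : 0 ≤ R := by positivity
  set e := (|a| - η) / (R + 1) with he
  have e0 : 0 < e := div_pos (by linarith) (by linarith)
  have e1 : e * (R + 1) = |a| - η := by rw [he]; field_simp
  rcases le_total 0 a with h0 | h0
  · have := key e
    rw [abs_of_pos e0] at this
    rw [abs_of_nonneg h0] at e1
    nlinarith
  · have := key (-e)
    rw [abs_neg, abs_of_pos e0] at this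
    rw [abs_of_nonpos h0] at e1
    nlinarith

end Form

end Vale.Agent.P047
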