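import Mathlib
import Vale.Agent.P047.Setup
import Vale.Agent.P047.PL

/-! Gaussian-type integrands attached to a form, their translation bound, and the
Fourier criterion for the existence of balancing signs. -/

namespace Vale.Agent.P047

open Finset MeasureTheory
open scoped RealInnerProductSpace ENNReal

namespace Form

variable {I Y Z : Type*} [Fintype I] [Fintype Y] [Fintype Z] (S : Form I Y Z)

noncomputable def igd (m : I → ℝ) (j : EuclideanSpace ℝ Y) (θ : I → ℝ) : ℝ :=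
  Real.exp (-(kap * ‖S.D (θ - m)‖ ^ 2)) * ∏ y, rho (S.D θ y - j y)

noncomputable def Gp (θ : I → ℝ) : ℝ := ∏ y, gg (S.D θ y)

noncomputable def Fc (θ : I → ℝ) : ℝ := ∏ y, Real.cos (Real.pi * S.D θ y)

noncomputable def J : ℝ≥0∞ := ∫⁻ θ, ENNReal.ofReal (S.Gp θ)

theorem cont_coord (y : Y) : Continuous fun θ : I → ℝ => S.D θ y :=
  ((EuclideanSpace.proj (𝕜 := ℝ) y).toLinearMap.comp S.D).continuous_of_finiteDimensional

theorem cont_D : Continuous S.D := S.D.continuous_of_finiteDimensional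

theorem cont_Gp : Continuous S.Gp :=
  continuous_finsetProd _ fun y _ => gg_cont.comp (S.cont_coord y)

theorem cont_Fc : Continuous S.Fc :=
  continuous_finsetProd _ fun y _ =>
    Real.continuous_cos.comp (continuous_const.mul (S.cont_coord y))

theorem cont_igd (m : I → ℝ) (j : EuclideanSpace ℝ Y) : Continuous (S.igd m j) :=
  (Real.continuous_exp.comp
      (continuous_const.mul ((S.cont_D.comp (continuous_id.sub continuous_const)).norm.pow 2)).neg).mul
    (continuous_finsetProd _ fun y _ => rho_cont.comp ((S.cont_coord y).sub continuous_const))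

theorem meas_igd (m : I → ℝ) (j : EuclideanSpace ℝ Y) :
    Measurable fun θ => ENNReal.ofReal (S.igd m j θ) :=
  (S.cont_igd m j).measurable.ennreal_ofReal

theorem igd_nonneg (m : I → ℝ) (j : EuclideanSpace ℝ Y) (θ : I → ℝ) : 0 ≤ S.igd m j θ :=
  mul_nonneg (Real.exp_pos _).le (prod_nonneg fun _ _ => (rho_pos _).le)

theorem norm_sq_sum (e : EuclideanSpace ℝ Y) : ‖e‖ ^ 2 = ∑ y, (e y) ^ 2 :=
  EuclideanSpace.real_norm_sq_eq e

theorem gg_prod (e : EuclideanSpace ℝ Y) :
    ∏ y, gg (e y) = Real.exp (-(kap * ‖e‖ ^ 2)) * ∏ y, rho (e y) := by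
  rw [norm_sq_sum, mul_sum, ← sum_neg_distrib, Real.exp_sum, ← prod_mul_distrib]
  rfl

theorem Gp_eq (θ : I → ℝ) : S.Gp θ = S.igd 0 0 θ := by
  rw [Gp, gg_prod, igd]
  simp

theorem Gp_pos (θ : I → ℝ) : 0 < S.Gp θ := prod_pos fun y _ => gg_pos _

theorem J_ne_top : S.J ≠ ⊤ := by
  obtain ⟨K, hK0, hK⟩ := S.D.exists_antilipschitzWith (LinearMap.ker_eq_bot.2 S.D_injective)
  have hb : ∀ θ : I → ℝ, ‖θ‖ ≤ K * ‖S.D θ‖ := fun θ => by
    have := hK.le_mul_dist θ 0
    simpa [dist_eq_norm] using this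
  set b : ℝ := kap / ((K : ℝ) ^ 2 * (Fintype.card I + 1)) with hbdef
  have k0 : 0 < kap := by unfold kap; positivity
  have K0 : (0:ℝ) < K := by exact_mod_cast hK0
  have b0 : 0 < b := by positivity
  have hbig : ∀ θ : I → ℝ, S.Gp θ ≤ ∏ i, Real.exp (-b * (θ i) ^ 2) := by
    intro θ
    rw [Gp, gg_prod, ← Real.exp_sum]
    refine le_trans (mul_le_of_le_one_right (Real.exp_pos _).le
      (prod_le_one (fun y _ => (rho_pos _).le) fun y _ => rho_le_one _)) (Real.exp_le_exp.2 ?_)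
    simp only [neg_mul, sum_neg_distrib, neg_le_neg_iff, ← mul_sum]
    have h1 : ∑ i, (θ i) ^ 2 ≤ (Fintype.card I + 1) * ((K:ℝ) * ‖S.D θ‖) ^ 2 := by
      calc ∑ i, (θ i) ^ 2 ≤ ∑ _i : I, ((K:ℝ) * ‖S.D θ‖) ^ 2 := by
            refine sum_le_sum fun i _ => ?_
            rw [← sq_abs (θ i)]
            refine pow_le_pow_left₀ (abs_nonneg _) ?_ 2
            exact le_trans (by rw [← Real.norm_eq_abs]; exact norm_le_pi_norm θ i) (hb θ)
        _ = (Fintype.card I : ℝ) * ((K:ℝ) * ‖S.D θ‖) ^ 2 := by simp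
        _ ≤ _ := by nlinarith [sq_nonneg ((K:ℝ) * ‖S.D θ‖)]
    calc b * ∑ i, (θ i) ^ 2 ≤ b * ((Fintype.card I + 1) * ((K:ℝ) * ‖S.D θ‖) ^ 2) :=
          mul_le_mul_of_nonneg_left h1 b0.le
      _ = kap * ‖S.D θ‖ ^ 2 := by rw [hbdef]; field_simp
  have hint : Integrable (fun θ : I → ℝ => ∏ i, Real.exp (-b * (θ i) ^ 2)) :=
    Integrable.fintype_prod fun _ => integrable_exp_neg_mul_sq b0
  have hfin := hint.hasFiniteIntegral
  rw [hasFiniteIntegral_iff_ofReal (Filter.Eventually.of_forall fun θ =>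
    prod_nonneg fun i _ => (Real.exp_pos _).le)] at hfin
  exact ne_of_lt (lt_of_le_of_lt (lintegral_mono fun θ => ENNReal.ofReal_le_ofReal (hbig θ)) hfin)

theorem J_ne_zero : S.J ≠ 0 := by
  have hm : Measurable fun θ => ENNReal.ofReal (S.Gp θ) := S.cont_Gp.measurable.ennreal_ofReal
  refine ne_of_gt ((lintegral_pos_iff_support hm).2 ?_)
  have : (Function.support fun θ => ENNReal.ofReal (S.Gp θ)) = Set.univ := by
    ext θ; simp [S.Gp_pos θ]
  rw [this]
  exact isOpen_univ.measure_pos volume Set.univ_nonempty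

/-- Translating the Gaussian or the even log-concave factor never increases the integral. -/
theorem anderson (m : I → ℝ) (j : EuclideanSpace ℝ Y) :
    ∫⁻ θ, ENNReal.ofReal (S.igd m j θ) ≤ S.J := by
  let F : EuclideanSpace ℝ Y → (I → ℝ) → ℝ≥0∞ := fun c θ =>
    ENNReal.ofReal (Real.exp (-(kap * ‖S.D θ‖ ^ 2)) * ∏ y, rho (S.D θ y + c y))
  have hF : ∀ c, Measurable (F c) := fun c =>
    (((Real.continuous_exp.comp (continuous_const.mul (S.cont_D.norm.pow 2)).neg).mul
      (continuous_finsetProd _ fun y _ =>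
        rho_cont.comp ((S.cont_coord y).add continuous_const))).measurable).ennreal_ofReal
  have h1 : ∫⁻ θ, ENNReal.ofReal (S.igd m j θ) = ∫⁻ θ, F (S.D m - j) θ := by
    rw [← lintegral_add_right_eq_self (fun θ => ENNReal.ofReal (S.igd m j θ)) m]
    refine lintegral_congr fun θ => ?_
    simp only [F, igd, add_sub_cancel_right, map_add]
    congr 2
    refine prod_congr rfl fun y _ => ?_
    congr 1
    simp; ring
  have h2 : ∀ c, ∫⁻ θ, F (-c) θ = ∫⁻ θ, F c θ := by
    intro c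
    have : ∀ θ, F (-c) θ = F c (-θ) := by
      intro θ
      simp only [F, map_neg, norm_neg]
      congr 2
      refine prod_congr rfl fun y _ => ?_
      rw [← rho_neg]; congr 1; simp; ring
    simp only [this]
    exact (Measure.measurePreserving_neg volume).lintegral_comp (hF c)
  have h3 : ∀ c, (∫⁻ θ, F c θ) * (∫⁻ θ, F (-c) θ) ≤ (∫⁻ θ, F 0 θ) ^ 2 := by
    intro c
    refine pl_fintype _ _ _ (hF c) (hF _) (hF 0) fun a b => ?_
    simp only [F]
    have nn : ∀ (c : EuclideanSpace ℝ Y) (θ : I → ℝ),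
        0 ≤ Real.exp (-(kap * ‖S.D θ‖ ^ 2)) * ∏ y, rho (S.D θ y + c y) :=
      fun c θ => mul_nonneg (Real.exp_pos _).le (prod_nonneg fun _ _ => (rho_pos _).le)
    rw [← ENNReal.ofReal_mul (nn c a), ← ENNReal.ofReal_pow (nn 0 _)]
    apply ENNReal.ofReal_le_ofReal
    rw [mul_pow, ← prod_pow, mul_mul_mul_comm, ← prod_mul_distrib, ← Real.exp_add,
      ← Real.exp_nat_mul]
    refine mul_le_mul (Real.exp_le_exp.2 ?_) (prod_le_prod (fun y _ =>
      mul_nonneg (rho_pos _).le (rho_pos _).le) fun y _ => ?_)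
      (prod_nonneg fun y _ => mul_nonneg (rho_pos _).le (rho_pos _).le) (Real.exp_pos _).le
    · rw [map_smul, map_add, norm_smul]
      have hp := parallelogram_law_with_norm ℝ (S.D a) (S.D b)
      have k0 : 0 < kap := by unfold kap; positivity
      have : 0 ≤ kap * (‖S.D a - S.D b‖ * ‖S.D a - S.D b‖) :=
        mul_nonneg k0.le (mul_self_nonneg _)
      have e2 : ‖(2:ℝ)⁻¹‖ = 1/2 := by norm_num
      rw [e2]
      push_cast
      nlinarith [this, congrArg (fun t => kap * t) hp]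
    · refine le_trans (rho_mid _ _) (le_of_eq ?_)
      congr 2
      simp; ring
  have h0 : ∫⁻ θ, F 0 θ = S.J := by
    refine lintegral_congr fun θ => ?_
    simp only [F, Gp_eq, igd, sub_zero]
    simp
  rw [h1]
  have := h3 (S.D m - j)
  rw [h2, h0, ← pow_two] at this
  by_contra hcon
  push Not at hcon
  rw [pow_two, pow_two] at this
  exact absurd this (not_le.2 (ENNReal.mul_lt_mul hcon hcon))

theorem tail_piece (y : Y) {s : ℝ} (hs : s = 1 ∨ s = -1) :
    ∃ m : I → ℝ, ∀ θ, 3/10 ≤ s * S.D θ y →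
      S.Gp θ ≤ Real.exp (-(kap * (9/400 / S.dl))) * S.igd m 0 θ := by
  classical
  set w := S.pre (EuclideanSpace.single y s) with hw
  have hip : ∀ θ, ⟪S.D w, S.D θ⟫ = s * S.D θ y := by
    intro θ
    rw [hw, S.pre_spec, EuclideanSpace.inner_single_left]
    simp
  have hQ : ‖S.D w‖ ^ 2 ≤ 4 * S.dl := by
    have h1 : ‖S.D w‖ ^ 2 = s * S.D w y := by rw [← hip, real_inner_self_eq_norm_sq]
    have h2 : |S.D w y| ≤ 2 * (Real.sqrt S.dl * ‖S.D w‖) := by
      refine S.site w y _ (by positivity) fun z => ?_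
      rw [← Real.sqrt_sq_eq_abs, ← Real.sqrt_sq (norm_nonneg (S.D w)),
        ← Real.sqrt_mul S.dl_pos.le]
      exact Real.sqrt_le_sqrt (S.lev w z)
    have h3 : s * S.D w y ≤ |S.D w y| := by
      rcases hs with rfl | rfl
      · rw [one_mul]; exact le_abs_self _
      · rw [neg_one_mul]; exact neg_le_abs _
    rcases eq_or_lt_of_le (norm_nonneg (S.D w)) with h | h
    · rw [← h]; nlinarith [S.dl_pos]
    · have hle : ‖S.D w‖ ≤ 2 * Real.sqrt S.dl := by nlinarith
      calc ‖S.D w‖ ^ 2 ≤ (2 * Real.sqrt S.dl) ^ 2 := pow_le_pow_left₀ (norm_nonneg _) hle 2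
        _ = 4 * S.dl := by rw [mul_pow, Real.sq_sqrt S.dl_pos.le]; norm_num
  refine ⟨(3/10 / (4 * S.dl)) • w, fun θ hθ => ?_⟩
  rw [Gp_eq, igd, igd, ← mul_assoc, ← Real.exp_add]
  refine mul_le_mul_of_nonneg_right (Real.exp_le_exp.2 ?_) (prod_nonneg fun _ _ => (rho_pos _).le)
  have k0 : 0 < kap := by unfold kap; positivity
  set a := 3/10 / (4 * S.dl) with ha
  have a0 : 0 < a := div_pos (by norm_num) (mul_pos (by norm_num) S.dl_pos)
  rw [sub_zero, map_sub, map_smul, norm_sub_sq_real, inner_smul_right,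
    real_inner_comm (S.D w) (S.D θ), hip, norm_smul, mul_pow, Real.norm_eq_abs, sq_abs]
  have h4 : a * (4 * S.dl) = 3/10 := by rw [ha]; exact div_mul_cancel₀ _ (mul_ne_zero (by norm_num) S.dl_pos.ne')
  have h5 : 9/400 / S.dl = 3/10 * a := by rw [ha]; ring
  rw [h5]
  have : 0 ≤ 2 * (a * (s * S.D θ y)) - a ^ 2 * ‖S.D w‖ ^ 2 - 3/10 * a := by
    nlinarith [mul_le_mul_of_nonneg_left hθ a0.le, mul_le_mul_of_nonneg_left hQ (sq_nonneg a)]
  nlinarith [mul_nonneg k0.le this]

theorem D_expand (θ : I → ℝ) (y : Y) [DecidableEq I] :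
    S.D θ y = ∑ i, θ i * S.D (Pi.single i 1) y := by
  conv_lhs => rw [pi_eq_sum_univ' θ]
  simp [map_sum, map_smul]

theorem integral_character [DecidableEq I] (n : I → ℤ) (hn : n ≠ 0) :
    ∫ θ in box I, ∏ i, Complex.exp (2 * Real.pi * Complex.I * n i * θ i) = 0 := by
  obtain ⟨i, hi⟩ := Function.ne_iff.1 hn
  rw [box, volume_pi, Measure.restrict_pi_pi,
    integral_fintype_prod_eq_prod (fun i (t : ℝ) => Complex.exp (2 * Real.pi * Complex.I * n i * t))]
  refine prod_eq_zero (mem_univ i) ?_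
  rw [setIntegral_congr_set Ico_ae_eq_Ioc, ← intervalIntegral.integral_of_le zero_le_one,
    integral_exp_mul_complex]
  · have : (2 * (Real.pi:ℂ) * Complex.I * n i * ((1:ℝ):ℂ)) = (n i : ℂ) * (2 * Real.pi * Complex.I) := by
      push_cast; ring
    rw [this, Complex.exp_int_mul_two_pi_mul_I]
    simp
  · simp only [ne_eq, mul_eq_zero, Complex.ofReal_eq_zero, Real.pi_ne_zero, Complex.I_ne_zero,
      OfNat.ofNat_ne_zero, or_self, false_or, Int.cast_eq_zero]
    exact hi

/-- If the cosine product has nonzero integral, balancing signs exist. -/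
theorem exists_signs [DecidableEq I]
    (hint : ∀ i y, ∃ m : ℤ, S.D (Pi.single i 1) y = m)
    (hpar : ∀ i, ∃ m : ℤ, ∑ y, S.D (Pi.single i 1) y = 2 * m)
    (hne : ∫ θ in box I, S.Fc θ ≠ 0) :
    ∃ ε : Y → ℝ, (∀ y, ε y = 1 ∨ ε y = -1) ∧ ∀ i, ∑ y, ε y * S.D (Pi.single i 1) y = 0 := by
  classical
  by_contra hno
  push Not at hno
  apply hne
  choose md hmd using hint
  choose mp hmp using hpar
  let sg : Bool → ℤ := fun b => if b then 1 else -1
  have hev : ∀ (ω : Y → Bool) i, ∃ n : ℤ, ∑ y, sg (ω y) * md i y = 2 * n := by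
    intro ω i
    have hp : ∑ y, md i y = 2 * mp i := by
      have := hmp i
      simp only [hmd] at this
      exact_mod_cast this
    refine ⟨∑ y, (if ω y then md i y else 0) - mp i, ?_⟩
    rw [mul_sub, ← hp, mul_sum, ← sum_sub_distrib]
    refine sum_congr rfl fun y _ => ?_
    cases ω y <;> simp [sg] <;> ring
  choose n hn using hev
  have hn0 : ∀ ω, n ω ≠ 0 := by
    intro ω h
    obtain ⟨i, hi⟩ := hno (fun y => (sg (ω y) : ℝ)) (fun y => by cases ω y <;> simp [sg])
    apply hi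
    have h' := hn ω i
    rw [h] at h'
    simp only [hmd]
    have h'' : ((∑ y, sg (ω y) * md i y : ℤ) : ℝ) = ((2 * (0 : I → ℤ) i : ℤ) : ℝ) := by rw [h']
    simpa using h''
  have hexp : ∀ θ : I → ℝ, (S.Fc θ : ℂ) = (1/2 : ℂ) ^ Fintype.card Y *
      ∑ ω : Y → Bool, ∏ i, Complex.exp (2 * Real.pi * Complex.I * n ω i * θ i) := by
    intro θ
    rw [Fc, Complex.ofReal_prod, mul_sum]
    have : ∀ y, ((Real.cos (Real.pi * S.D θ y) : ℝ) : ℂ) =
        ∑ b : Bool, (1/2 : ℂ) * Complex.exp ((sg b : ℂ) * (Real.pi * S.D θ y : ℝ) * Complex.I) := by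
      intro y
      rw [Fintype.sum_bool, Complex.ofReal_cos, Complex.cos]
      simp [sg]; ring
    simp only [this, Fintype.prod_sum]
    refine sum_congr rfl fun ω _ => ?_
    rw [prod_mul_distrib, prod_const, card_univ, ← Complex.exp_sum, ← Complex.exp_sum]
    congr 2
    simp only [S.D_expand θ, hmd, Complex.ofReal_mul, Complex.ofReal_sum, mul_sum, sum_mul]
    rw [sum_comm]
    refine sum_congr rfl fun i _ => ?_
    have h' : (2 * (n ω i : ℂ)) = ∑ y, (sg (ω y) : ℂ) * (md i y : ℂ) := by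
      rw [← Int.cast_two (R := ℂ), ← Int.cast_mul, ← hn]; push_cast; rfl
    calc ∑ y, (sg (ω y) : ℂ) * ((Real.pi : ℂ) * ((θ i : ℂ) * ((md i y : ℝ) : ℂ))) * Complex.I
        = (∑ y, (sg (ω y) : ℂ) * (md i y : ℂ)) * (Real.pi * Complex.I * θ i) := by
          rw [sum_mul]; refine sum_congr rfl fun y _ => ?_; push_cast; ring
      _ = _ := by rw [← h']; ring
  have hz : ∫ θ in box I, (S.Fc θ : ℂ) = 0 := by
    simp only [hexp]
    rw [integral_const_mul, integral_finsetSum]
    · simp [integral_character _ (hn0 _)]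
    · intro ω _
      refine IntegrableOn.mono_set ?_ (s := box I) (t := Set.univ.pi fun _ => Set.Icc (0:ℝ) 1)
        (Set.pi_mono fun _ _ => Set.Ico_subset_Icc_self)
      exact (Continuous.continuousOn (by fun_prop)).integrableOn_compact
        (isCompact_univ_pi fun _ => isCompact_Icc)
  rw [integral_complex_ofReal] at hz
  exact_mod_cast hz

end Form

end Vale.Agent.P047
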