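import Mathlib
import Vale.Agent.P047.Setup

/-! Randomized rounding of an approximation vector. -/

namespace Vale.Agent.P047

open Finset
open scoped RealInnerProductSpace

namespace Form

variable {I Y Z : Type*} [Fintype I] [Fintype Y] [Fintype Z] (S : Form I Y Z)

theorem fract_bound (x : ℝ) :
    Int.fract x * (1 - Int.fract x) ≤ |x| ∧
      (⌊x⌋ ≠ 0 → (1 - Int.fract x) ≤ |x|) ∧ (⌊x⌋ + 1 ≠ 0 → Int.fract x ≤ |x|) := by
  have h0 := Int.fract_nonneg x
  have h1 := Int.fract_lt_one x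
  have hx := Int.floor_add_fract x
  refine ⟨?_, ?_, ?_⟩
  · rcases le_or_gt 0 ⌊x⌋ with h | h
    · have : (0:ℝ) ≤ ⌊x⌋ := by exact_mod_cast h
      nlinarith [le_abs_self x]
    · have : (⌊x⌋:ℝ) ≤ -1 := by exact_mod_cast (by omega : ⌊x⌋ ≤ -1)
      nlinarith [neg_abs_le x]
  · intro h
    rcases le_or_gt 0 ⌊x⌋ with h' | h'
    · have : (1:ℝ) ≤ ⌊x⌋ := by exact_mod_cast (by omega : 1 ≤ ⌊x⌋)
      linarith [le_abs_self x]
    · have : (⌊x⌋:ℝ) ≤ -1 := by exact_mod_cast (by omega : ⌊x⌋ ≤ -1)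
      linarith [neg_abs_le x]
  · intro h
    rcases le_or_gt 0 ⌊x⌋ with h' | h'
    · have : (0:ℝ) ≤ ⌊x⌋ := by exact_mod_cast h'
      linarith [le_abs_self x]
    · have : (⌊x⌋:ℝ) ≤ -2 := by exact_mod_cast (by omega : ⌊x⌋ ≤ -2)
      linarith [neg_abs_le x]

noncomputable def bern (c : Z → ℝ) (τ : ℝ) : PW Z Bool where
  w z b := if b then Int.fract (c z / τ) else 1 - Int.fract (c z / τ)
  nonneg z b := by
    cases b
    · simp; linarith [Int.fract_lt_one (c z / τ)]
    · simp [Int.fract_nonneg]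
  sum_one z := by simp

theorem round_exists (a : I → ℝ) (c : Z → ℝ) {τ η bound : ℝ} (hτ : 0 < τ) (hη : 0 < η)
    (hb : 0 < bound) (P : ℕ)
    (hq : (Fintype.card Z : ℝ) * (2 * Real.exp (-(η ^ 2 / (2 * τ ^ 2 * S.Γ * S.dl)))) +
        Real.exp (2 * (∑ z, |c z|) / τ - (P + 1)) +
        (‖S.D a‖ ^ 2 + τ * (∑ z, |c z|) * S.dl) / bound < 1) :
    ∃ k : Z → ℤ, (∀ z', |S.uu (S.comb (c - fun z => τ * (k z : ℝ))) z'| ≤ η) ∧
      (univ.filter fun z => k z ≠ 0).card ≤ P ∧
      (∀ z, |(k z : ℝ)| ≤ |c z| / τ + 1) ∧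
      ‖S.D (a + S.comb (c - fun z => τ * (k z : ℝ)))‖ ^ 2 ≤ bound := by
  classical
  let W := bern c τ
  let kk : Z → Bool → ℤ := fun z b => ⌊c z / τ⌋ + if b then 1 else 0
  let ξ : Z → Bool → ℝ := fun z b => c z - τ * (kk z b : ℝ)
  have hval : ∀ z b, ξ z b = τ * (Int.fract (c z / τ) - if b then 1 else 0) := by
    intro z b
    simp only [ξ, kk]
    have h := Int.floor_add_fract (c z / τ)
    have hc : c z = τ * (c z / τ) := by field_simp
    cases b <;> simp <;> nlinarith [h, hc]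
  have hmean : ∀ z, ∑ b, W.w z b * ξ z b = 0 := by
    intro z; simp [hval, W, bern]; ring
  have habs : ∀ z b, |ξ z b| ≤ τ := by
    intro z b
    rw [hval, abs_mul, abs_of_pos hτ]
    refine mul_le_of_le_one_right hτ.le (abs_le.2 ?_)
    have h0 := Int.fract_nonneg (c z / τ)
    have h1 := Int.fract_lt_one (c z / τ)
    cases b <;> simp <;> first | linarith | (constructor <;> linarith)
  set X := ∑ z, |c z| with hX
  let bad1 : (Z → Bool) → Prop := fun ω => ∃ z' ∈ (univ : Finset Z), ∃ s ∈ ({1, -1} : Finset ℝ),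
    η ≤ s * ∑ z, ξ z (ω z) * S.uu (S.rv z) z'
  let bad2 : (Z → Bool) → Prop := fun ω =>
    (P : ℝ) + 1 ≤ ∑ z, if kk z (ω z) ≠ 0 then (1:ℝ) else 0
  let bad3 : (Z → Bool) → Prop := fun ω =>
    bound ≤ ‖S.D (a + S.comb fun z => ξ z (ω z))‖ ^ 2
  have p1 : W.pr bad1 ≤
      (Fintype.card Z : ℝ) * (2 * Real.exp (-(η ^ 2 / (2 * τ ^ 2 * S.Γ * S.dl)))) := by
    refine le_trans (W.pr_exists _ _) ?_
    rw [← Finset.card_univ, ← nsmul_eq_mul]
    refine sum_le_card_nsmul _ _ _ fun z' _ => le_trans (W.pr_exists _ _) ?_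
    have hone : ∀ s : ℝ, s ^ 2 = 1 → W.pr (fun ω => η ≤ s * ∑ z, ξ z (ω z) * S.uu (S.rv z) z') ≤
        Real.exp (-(η ^ 2 / (2 * τ ^ 2 * S.Γ * S.dl))) := by
      intro s hs
      have G0 : 0 < τ ^ 2 * S.Γ * S.dl :=
        mul_pos (mul_pos (pow_pos hτ 2) (lt_of_lt_of_le one_pos S.Γ_one)) S.dl_pos
      set lam := η / (τ ^ 2 * S.Γ * S.dl) with hlam
      have l0 : 0 < lam := div_pos hη G0
      refine le_trans (W.pr_mono (q := fun ω => lam * η ≤
        ∑ z, lam * s * (ξ z (ω z) * S.uu (S.rv z) z')) fun ω hω => ?_) ?_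
      · rw [← mul_sum, mul_assoc]; exact mul_le_mul_of_nonneg_left hω l0.le
      refine le_trans (W.pr_exp_bound _ _ (lam ^ 2 * (τ ^ 2 * S.Γ * S.dl) / 2) ?_) ?_
      · simp only [Real.exp_sum]
        rw [W.E_prod fun z b => Real.exp (lam * s * (ξ z b * S.uu (S.rv z) z'))]
        refine le_trans (prod_le_prod (fun z _ => sum_nonneg fun b _ =>
          mul_nonneg (W.nonneg z b) (Real.exp_pos _).le) fun z _ => hoeff_one _ _ (W.nonneg z)
          (W.sum_one z) (by
            have := hmean z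
            calc ∑ b, W.w z b * (lam * s * (ξ z b * S.uu (S.rv z) z'))
                = lam * s * S.uu (S.rv z) z' * ∑ b, W.w z b * ξ z b := by
                  rw [mul_sum]; exact sum_congr rfl fun b _ => by ring
              _ = 0 := by rw [this, mul_zero])
          (b := lam * τ * |S.uu (S.rv z) z'|) fun b => by
            have s1 : |s| = 1 := by
              rw [← abs_one, ← sq_eq_sq_iff_abs_eq_abs]; simpa using hs
            rw [abs_mul, abs_mul, abs_mul, s1, abs_of_pos l0, mul_one, ← mul_assoc]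
            exact mul_le_mul_of_nonneg_right
              (mul_le_mul_of_nonneg_left (habs z b) l0.le) (abs_nonneg _)) ?_
        rw [← Real.exp_sum]
        apply Real.exp_le_exp.2
        calc ∑ z, (lam * τ * |S.uu (S.rv z) z'|) ^ 2 / 2
            = lam ^ 2 * τ ^ 2 / 2 * ∑ z, (S.uu (S.rv z) z') ^ 2 := by
              rw [mul_sum]
              exact sum_congr rfl fun z _ => by rw [mul_pow, sq_abs, mul_pow]; ring
          _ ≤ lam ^ 2 * τ ^ 2 / 2 * (S.Γ * S.dl) := by
              gcongr; exact S.ker_sq z'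
          _ = _ := by ring
      · apply Real.exp_le_exp.2 (le_of_eq ?_)
        rw [hlam]; field_simp; ring
    rw [sum_pair (by norm_num : (1:ℝ) ≠ -1)]
    have := hone 1 (by norm_num)
    have := hone (-1) (by norm_num)
    linarith
  have p2 : W.pr bad2 ≤ Real.exp (2 * X / τ - (P + 1)) := by
    refine W.pr_exp_bound _ _ _ ?_
    simp only [Real.exp_sum]
    rw [W.E_prod fun z b => Real.exp (if kk z b ≠ 0 then (1:ℝ) else 0)]
    have : 2 * X / τ = ∑ z, 2 * |c z| / τ := by rw [hX, mul_sum, sum_div]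
    rw [this, Real.exp_sum]
    refine prod_le_prod (fun z _ => sum_nonneg fun b _ =>
      mul_nonneg (W.nonneg z b) (Real.exp_pos _).le) fun z _ => ?_
    refine le_trans ?_ (Real.add_one_le_exp _)
    obtain ⟨-, fb0, fb1⟩ := fract_bound (c z / τ)
    rw [show |c z / τ| = |c z| / τ by rw [abs_div, abs_of_pos hτ]] at fb0 fb1
    have e3 : Real.exp 1 ≤ 3 := Real.exp_one_lt_d9.le.trans (by norm_num)
    have h0 := Int.fract_nonneg (c z / τ)
    have h1 := Int.fract_lt_one (c z / τ)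
    have hnn : 0 ≤ |c z| / τ := div_nonneg (abs_nonneg _) hτ.le
    simp only [Fintype.sum_bool, W, bern, kk, if_true, Bool.false_eq_true, if_false, add_zero]
    rw [mul_div_assoc]
    by_cases ha : ⌊c z / τ⌋ = 0
    · have : ⌊c z / τ⌋ + 1 ≠ 0 := by omega
      rw [if_pos this, if_neg (not_not.2 ha), Real.exp_zero]
      nlinarith [fb1 this]
    · by_cases hb' : ⌊c z / τ⌋ + 1 = 0
      · rw [if_neg (not_not.2 hb'), if_pos ha, Real.exp_zero]
        nlinarith [fb0 ha]
      · rw [if_pos hb', if_pos ha]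
        have hx := Int.floor_add_fract (c z / τ)
        have h1x : 1 ≤ |c z / τ| := by
          rcases le_or_gt 1 ⌊c z / τ⌋ with h' | h'
          · have : (1:ℝ) ≤ ⌊c z / τ⌋ := by exact_mod_cast h'
            linarith [le_abs_self (c z / τ)]
          · have : (⌊c z / τ⌋:ℝ) ≤ -2 := by exact_mod_cast (by omega : ⌊c z / τ⌋ ≤ -2)
            linarith [neg_abs_le (c z / τ)]
        rw [abs_div, abs_of_pos hτ] at h1x
        nlinarith
  have hE : W.E (fun ω => ‖S.D (a + S.comb fun z => ξ z (ω z))‖ ^ 2) ≤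
      ‖S.D a‖ ^ 2 + τ * X * S.dl := by
    have hexp : ∀ ω : Z → Bool, ‖S.D (a + S.comb fun z => ξ z (ω z))‖ ^ 2 =
        ‖S.D a‖ ^ 2 + ((∑ z, 2 * ⟪S.D a, S.D (S.rv z)⟫ * ξ z (ω z)) +
          ∑ z, ∑ z', ⟪S.D (S.rv z), S.D (S.rv z')⟫ * (ξ z (ω z) * ξ z' (ω z'))) := by
      intro ω
      have e1 : ⟪S.D a, S.D (S.comb fun z => ξ z (ω z))⟫ =
          ∑ z, ξ z (ω z) * ⟪S.D a, S.D (S.rv z)⟫ := by
        simp [comb, map_sum, inner_sum, inner_smul_right]
      have e2 : ‖S.D (S.comb fun z => ξ z (ω z))‖ ^ 2 =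
          ∑ z, ∑ z', ⟪S.D (S.rv z), S.D (S.rv z')⟫ * (ξ z (ω z) * ξ z' (ω z')) := by
        rw [← real_inner_self_eq_norm_sq]
        simp only [comb, map_sum, map_smul, sum_inner, inner_sum, inner_smul_right,
          real_inner_smul_left]
        refine sum_congr rfl fun z _ => ?_
        rw [mul_sum]
        exact sum_congr rfl fun z' _ => by
          rw [real_inner_comm (S.D (S.rv z')) (S.D (S.rv z))]; ring
      rw [map_add, norm_add_sq_real, e1, e2, mul_sum]
      have : ∀ z, 2 * (ξ z (ω z) * ⟪S.D a, S.D (S.rv z)⟫) =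
          2 * ⟪S.D a, S.D (S.rv z)⟫ * ξ z (ω z) := fun z => by ring
      simp only [this]; ring
    simp only [hexp, W.E_add, W.E_const, W.E_sum, W.E_smul]
    have z1 : ∀ z, W.E (fun ω => ξ z (ω z)) = 0 := fun z => by rw [W.E_single z (ξ z), hmean]
    simp only [z1, mul_zero, sum_const_zero, zero_add]
    gcongr
    rw [hX, mul_sum, sum_mul]
    refine sum_le_sum fun z _ => ?_
    rw [sum_eq_single z]
    · have h2 : W.E (fun ω => ξ z (ω z) * ξ z (ω z)) ≤ τ * |c z| := by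
        rw [W.E_single z (fun b => ξ z b * ξ z b)]
        obtain ⟨fb, -, -⟩ := fract_bound (c z / τ)
        rw [abs_div, abs_of_pos hτ] at fb
        simp only [Fintype.sum_bool, hval, W, bern, if_true, Bool.false_eq_true, if_false]
        have := mul_le_mul_of_nonneg_left fb (sq_nonneg τ)
        rw [show τ ^ 2 * (|c z| / τ) = τ * |c z| by field_simp] at this
        nlinarith
      rw [real_inner_self_eq_norm_sq]
      calc ‖S.D (S.rv z)‖ ^ 2 * _ ≤ ‖S.D (S.rv z)‖ ^ 2 * (τ * |c z|) :=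
            mul_le_mul_of_nonneg_left h2 (sq_nonneg _)
        _ ≤ S.dl * (τ * |c z|) :=
            mul_le_mul_of_nonneg_right (S.rv_norm z) (mul_nonneg hτ.le (abs_nonneg _))
        _ = _ := by ring
    · intro z' _ hne
      rw [W.E_pair hne.symm, hmean, zero_mul, mul_zero]
    · simp
  have p3 : W.pr bad3 ≤ (‖S.D a‖ ^ 2 + τ * X * S.dl) / bound :=
    le_trans (W.markov (fun ω => sq_nonneg _) hb) (by gcongr)
  have : W.pr (fun ω => (bad1 ω ∨ bad2 ω) ∨ bad3 ω) < 1 := by
    have := W.pr_or (fun ω => bad1 ω ∨ bad2 ω) bad3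
    have := W.pr_or bad1 bad2
    linarith
  obtain ⟨ω, hω⟩ := W.exists_not this
  simp only [bad1, bad2, bad3, not_or, not_exists, not_and, not_le] at hω
  obtain ⟨⟨g1, g2⟩, g3⟩ := hω
  refine ⟨fun z => kk z (ω z), fun z' => ?_, ?_, fun z => ?_, g3.le⟩
  · rw [S.uu_comb]
    refine abs_le.2 ⟨?_, ?_⟩
    · have := g1 z' (mem_univ _) (-1) (by simp)
      simp only [ξ] at this
      simp only [Pi.sub_apply]
      linarith
    · have := g1 z' (mem_univ _) 1 (by simp)
      simp only [ξ] at this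
      simp only [Pi.sub_apply]
      linarith
  · rw [sum_boole] at g2
    have : ((univ.filter fun z => kk z (ω z) ≠ 0).card : ℝ) < ((P + 1 : ℕ) : ℝ) := by
      push_cast; exact g2
    exact Nat.lt_succ_iff.1 (Nat.cast_lt.1 this)
  · have h := habs z (ω z)
    simp only [ξ] at h
    have : |τ * (kk z (ω z) : ℝ)| ≤ |c z| + τ := by
      calc |τ * (kk z (ω z) : ℝ)| = |c z - (c z - τ * (kk z (ω z) : ℝ))| := by ring_nf
        _ ≤ |c z| + |c z - τ * (kk z (ω z) : ℝ)| := abs_sub _ _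
        _ ≤ _ := by linarith
    rw [abs_mul, abs_of_pos hτ] at this
    field_simp
    linarith

end Form

end Vale.Agent.P047
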