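import Mathlib
import Vale.Agent.P047.PosA
import Vale.Agent.P047.Round

/-! The positivity theorem: the cosine product has positive integral over the torus. -/

namespace Vale.Agent.P047

open Finset MeasureTheory
open scoped RealInnerProductSpace ENNReal

theorem prod_neg_one_zpow {α : Type*} (s : Finset α) (f : α → ℤ) :
    ∏ a ∈ s, (-1 : ℝ) ^ (f a) = (-1) ^ (∑ a ∈ s, f a) := by
  classical
  induction s using Finset.induction with
  | empty => simp
  | insert a s ha ih => rw [prod_insert ha, sum_insert ha, ih, zpow_add₀ (by norm_num)]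

theorem kap_bounds : (4.8 : ℝ) ≤ kap ∧ kap ≤ 5 ∧ 0 < kap := by
  have h1 := Real.pi_gt_d2
  have h2 := Real.pi_lt_d2
  unfold kap
  refine ⟨?_, ?_, ?_⟩ <;> nlinarith

theorem abs_cos_near {e η : ℝ} (h2 : |e| ≤ 1/2) (h3 : 1/2 - 14 * η ≤ |e|)
    (hη : 14 * Real.pi * η ≤ Real.exp (-8) / 2) :
    |Real.cos (Real.pi * e)| ≤ gg e * (1/2) := by
  have h1 : |Real.cos (Real.pi * e)| = |Real.sin (Real.pi * (1/2 - |e|))| := by
    rw [mul_sub, mul_one_div, Real.sin_pi_div_two_sub]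
    congr 1
    rcases abs_choice e with h | h <;> rw [h]
    rw [mul_neg, Real.cos_neg]
  rw [h1]
  refine le_trans Real.abs_sin_le_abs ?_
  rw [abs_mul, abs_of_pos Real.pi_pos, abs_of_nonneg (by linarith : 0 ≤ 1/2 - |e|)]
  have := gg_lower (t := e) (by linarith)
  nlinarith [Real.pi_pos]

namespace Form

variable {I Y Z : Type*} [Fintype I] [Fintype Y] [Fintype Z] (S : Form I Y Z)

/-- Hypotheses of the positivity theorem. -/
structure Hyp (Λ : FineLattice I) where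
  η : ℝ
  ℓ : ℝ
  G0 : ℝ
  lat : ∀ θ, θ ∈ Λ.L ↔ ∀ z, ∃ m : ℤ, S.uu θ z = m
  int_D : ∀ θ ∈ Λ.L, ∀ y, ∃ m : ℤ, S.D θ y = m
  parity : ∀ θ ∈ Λ.L, ∃ m : ℤ, ∑ y, S.D θ y = 2 * m
  ℓ3 : 3 ≤ ℓ
  cardY : (Fintype.card Y : ℝ) ≤ Real.exp ℓ
  cardZ : (Fintype.card Z : ℝ) ≤ Real.exp ℓ
  η_pos : 0 < η
  η_small : 14 * Real.pi * η ≤ Real.exp (-8) / 2
  G0_big : 1000 * ℓ ^ 2 ≤ G0
  num1 : 5000000 * ℓ ^ 3 * S.Γ * S.dl ≤ η ^ 4
  num2 : G0 * S.dl ≤ η ^ 2
  cov : ∀ g : ℕ, ∃ C : Finset (I → ℝ), ((g : ℝ) ≤ G0 → ∀ r ∈ C, r = 0) ∧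
    (C.card : ℝ) ≤ Real.exp (g / 8) ∧
    ∀ (θ : I → ℝ) (j : Y → ℤ), ∑ y, (S.D θ y - j y) ^ 2 ≤ g →
      ∃ l ∈ Λ.L, ∃ r ∈ C, ∀ z, |S.uu (θ - l - r) z| ≤ η

variable {S} {Λ : FineLattice I}

namespace Hyp

variable (H : Hyp S Λ)

theorem G0_ge : 9000 ≤ H.G0 := by nlinarith [H.G0_big, H.ℓ3]

theorem η_le : H.η ≤ 1/100000 := by
  have h : Real.exp (-8) ≤ 1/2000 := by
    have : (2000:ℝ) ≤ Real.exp 8 := by
      have h1 := pow_le_pow_left₀ (by norm_num) Real.exp_one_gt_d9.le 8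
      rw [← Real.exp_nat_mul] at h1
      norm_num at h1 ⊢
      linarith
    rw [Real.exp_neg, ← one_div]
    exact one_div_le_one_div_of_le (by norm_num) this
  nlinarith [H.η_small, Real.pi_gt_d2, H.η_pos]

theorem dl_le : S.dl ≤ H.η ^ 2 := by
  nlinarith [H.num2, H.G0_ge, S.dl_pos]

noncomputable def tau : ℝ := H.η / Real.sqrt (8 * H.ℓ * S.Γ * S.dl)

theorem q_pos : 0 < 8 * H.ℓ * S.Γ * S.dl :=
  mul_pos (mul_pos (by linarith [H.ℓ3]) (lt_of_lt_of_le one_pos S.Γ_one)) S.dl_pos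

theorem tau_pos : 0 < H.tau := div_pos H.η_pos (Real.sqrt_pos.2 H.q_pos)

theorem tau_sq : H.tau ^ 2 = H.η ^ 2 / (8 * H.ℓ * S.Γ * S.dl) := by
  rw [tau, div_pow, Real.sq_sqrt H.q_pos.le]

theorem tau_dl : H.tau * S.dl ≤ H.η := by
  have h : (H.tau * S.dl) ^ 2 ≤ H.η ^ 2 := by
    rw [mul_pow, H.tau_sq, div_mul_eq_mul_div, div_le_iff₀ H.q_pos]
    refine mul_le_mul_of_nonneg_left ?_ (sq_nonneg _)
    have h1 : S.dl ≤ 1 := le_trans H.dl_le (by nlinarith [H.η_le, H.η_pos])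
    have h2 : 1 ≤ 8 * H.ℓ * S.Γ := by nlinarith [H.ℓ3, S.Γ_one]
    nlinarith [S.dl_pos]
  exact (pow_le_pow_iff_left₀ (mul_nonneg H.tau_pos.le S.dl_pos.le) H.η_pos.le two_ne_zero).1 h

theorem inv_tau : 1 / (H.η * H.tau) ≤ 1 / (768 * H.ℓ) := by
  have hp := mul_pos H.η_pos H.tau_pos
  have h : (768 * H.ℓ) ^ 2 ≤ (H.η * H.tau) ^ 2 := by
    rw [mul_pow H.η, H.tau_sq, mul_div_assoc', le_div_iff₀ H.q_pos]
    have h' := H.num1
    have : 0 ≤ H.ℓ ^ 3 * S.Γ * S.dl :=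
      mul_nonneg (mul_nonneg (pow_nonneg (by linarith [H.ℓ3]) 3) (le_trans zero_le_one S.Γ_one))
        S.dl_pos.le
    nlinarith
  refine one_div_le_one_div_of_le (by linarith [H.ℓ3]) ?_
  exact (pow_le_pow_iff_left₀ (by linarith [H.ℓ3]) hp.le two_ne_zero).1 h

noncomputable def K (_H : Hyp S Λ) : ℕ := Fintype.card Y + 2

noncomputable def single (_H : Hyp S Λ) : Option (Z × Finset.Icc (-(H.K:ℤ)) (H.K)) → Z → ℤ
  | none => 0
  | some p => by classical exact Pi.single p.1 p.2.1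

noncomputable def Ks (g : ℕ) : Finset (Z → ℤ) := by
  classical
  exact univ.image fun f : Fin ⌊(g:ℝ) / (48 * H.ℓ)⌋₊ → Option (Z × Finset.Icc (-(H.K:ℤ)) (H.K)) =>
    ∑ i, H.single H (f i)

theorem mem_Ks {g : ℕ} (k : Z → ℤ) (hP : (univ.filter fun z => k z ≠ 0).card ≤ ⌊(g:ℝ) / (48 * H.ℓ)⌋₊)
    (hK : ∀ z, |k z| ≤ (H.K : ℤ)) : k ∈ H.Ks g := by
  classical
  set s := univ.filter fun z => k z ≠ 0
  obtain ⟨emb⟩ := Function.Embedding.nonempty_of_card_le (α := s) (β := Fin ⌊(g:ℝ) / (48 * H.ℓ)⌋₊)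
    (by simpa using hP)
  let val : s → Option (Z × Finset.Icc (-(H.K:ℤ)) (H.K)) := fun z =>
    some (z.1, ⟨k z.1, mem_Icc.2 (abs_le.1 (hK z.1))⟩)
  refine mem_image.2 ⟨Function.extend emb val fun _ => none, mem_univ _, ?_⟩
  rw [← sum_subset (subset_univ (univ.map emb))]
  · rw [sum_map]
    simp only [emb.injective.extend_apply, val, single]
    funext z
    rw [Finset.sum_apply, univ_eq_attach, sum_attach s fun x => (Pi.single x (k x) : Z → ℤ) z,
      sum_pi_single]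
    by_cases h : k z = 0
    · simp [s, h]
    · simp [s, h]
  · intro i _ hi
    rw [Function.extend_apply' _ _ _ (by simpa using hi)]
    rfl

theorem Ks_card (g : ℕ) : ((H.Ks g).card : ℝ) ≤ Real.exp (g / 8) := by
  classical
  refine le_trans (Nat.cast_le.2 card_image_le) ?_
  simp only [card_univ, Fintype.card_fun, Fintype.card_option, Fintype.card_prod, Fintype.card_fin,
    Fintype.card_coe, Int.card_Icc]
  rw [Nat.cast_pow]
  set P := ⌊(g:ℝ) / (48 * H.ℓ)⌋₊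
  have hl := H.ℓ3
  have hP : (P:ℝ) * (48 * H.ℓ) ≤ g := by
    have := Nat.floor_le (a := (g:ℝ) / (48 * H.ℓ)) (by positivity)
    rwa [le_div_iff₀ (by linarith)] at this
  have hb : ((Fintype.card Z * ((H.K:ℤ) + 1 - -(H.K:ℤ)).toNat + 1 : ℕ) : ℝ) ≤ Real.exp (6 * H.ℓ) := by
    have : ((H.K:ℤ) + 1 - -(H.K:ℤ)).toNat = 2 * H.K + 1 := by omega
    rw [this]
    push_cast [K]
    have he : (4:ℝ) ≤ Real.exp H.ℓ := by linarith [Real.add_one_le_exp H.ℓ]
    have e6 : Real.exp (6 * H.ℓ) = Real.exp H.ℓ ^ 6 := by rw [← Real.exp_nat_mul]; norm_num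
    rw [e6]
    have hY := H.cardY
    have hZ := H.cardZ
    have h1 : (2 * ((Fintype.card Y : ℝ) + 2) + 1) ≤ 4 * Real.exp H.ℓ := by linarith
    have h2 : (Fintype.card Z : ℝ) * (2 * ((Fintype.card Y:ℝ) + 2) + 1) ≤ 4 * Real.exp H.ℓ ^ 2 := by
      calc _ ≤ Real.exp H.ℓ * (4 * Real.exp H.ℓ) := by gcongr
        _ = _ := by ring
    have h4 : (4:ℝ) ^ 4 ≤ Real.exp H.ℓ ^ 4 := pow_le_pow_left₀ (by norm_num) he 4
    nlinarith [sq_nonneg (Real.exp H.ℓ), mul_le_mul_of_nonneg_right h4 (sq_nonneg (Real.exp H.ℓ))]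
  refine le_trans (pow_le_pow_left₀ (Nat.cast_nonneg _) hb P) ?_
  rw [← Real.exp_nat_mul]
  exact Real.exp_le_exp.2 (by nlinarith)

noncomputable def covC (g : ℕ) : Finset (I → ℝ) := Classical.choose (H.cov g)

theorem covC_spec (g : ℕ) : ((g : ℝ) ≤ H.G0 → ∀ r ∈ H.covC g, r = 0) ∧
    ((H.covC g).card : ℝ) ≤ Real.exp (g / 8) ∧
    ∀ (θ : I → ℝ) (j : Y → ℤ), ∑ y, (S.D θ y - j y) ^ 2 ≤ g →
      ∃ l ∈ Λ.L, ∃ r ∈ H.covC g, ∀ z, |S.uu (θ - l - r) z| ≤ H.η :=
  Classical.choose_spec (H.cov g)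

noncomputable def ctr (p : (I → ℝ) × (Z → ℤ)) : I → ℝ :=
  p.1 + S.comb fun z => H.tau * (p.2 z : ℝ)

noncomputable def Eb (p : (I → ℝ) × (Z → ℤ)) : Finset Y := by
  classical
  exact univ.filter fun y => |Int.fract (S.D (H.ctr p) y) - 1/2| ≤ 7 * H.η

noncomputable def jj (p : (I → ℝ) × (Z → ℤ)) (s : Finset Y) : EuclideanSpace ℝ Y := by
  classical
  exact WithLp.toLp 2 fun y =>
    if y ∈ H.Eb p then (⌊S.D (H.ctr p) y⌋ : ℝ) + (if y ∈ s then 1 else 0)
    else if Int.fract (S.D (H.ctr p) y) < 1/2 then (⌊S.D (H.ctr p) y⌋ : ℝ)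
      else (⌊S.D (H.ctr p) y⌋ : ℝ) + 1

noncomputable def piece (g : ℕ) (p : (I → ℝ) × (Z → ℤ)) (s : Finset Y) (φ : I → ℝ) : ℝ :=
  ((1:ℝ)/2) ^ (H.Eb p).card * Real.exp (-(kap * (((g:ℝ) - 2) / 2))) *
    S.igd (S.pre (H.jj p s) + S.comb fun z => H.tau * (p.2 z : ℝ)) (H.jj p s) φ

noncomputable def gs : Finset ℕ :=
  (range (Fintype.card Y + 3)).filter fun g : ℕ => H.G0 < g

noncomputable def HH (φ : I → ℝ) : ℝ≥0∞ :=
  ∑ g ∈ H.gs, ∑ p ∈ H.covC g ×ˢ H.Ks g, ∑ s ∈ (H.Eb p).powerset,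
    ENNReal.ofReal (H.piece g p s φ)

theorem piece_nonneg (g : ℕ) (p : (I → ℝ) × (Z → ℤ)) (s : Finset Y) (φ : I → ℝ) :
    0 ≤ H.piece g p s φ :=
  mul_nonneg (mul_nonneg (by positivity) (Real.exp_pos _).le) (S.igd_nonneg _ _ _)

theorem piece_meas (g : ℕ) (p : (I → ℝ) × (Z → ℤ)) (s : Finset Y) :
    Measurable fun φ => ENNReal.ofReal (H.piece g p s φ) :=
  ((continuous_const.mul (S.cont_igd _ _)).measurable).ennreal_ofReal

theorem HH_meas : Measurable H.HH :=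
  Finset.measurable_sum _ fun g _ => Finset.measurable_sum _ fun p _ =>
    Finset.measurable_sum _ fun s _ => H.piece_meas g p s

theorem gs_exp {g : ℕ} (hg : g ∈ H.gs) :
    Real.exp (g / 4) * Real.exp (-(kap * (((g:ℝ) - 2) / 2))) ≤ Real.exp (5 - H.G0) := by
  rw [← Real.exp_add]
  apply Real.exp_le_exp.2
  obtain ⟨-, hg'⟩ := mem_filter.1 hg
  obtain ⟨k1, k2, -⟩ := kap_bounds
  have := H.G0_ge
  nlinarith

theorem HH_int : ∫⁻ φ, H.HH φ ≤ S.J / 4 := by
  classical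
  unfold HH
  rw [lintegral_finsetSum _ (fun g _ => Finset.measurable_sum _ fun p _ =>
    Finset.measurable_sum _ fun s _ => H.piece_meas g p s)]
  have hp : ∀ g : ℕ, ∀ p, ∑ s ∈ (H.Eb p).powerset, ∫⁻ φ, ENNReal.ofReal (H.piece g p s φ) ≤
      ENNReal.ofReal (Real.exp (-(kap * (((g:ℝ) - 2) / 2)))) * S.J := by
    intro g p
    have h1 : ∀ s, ∫⁻ φ, ENNReal.ofReal (H.piece g p s φ) ≤
        ENNReal.ofReal (((1:ℝ)/2) ^ (H.Eb p).card * Real.exp (-(kap * (((g:ℝ) - 2) / 2)))) * S.J := by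
      intro s
      simp only [piece]
      have hnn : 0 ≤ ((1:ℝ)/2) ^ (H.Eb p).card * Real.exp (-(kap * (((g:ℝ) - 2) / 2))) := by positivity
      simp only [ENNReal.ofReal_mul hnn]
      rw [lintegral_const_mul _ (S.meas_igd _ _)]
      exact mul_le_mul_right (S.anderson _ _) _
    refine le_trans (sum_le_card_nsmul _ _ _ fun s _ => h1 s) ?_
    rw [card_powerset, nsmul_eq_mul, ← mul_assoc]
    refine le_of_eq (congrArg (· * S.J) ?_)
    rw [show ((2 ^ (H.Eb p).card : ℕ) : ℝ≥0∞) = ENNReal.ofReal (2 ^ (H.Eb p).card) by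
        rw [ENNReal.ofReal_pow (by norm_num)]; simp,
      ← ENNReal.ofReal_mul (by positivity), ← mul_assoc, ← mul_pow]
    norm_num
  have hg : ∀ g ∈ H.gs, (∫⁻ φ, ∑ p ∈ H.covC g ×ˢ H.Ks g, ∑ s ∈ (H.Eb p).powerset,
      ENNReal.ofReal (H.piece g p s φ)) ≤ ENNReal.ofReal (Real.exp (5 - H.G0)) * S.J := by
    intro g hg
    rw [lintegral_finsetSum _ (fun p _ => Finset.measurable_sum _ fun s _ => H.piece_meas g p s)]
    refine le_trans (sum_le_sum fun p _ => le_trans (le_of_eq (lintegral_finsetSum _ fun s _ =>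
      H.piece_meas g p s)) (hp g p)) ?_
    rw [sum_const, nsmul_eq_mul, ← mul_assoc, ← ENNReal.ofReal_natCast,
      ← ENNReal.ofReal_mul (Nat.cast_nonneg _)]
    refine mul_le_mul_left (ENNReal.ofReal_le_ofReal (le_trans ?_ (H.gs_exp hg))) _
    refine mul_le_mul_of_nonneg_right ?_ (Real.exp_pos _).le
    rw [card_product, Nat.cast_mul]
    refine le_trans (mul_le_mul (H.covC_spec g).2.1 (H.Ks_card g) (Nat.cast_nonneg _)
      (Real.exp_pos _).le) ?_
    rw [← Real.exp_add]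
    exact Real.exp_le_exp.2 (by ring_nf; rfl)
  refine le_trans (sum_le_sum hg) ?_
  rw [sum_const, nsmul_eq_mul, ← mul_assoc, ← ENNReal.ofReal_natCast,
    ← ENNReal.ofReal_mul (Nat.cast_nonneg _), ENNReal.div_eq_inv_mul]
  refine mul_le_mul_left ?_ _
  rw [show (4:ℝ≥0∞)⁻¹ = ENNReal.ofReal (1/4) by
    rw [one_div, ENNReal.ofReal_inv_of_pos (by norm_num)]; simp]
  apply ENNReal.ofReal_le_ofReal
  have h1 : (H.gs.card : ℝ) ≤ Real.exp H.ℓ * 2 := by
    have : H.gs.card ≤ Fintype.card Y + 3 := le_trans (card_filter_le _ _) (by simp)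
    have : (H.gs.card : ℝ) ≤ (Fintype.card Y : ℝ) + 3 := by exact_mod_cast this
    linarith [H.cardY, Real.add_one_le_exp H.ℓ, H.ℓ3]
  refine le_trans (mul_le_mul_of_nonneg_right h1 (Real.exp_pos _).le) ?_
  rw [mul_comm (Real.exp H.ℓ), mul_assoc, ← Real.exp_add]
  have h2 : Real.exp (H.ℓ + (5 - H.G0)) ≤ Real.exp (-(8:ℝ)) :=
    Real.exp_le_exp.2 (by nlinarith [H.G0_big, H.ℓ3])
  have h3 : Real.exp (-(8:ℝ)) ≤ 1/8 := by
    rw [Real.exp_neg, ← one_div]
    exact one_div_le_one_div_of_le (by norm_num) (by linarith [Real.add_one_le_exp (8:ℝ)])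
  linarith

theorem uu_small {θ : I → ℝ} {b : ℝ} (hb : 0 ≤ b) (h : ∀ z, |S.uu θ z| ≤ b) (y : Y) :
    |S.D θ y| ≤ 2 * b := S.site θ y b hb h

include H in
theorem F_periodic (θ : I → ℝ) {l : I → ℝ} (hl : l ∈ Λ.L) : S.Fc (θ - l) = S.Fc θ := by
  choose m hm using H.int_D l hl
  obtain ⟨M, hM⟩ := H.parity l hl
  simp only [hm] at hM
  have hM' : ∑ y, m y = 2 * M := by exact_mod_cast hM
  simp only [Fc, map_sub, PiLp.sub_apply, hm, mul_sub]
  simp only [mul_comm Real.pi ((m _ : ℤ) : ℝ), Real.cos_sub_int_mul_pi, prod_mul_distrib,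
    prod_neg_one_zpow, hM']
  rw [zpow_mul]
  norm_num

theorem small_comb {c : Z → ℝ} (h : H.η * (∑ z, |c z|) * S.dl ≤ H.η ^ 2) (z : Z) :
    |S.uu (S.comb c) z| ≤ H.η :=
  le_trans (S.uu_comb_le c z) (by nlinarith [H.η_pos])

theorem sparse (v : I → ℝ) (c : Z → ℝ) {T E : ℝ} (g : ℕ)
    (hc2 : ‖S.D (v - S.comb c)‖ ^ 2 + 2 * H.η * (∑ z, |c z|) ≤ ‖S.D v‖ ^ 2)
    (pyth : E = ‖S.D v‖ ^ 2 + T) (hE : E ≤ (Fintype.card Y : ℝ) / 4) (T0 : 0 ≤ T)
    (g0 : H.G0 < g) (g1 : T + H.η * (∑ z, |c z|) ≤ g) (g2 : (g:ℝ) < T + H.η * (∑ z, |c z|) + 1)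
    (gY : (g:ℝ) ≤ (Fintype.card Y : ℝ) + 1) :
    ∃ k : Z → ℤ,
      (∀ z, |S.uu (S.comb c - S.comb fun z => H.tau * (k z : ℝ)) z| ≤ H.η) ∧
      k ∈ H.Ks g ∧
      ‖S.D (v - S.comb fun z => H.tau * (k z : ℝ))‖ ^ 2 + ((g:ℝ) - 2) / 2 ≤ E := by
  classical
  set X := ∑ z, |c z| with hX
  have X0 : 0 ≤ X := sum_nonneg fun _ _ => abs_nonneg _
  have a0 : 0 ≤ ‖S.D (v - S.comb c)‖ ^ 2 := sq_nonneg _
  by_cases hX1 : H.η * X < 1
  · refine ⟨0, fun z => ?_, H.mem_Ks 0 (by simp) (by simp), ?_⟩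
    · have := H.small_comb (c := c) (by nlinarith [H.dl_le, S.dl_pos]) z
      simpa [comb] using this
    · have : (fun z => H.tau * (((0 : Z → ℤ) z : ℤ) : ℝ)) = 0 := by funext z; simp
      rw [this]
      simp only [comb, Pi.zero_apply, zero_smul, sum_const_zero, sub_zero]
      nlinarith [H.G0_ge]
  · push Not at hX1
    have Xp : 0 < X := by
      rcases eq_or_lt_of_le X0 with h | h
      · rw [← h] at hX1; linarith
      · exact h
    set Q := ‖S.D v‖ ^ 2 with hQ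
    have hb : 0 < Q - H.η * X / 2 := by nlinarith
    have Qp : 0 < Q := by nlinarith
    have hQY : Q ≤ Real.exp H.ℓ := by
      have := H.cardY
      nlinarith [pyth, hE]
    set P := ⌊(g:ℝ) / (48 * H.ℓ)⌋₊
    obtain ⟨k, r1, r2, r3, r4⟩ := S.round_exists (v - S.comb c) c (bound := Q - H.η * X / 2)
      H.tau_pos H.η_pos hb P (by
        have hl := H.ℓ3
        have t1 : (Fintype.card Z : ℝ) * (2 * Real.exp (-(H.η ^ 2 / (2 * H.tau ^ 2 * S.Γ * S.dl)))) ≤
            2 * Real.exp (-(3 * H.ℓ)) := by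
          have : H.η ^ 2 / (2 * H.tau ^ 2 * S.Γ * S.dl) = 4 * H.ℓ := by
            rw [H.tau_sq]
            have := H.η_pos.ne'
            have := S.dl_pos.ne'
            have : S.Γ ≠ 0 := by linarith [S.Γ_one]
            have : H.ℓ ≠ 0 := by linarith
            field_simp
            ring
          rw [this]
          calc (Fintype.card Z : ℝ) * (2 * Real.exp (-(4 * H.ℓ)))
              ≤ Real.exp H.ℓ * (2 * Real.exp (-(4 * H.ℓ))) := by gcongr; exact H.cardZ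
            _ = _ := by rw [← mul_assoc, mul_comm (Real.exp H.ℓ), mul_assoc, ← Real.exp_add]; ring_nf
        have t2 : Real.exp (2 * X / H.tau - (P + 1)) ≤ Real.exp (-(3 * H.ℓ)) := by
          apply Real.exp_le_exp.2
          have hP : (g:ℝ) / (48 * H.ℓ) < P + 1 := Nat.lt_floor_add_one _
          have h2 : 2 * X / H.tau ≤ (g:ℝ) / (384 * H.ℓ) := by
            have : 2 * X / H.tau = 2 * (H.η * X) * (1 / (H.η * H.tau)) := by
              have := H.η_pos.ne'
              field_simp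
            rw [this]
            calc 2 * (H.η * X) * (1 / (H.η * H.tau)) ≤ 2 * (g:ℝ) * (1 / (768 * H.ℓ)) :=
                  mul_le_mul (by linarith) H.inv_tau
                    (one_div_nonneg.2 (mul_nonneg H.η_pos.le H.tau_pos.le)) (by positivity)
              _ = _ := by ring
          have e1 : (g:ℝ) / (48 * H.ℓ) = 8 * ((g:ℝ) / (384 * H.ℓ)) := by ring
          have h3 : H.ℓ * (3/7) ≤ (g:ℝ) / (384 * H.ℓ) := by
            rw [le_div_iff₀ (by linarith)]; nlinarith [H.G0_big, g0]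
          linarith
        have t3 : (‖S.D (v - S.comb c)‖ ^ 2 + H.tau * X * S.dl) / (Q - H.η * X / 2) ≤
            1 - (1/2) * Real.exp (-H.ℓ) := by
          rw [div_le_iff₀ hb]
          have h1 : H.tau * X * S.dl ≤ H.η * X := by
            rw [mul_right_comm]; exact mul_le_mul_of_nonneg_right H.tau_dl X0
          have h2 : Real.exp (-H.ℓ) * Q ≤ 1 := by
            calc Real.exp (-H.ℓ) * Q ≤ Real.exp (-H.ℓ) * Real.exp H.ℓ := by gcongr
              _ = 1 := by rw [← Real.exp_add]; simp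
          have h3 : 0 ≤ Real.exp (-H.ℓ) * (H.η * X / 2) :=
            mul_nonneg (Real.exp_pos _).le (by positivity)
          nlinarith
        have t4 : 3 * Real.exp (-(3 * H.ℓ)) < (1/2) * Real.exp (-H.ℓ) := by
          have : Real.exp (-(3 * H.ℓ)) = Real.exp (-H.ℓ) * Real.exp (-(2 * H.ℓ)) := by
            rw [← Real.exp_add]; ring_nf
          rw [this]
          have h6 : Real.exp (-(2 * H.ℓ)) ≤ 1/7 := by
            rw [Real.exp_neg, ← one_div]
            exact one_div_le_one_div_of_le (by norm_num) (by linarith [Real.add_one_le_exp (2 * H.ℓ)])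
          nlinarith [Real.exp_pos (-H.ℓ)]
        rw [← hX]
        linarith)
    have e : S.comb c - (S.comb fun z => H.tau * (k z : ℝ)) =
        S.comb (c - fun z => H.tau * (k z : ℝ)) := (S.comb_sub _ _).symm
    refine ⟨k, fun z => by rw [e]; exact r1 z, H.mem_Ks k r2 fun z => ?_, ?_⟩
    · have h1 : |c z| ≤ X := single_le_sum (fun y _ => abs_nonneg (c y)) (mem_univ z)
      have h2 : X / H.tau ≤ (g:ℝ) := by
        have : X / H.tau = H.η * X * (1 / (H.η * H.tau)) := by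
          have := H.η_pos.ne'
          field_simp
        rw [this]
        refine le_trans (mul_le_mul_of_nonneg_left (H.inv_tau.trans (?_ : _ ≤ (1:ℝ)))
          (by positivity)) ?_
        · rw [div_le_one (by linarith [H.ℓ3])]; linarith [H.ℓ3]
        · linarith
      have h3 : |(k z : ℝ)| ≤ (H.K : ℝ) := by
        refine le_trans (r3 z) ?_
        have := div_le_div_of_nonneg_right h1 H.tau_pos.le
        push_cast [K]
        linarith
      exact_mod_cast h3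
    · have e2 : v - (S.comb fun z => H.tau * (k z : ℝ)) =
          v - S.comb c + S.comb (c - fun z => H.tau * (k z : ℝ)) := by rw [← e]; abel
      rw [e2]
      nlinarith

include H in
/-- Away from the translates of the central region, the product is dominated. -/
theorem decode (θ : I → ℝ) (hθ : ∀ l ∈ Λ.L, ∃ y, 3/10 < |S.D (θ - l) y|) :
    ∃ l ∈ Λ.L, ENNReal.ofReal |S.Fc θ| ≤ H.HH (θ - l) := by
  classical
  let j0 : Y → ℤ := fun y => round (S.D θ y)
  let J0 : EuclideanSpace ℝ Y := WithLp.toLp 2 fun y => (j0 y : ℝ)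
  set θs := S.pre J0 with hθs
  set v := θ - θs with hv
  set T := ‖S.D θs - J0‖ ^ 2 with hT
  have pyth : ‖S.D θ - J0‖ ^ 2 = ‖S.D v‖ ^ 2 + T := S.pre_pyth J0 θ
  have he : ∀ y, |S.D θ y - (j0 y : ℝ)| ≤ 1/2 := fun y => abs_sub_round _
  have hE : ‖S.D θ - J0‖ ^ 2 ≤ (Fintype.card Y : ℝ) / 4 := by
    rw [norm_sq_sum]
    refine le_trans (sum_le_card_nsmul univ _ (1/4 : ℝ) fun y _ => ?_) (by simp; ring_nf; rfl)
    have := abs_le.1 (he y)
    simp [J0]
    nlinarith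
  obtain ⟨c, hc1, hc2⟩ := S.lasso v H.η_pos
  set X := ∑ z, |c z| with hX
  have X0 : 0 ≤ X := sum_nonneg fun _ _ => abs_nonneg _
  have T0 : 0 ≤ T := sq_nonneg _
  have a0 : 0 ≤ ‖S.D (v - S.comb c)‖ ^ 2 := sq_nonneg _
  set g := ⌈T + H.η * X⌉₊ with hg
  have g1 : T + H.η * X ≤ g := Nat.le_ceil _
  have g2 : (g:ℝ) < T + H.η * X + 1 := Nat.ceil_lt_add_one (add_nonneg T0 (mul_nonneg H.η_pos.le X0))
  have gY : (g:ℝ) ≤ (Fintype.card Y : ℝ) + 1 := by
    nlinarith [pyth, hE, mul_nonneg H.η_pos.le X0]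
  have hTg : ∑ y, (S.D θs y - j0 y) ^ 2 ≤ g := by
    have hh : T = ∑ y, (S.D θs y - j0 y) ^ 2 := by rw [hT, norm_sq_sum]; rfl
    nlinarith [mul_nonneg H.η_pos.le X0]
  obtain ⟨l, hl, r, hr, hlr⟩ := (H.covC_spec g).2.2 θs j0 hTg
  refine ⟨l, hl, ?_⟩
  have g0 : H.G0 < g := by
    by_contra hcon
    push Not at hcon
    obtain rfl : r = 0 := (H.covC_spec g).1 hcon r hr
    have hcb := H.small_comb (c := c) (le_trans (mul_le_mul_of_nonneg_right (by linarith) S.dl_pos.le) H.num2)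
    obtain ⟨y, hy⟩ := hθ l hl
    have : ∀ z, |S.uu (θ - l) z| ≤ 3 * H.η := by
      intro z
      have e : θ - l = (θs - l - 0) + (v - S.comb c) + S.comb c := by rw [hv]; abel
      rw [e, map_add, map_add, Pi.add_apply, Pi.add_apply]
      refine le_trans (abs_add_le _ _) ?_
      refine le_trans (add_le_add_left (abs_add_le _ _) _) ?_
      linarith [hlr z, hc1 z, hcb z]
    have := uu_small (by linarith [H.η_pos]) this y
    linarith [H.η_le]
  -- the sparse vector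
  obtain ⟨k, hk1, hk2, hk3⟩ := H.sparse v c g hc2 pyth hE T0 g0 g1 g2 gY
  -- the piece
  set φ := θ - l with hφ
  set p : (I → ℝ) × (Z → ℤ) := (r, k) with hp
  have hw : ∀ y, |S.D φ y - S.D (H.ctr p) y| ≤ 6 * H.η := by
    intro y
    rw [← PiLp.sub_apply, ← map_sub, show 6 * H.η = 2 * (3 * H.η) by ring]
    refine uu_small (by linarith [H.η_pos]) (fun z => ?_) y
    have e : φ - H.ctr p = (θs - l - r) + (v - S.comb c) +
        (S.comb c - S.comb fun z => H.tau * (k z : ℝ)) := by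
      simp only [hφ, hv, ctr, hp]; abel
    rw [e, map_add, map_add, Pi.add_apply, Pi.add_apply]
    refine le_trans (abs_add_le _ _) ?_
    refine le_trans (add_le_add_left (abs_add_le _ _) _) ?_
    linarith [hlr z, hc1 z, hk1 z]
  choose ml hml using H.int_D l hl
  let jt : Y → ℤ := fun y => j0 y - ml y
  let s := (H.Eb p).filter fun y => ⌊S.D (H.ctr p) y⌋ < jt y
  have hej : ∀ y, S.D φ y - (jt y : ℝ) = S.D θ y - (j0 y : ℝ) := fun y => by
    simp [hφ, jt, hml]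
  have hrange : ∀ y, (jt y = ⌊S.D (H.ctr p) y⌋ ∨ jt y = ⌊S.D (H.ctr p) y⌋ + 1) ∧
      |S.D (H.ctr p) y - (jt y : ℝ)| ≤ 1/2 + 6 * H.η ∧
      (y ∈ H.Eb p → 1/2 - 14 * H.η ≤ |S.D θ y - (j0 y : ℝ)|) := by
    intro y
    have h1 := he y
    rw [← hej] at h1 ⊢
    have h2 := abs_le.1 (hw y)
    have h3 := abs_le.1 h1
    have hf := Int.floor_add_fract (S.D (H.ctr p) y)
    have f0 := Int.fract_nonneg (S.D (H.ctr p) y)
    have f1 := Int.fract_lt_one (S.D (H.ctr p) y)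
    have hη := H.η_le
    have hb : |S.D (H.ctr p) y - (jt y : ℝ)| ≤ 1/2 + 6 * H.η := abs_le.2 ⟨by linarith, by linarith⟩
    have hc : jt y = ⌊S.D (H.ctr p) y⌋ ∨ jt y = ⌊S.D (H.ctr p) y⌋ + 1 := by
      have u1 : ((jt y - ⌊S.D (H.ctr p) y⌋ : ℤ) : ℝ) < 2 := by push_cast; linarith [abs_le.1 hb]
      have u2 : (-1:ℝ) < ((jt y - ⌊S.D (H.ctr p) y⌋ : ℤ) : ℝ) := by push_cast; linarith [abs_le.1 hb]
      have u1' : jt y - ⌊S.D (H.ctr p) y⌋ < 2 := by exact_mod_cast u1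
      have u2' : -1 < jt y - ⌊S.D (H.ctr p) y⌋ := by exact_mod_cast u2
      omega
    refine ⟨hc, hb, fun hy => ?_⟩
    obtain ⟨-, hy⟩ := mem_filter.1 hy
    obtain ⟨y1, y2⟩ := abs_le.1 hy
    rcases hc with h | h
    · have : ((jt y : ℤ):ℝ) = (⌊S.D (H.ctr p) y⌋ : ℝ) := by exact_mod_cast h
      exact le_trans (by linarith) (le_abs_self _)
    · have : ((jt y : ℤ):ℝ) = (⌊S.D (H.ctr p) y⌋ : ℝ) + 1 := by exact_mod_cast h
      exact le_trans (by linarith) (neg_le_abs _)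
  have hjj : H.jj p s = J0 - S.D l := by
    ext y
    obtain ⟨hc, hb, -⟩ := hrange y
    have hR : (J0 - S.D l) y = (jt y : ℝ) := by simp [J0, jt, hml]
    rw [hR]
    simp only [jj]
    by_cases hy : y ∈ H.Eb p
    · rw [if_pos hy]
      rcases hc with h | h
      · rw [if_neg (by simp [s, h])]; rw [h]; simp
      · rw [if_pos (by simp [s, hy, h])]; rw [h]; simp
    · rw [if_neg hy]
      have hy' : 7 * H.η < |Int.fract (S.D (H.ctr p) y) - 1/2| := by
        by_contra hh; push Not at hh; exact hy (mem_filter.2 ⟨mem_univ _, hh⟩)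
      have hf := Int.floor_add_fract (S.D (H.ctr p) y)
      obtain ⟨b1, b2⟩ := abs_le.1 hb
      have := H.η_pos
      rcases hc with h | h
      · have hh : ((jt y : ℤ):ℝ) = (⌊S.D (H.ctr p) y⌋ : ℝ) := by exact_mod_cast h
        rw [hh] at b1 b2 ⊢
        rw [if_pos]
        rcases lt_abs.1 hy' with q | q <;> linarith
      · have hh : ((jt y : ℤ):ℝ) = (⌊S.D (H.ctr p) y⌋ : ℝ) + 1 := by exact_mod_cast h
        rw [hh] at b1 b2 ⊢
        rw [if_neg]
        push Not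
        rcases lt_abs.1 hy' with q | q <;> linarith
  have hmem : g ∈ H.gs := by
    refine mem_filter.2 ⟨mem_range.2 ?_, g0⟩
    have : (g:ℝ) < ((Fintype.card Y + 3 : ℕ) : ℝ) := by push_cast; linarith
    exact_mod_cast this
  have key : |S.Fc θ| ≤ H.piece g p s φ := by
    rw [piece, hjj, S.pre_sub, ← hθs, igd]
    have hm : φ - (θs - l + S.comb fun z => H.tau * (p.2 z : ℝ)) =
        v - S.comb fun z => H.tau * (k z : ℝ) := by simp only [hφ, hv, hp]; abel
    rw [hm]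
    have hy' : ∀ y, S.D φ y - (J0 - S.D l) y = (S.D θ - J0) y := by
      intro y; simp [hφ]
    simp only [hy']
    have h1 : |S.Fc θ| ≤ ∏ y, gg ((S.D θ - J0) y) * (if y ∈ H.Eb p then (1:ℝ)/2 else 1) := by
      rw [Fc, abs_prod]
      refine prod_le_prod (fun _ _ => abs_nonneg _) fun y _ => ?_
      have hc : |Real.cos (Real.pi * S.D θ y)| = |Real.cos (Real.pi * (S.D θ - J0) y)| := by
        simp only [PiLp.sub_apply, J0, mul_sub]
        rw [mul_comm Real.pi (j0 y : ℝ), Real.cos_sub_int_mul_pi, abs_mul, abs_zpow]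
        simp
      rw [hc]
      have hh : |(S.D θ - J0) y| ≤ 1/2 := by simpa [J0] using he y
      by_cases hy : y ∈ H.Eb p
      · rw [if_pos hy]
        exact abs_cos_near hh (by simpa [J0] using (hrange y).2.2 hy) H.η_small
      · rw [if_neg hy, mul_one]
        exact abs_cos_le_gg hh
    rw [prod_mul_distrib, gg_prod, prod_ite_mem, univ_inter, prod_const] at h1
    refine le_trans h1 ?_
    rw [mul_comm]
    simp only [mul_assoc]
    refine mul_le_mul_of_nonneg_left ?_ (by positivity)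
    rw [← mul_assoc, ← Real.exp_add]
    refine mul_le_mul_of_nonneg_right (Real.exp_le_exp.2 ?_) (prod_nonneg fun _ _ => (rho_pos _).le)
    nlinarith [mul_le_mul_of_nonneg_left hk3 kap_bounds.2.2.le]
  refine le_trans (ENNReal.ofReal_le_ofReal key) ?_
  refine le_trans ?_ (single_le_sum (fun _ _ => zero_le) hmem)
  refine le_trans ?_ (single_le_sum (fun _ _ => zero_le) (mem_product.2 ⟨hr, hk2⟩ : p ∈ H.covC g ×ˢ H.Ks g))
  exact single_le_sum (f := fun s => ENNReal.ofReal (H.piece g p s φ)) (fun _ _ => zero_le)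
    (mem_powerset.2 (filter_subset _ _))

def W0 (_H : Hyp S Λ) : Set (I → ℝ) := {θ | ∀ y, |S.D θ y| ≤ 3/10}

theorem W0_meas : MeasurableSet H.W0 := by
  have : H.W0 = ⋂ y, {θ | |S.D θ y| ≤ 3/10} := by ext θ; simp [W0]
  rw [this]
  exact MeasurableSet.iInter fun y =>
    measurableSet_le ((S.cont_coord y).abs).measurable measurable_const

noncomputable def main (θ : I → ℝ) : ℝ≥0∞ := H.W0.indicator (fun θ => ENNReal.ofReal (S.Gp θ)) θ

theorem main_meas : Measurable H.main := S.cont_Gp.measurable.ennreal_ofReal.indicator H.W0_meas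

theorem main_big : S.J ≤ (∫⁻ θ, H.main θ) + S.J / 4 := by
  classical
  choose m hm using fun p : Y × Bool => S.tail_piece p.1 (s := if p.2 then 1 else -1) (by cases p.2 <;> simp)
  have hpt : ∀ θ, ENNReal.ofReal (S.Gp θ) ≤ H.main θ +
      ∑ p : Y × Bool, ENNReal.ofReal (Real.exp (-(kap * (9/400 / S.dl))) * S.igd (m p) 0 θ) := by
    intro θ
    by_cases h : θ ∈ H.W0
    · rw [main, Set.indicator_of_mem h]; exact le_self_add
    · simp only [W0, Set.mem_ofPred_eq] at h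
      push Not at h
      obtain ⟨y, hy⟩ := h
      refine le_trans ?_ le_add_self
      obtain ⟨b, hb⟩ : ∃ b : Bool, 3/10 ≤ (if b then 1 else -1 : ℝ) * S.D θ y := by
        rcases lt_abs.1 hy with q | q
        · exact ⟨true, by simp; linarith⟩
        · exact ⟨false, by simp; linarith⟩
      exact le_trans (ENNReal.ofReal_le_ofReal (hm (y, b) θ hb))
        (single_le_sum (f := fun p : Y × Bool => ENNReal.ofReal
          (Real.exp (-(kap * (9/400 / S.dl))) * S.igd (m p) 0 θ)) (fun _ _ => zero_le) (mem_univ (y, b)))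
  refine le_trans (lintegral_mono hpt) ?_
  have hmp : ∀ p ∈ (univ : Finset (Y × Bool)), Measurable fun θ =>
      ENNReal.ofReal (Real.exp (-(kap * (9/400 / S.dl))) * S.igd (m p) 0 θ) := fun p _ =>
    ((continuous_const.mul (S.cont_igd _ _)).measurable).ennreal_ofReal
  rw [lintegral_add_left H.main_meas, lintegral_finsetSum _ hmp]
  refine add_le_add_right (le_trans (sum_le_card_nsmul _ _
    (ENNReal.ofReal (Real.exp (-(kap * (9/400 / S.dl)))) * S.J) fun p _ => ?_) ?_) _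
  · simp only [ENNReal.ofReal_mul (Real.exp_pos _).le]
    rw [lintegral_const_mul _ (S.meas_igd _ _)]
    exact mul_le_mul_right (S.anderson _ _) _
  rw [card_univ, Fintype.card_prod, Fintype.card_bool, nsmul_eq_mul, ← mul_assoc,
    ← ENNReal.ofReal_natCast, ← ENNReal.ofReal_mul (Nat.cast_nonneg _), ENNReal.div_eq_inv_mul]
  refine mul_le_mul_left ?_ _
  rw [show (4:ℝ≥0∞)⁻¹ = ENNReal.ofReal (1/4) by
    rw [one_div, ENNReal.ofReal_inv_of_pos (by norm_num)]; simp]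
  apply ENNReal.ofReal_le_ofReal
  push_cast
  have hdl : H.G0 * (1/10) ≤ kap * (9/400 / S.dl) := by
    have h1 : H.G0 * S.dl ≤ 1 := le_trans H.num2 (by nlinarith [H.η_le, H.η_pos])
    rw [show kap * (9/400 / S.dl) = kap * (9/400) / S.dl by ring, le_div_iff₀ S.dl_pos]
    nlinarith [kap_bounds.1]
  have h2 : Real.exp H.ℓ * Real.exp (-(kap * (9/400 / S.dl))) ≤ 1/8 := by
    rw [← Real.exp_add]
    refine le_trans (Real.exp_le_exp.2 (by nlinarith [H.G0_big, H.ℓ3] :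
      H.ℓ + -(kap * (9/400 / S.dl)) ≤ -8)) ?_
    rw [Real.exp_neg, ← one_div]
    exact one_div_le_one_div_of_le (by norm_num) (by linarith [Real.add_one_le_exp (8:ℝ)])
  nlinarith [H.cardY, Real.exp_pos (-(kap * (9/400 / S.dl)))]

include H in
theorem W0_unique {θ : I → ℝ} {l l' : I → ℝ} (hl : l ∈ Λ.L) (hl' : l' ∈ Λ.L)
    (h : θ + l ∈ H.W0) (h' : θ + l' ∈ H.W0) : l = l' := by
  refine sub_eq_zero.1 (S.inj _ ?_)
  ext y
  obtain ⟨m, hm⟩ := H.int_D _ (Λ.L.sub_mem hl hl') y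
  have h1 := abs_le.1 (h y)
  have h2 := abs_le.1 (h' y)
  simp only [map_add, map_sub, PiLp.add_apply, PiLp.sub_apply] at h1 h2 hm ⊢
  have u1 : (m:ℝ) < 1 := by linarith
  have u2 : (-1:ℝ) < m := by linarith
  have u1' : m < 1 := by exact_mod_cast u1
  have u2' : -1 < m := by exact_mod_cast u2
  have : m = 0 := by omega
  rw [hm, this]
  simp

include H in
theorem integral_ne_zero : ∫ θ in box I, S.Fc θ ≠ 0 := by
  classical
  intro h0
  have hcont := S.cont_Fc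
  have hint : IntegrableOn S.Fc (box I) :=
    (hcont.continuousOn.integrableOn_compact (K := Set.univ.pi fun _ => Set.Icc (0:ℝ) 1)
      (isCompact_univ_pi fun _ => isCompact_Icc)).mono_set
      (Set.pi_mono fun _ _ => Set.Ico_subset_Icc_self)
  have hA : ∀ θ, ∑' l : Λ.L, H.main (θ + l.1) ≤ ENNReal.ofReal (S.Fc θ) := by
    intro θ
    by_cases h : ∃ l : Λ.L, θ + l.1 ∈ H.W0
    · obtain ⟨l, hl⟩ := h
      rw [tsum_eq_single l]
      · rw [main, Set.indicator_of_mem hl]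
        refine le_of_eq (congrArg _ ?_)
        have := H.F_periodic (θ + l.1) l.2
        rw [add_sub_cancel_right] at this
        rw [this, Gp, Fc]
        exact prod_congr rfl fun y _ => gg_eq_cos (hl y)
      · intro l' hne
        rw [main, Set.indicator_of_notMem]
        intro hl'
        exact hne (Subtype.ext (H.W0_unique l'.2 l.2 hl' hl))
    · push Not at h
      simp [main, h]
  have hB : ∀ θ, ENNReal.ofReal (-S.Fc θ) ≤ ∑' l : Λ.L, H.HH (θ + l.1) := by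
    intro θ
    by_cases h : ∀ l ∈ Λ.L, ∃ y, 3/10 < |S.D (θ - l) y|
    · obtain ⟨l, hl, hle⟩ := H.decode θ h
      refine le_trans (ENNReal.ofReal_le_ofReal (neg_le_abs _)) (le_trans hle ?_)
      rw [sub_eq_add_neg]
      exact ENNReal.le_tsum (f := fun l : Λ.L => H.HH (θ + l.1)) ⟨-l, Λ.L.neg_mem hl⟩
    · push Not at h
      obtain ⟨l, hl, hy⟩ := h
      have : 0 < S.Fc θ := by
        rw [← H.F_periodic θ hl, Fc]
        exact prod_pos fun y _ => by rw [← gg_eq_cos (hy y)]; exact gg_pos _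
      rw [ENNReal.ofReal_of_nonpos (by linarith)]
      exact zero_le
  set P := ∫⁻ θ in box I, ENNReal.ofReal (S.Fc θ)
  set N := ∫⁻ θ in box I, ENNReal.ofReal (-S.Fc θ)
  have e := integral_eq_lintegral_pos_part_sub_lintegral_neg_part hint
  rw [h0] at e
  have hP : P ≠ ⊤ := ne_of_lt (lt_of_le_of_lt (lintegral_mono fun θ => Real.ofReal_le_enorm _) hint.2)
  have hN : N ≠ ⊤ := ne_of_lt (lt_of_le_of_lt (lintegral_mono fun θ =>
    le_trans (Real.ofReal_le_enorm _) (le_of_eq (enorm_neg _))) hint.2)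
  have hPN : P = N := (ENNReal.toReal_eq_toReal_iff' hP hN).1 (by linarith)
  have u1 : Λ.mult * ∫⁻ θ, H.main θ ≤ P := by
    rw [← Λ.unfold_eq _ H.main_meas]; exact lintegral_mono hA
  have u2 : N ≤ Λ.mult * (S.J / 4) := by
    refine le_trans (lintegral_mono hB) ?_
    rw [Λ.unfold_eq _ H.HH_meas]
    exact mul_le_mul_right H.HH_int _
  have u3 : ∫⁻ θ, H.main θ ≤ S.J / 4 :=
    (ENNReal.mul_le_mul_iff_right Λ.mult_ne_zero Λ.mult_ne_top).1 (le_trans u1 (hPN ▸ u2))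
  have u4 : S.J ≤ S.J / 4 + S.J / 4 := le_trans H.main_big (add_le_add_left u3 _)
  have u5 := ENNReal.toReal_mono (ENNReal.add_ne_top.2
    ⟨ENNReal.div_ne_top S.J_ne_top (by norm_num), ENNReal.div_ne_top S.J_ne_top (by norm_num)⟩) u4
  rw [ENNReal.toReal_add (ENNReal.div_ne_top S.J_ne_top (by norm_num))
    (ENNReal.div_ne_top S.J_ne_top (by norm_num)), ENNReal.toReal_div] at u5
  have : 0 < S.J.toReal := ENNReal.toReal_pos S.J_ne_zero S.J_ne_top
  norm_num at u5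
  linarith

include H in
/-- **Signing theorem.** -/
theorem signs [DecidableEq I] :
    ∃ ε : Y → ℝ, (∀ y, ε y = 1 ∨ ε y = -1) ∧ ∀ i, ∑ y, ε y * S.D (Pi.single i 1) y = 0 := by
  have hmem : ∀ i, (Pi.single i 1 : I → ℝ) ∈ Λ.L := by
    intro i
    have := Λ.int_mem (Pi.single i 1)
    convert this using 1
    funext j
    by_cases h : j = i
    · subst h; simp [intVec]
    · simp [intVec, h]
  exact S.exists_signs (fun i y => H.int_D _ (hmem i) y) (fun i => H.parity _ (hmem i))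
    H.integral_ne_zero

end Hyp

end Form

end Vale.Agent.P047
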