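import Mathlib
import Vale.Agent.P047.Frame
import Vale.Agent.P047.Pos

/-! One halving stage of exact rounding. -/

namespace Vale.Agent.P047

open Finset

variable {J : Type*} [Fintype J] [DecidableEq J]

/-- Numerical requirements of a halving stage. -/
structure StageNum (B : Blk J) (nl : ℕ) (γ : ℝ) where
  η : ℝ
  G0 : ℝ
  n_big : 20 ≤ Fintype.card J
  lab_card : nl + 1 ≤ 2 ^ Fintype.card J
  γ_pos : 0 < γ
  γ_le : γ ≤ 1
  dens_pos : 0 < B.dens
  η_pos : 0 < η
  η_lo : (1/4 : ℝ) ^ Fintype.card J ≤ η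
  η_small : 14 * Real.pi * η ≤ Real.exp (-8) / 2
  η_bb : (2:ℝ) ^ B.bb * η < 1
  G0_big : 4000 * (Fintype.card J : ℝ) ^ 2 ≤ G0
  num1 : 40000000 * (Fintype.card J : ℝ) ^ 3 * B.dens ≤ η ^ 4 * γ ^ 2
  num2 : G0 * B.dens ≤ η ^ 2 * γ
  numB : 2 ^ 20 * (Fintype.card J : ℝ) * B.dens * G0 < η ^ 2 * γ
  numC : 64 * (nl : ℝ) * (Fintype.card J : ℝ) ^ 3 ≤ G0
  numD : 144 * 2 ^ 20 * (nl : ℝ) * (Fintype.card J : ℝ) ^ 2 * B.dens ≤ η ^ 2 * γ

/-- The data of one stage: an integer table with sums a power of two. -/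
structure StageData (B : Blk J) (Lab : Type*) [Fintype Lab] [DecidableEq Lab] (γ : ℝ) where
  q : (J → Bool) → Option Lab → ℕ
  e : ℕ
  W : Lab → Finset (J → Bool)
  sum_q : ∀ x, ∑ b, q x b = 2 ^ (e + 1)
  perp : ∀ b, B.Perp fun x => (q x b : ℝ)
  sees : ∀ a, B.Sees (W a) γ
  res : ∀ a, ∀ x ∈ W a, ∀ b, Odd (q x b) ↔ b = none ∨ b = some a

namespace StageData

variable {B : Blk J} {Lab : Type*} [Fintype Lab] [DecidableEq Lab] {γ : ℝ} (T : StageData B Lab γ)

def odd (x : J → Bool) : Finset (Option Lab) := univ.filter fun b => Odd (T.q x b)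

theorem odd_even (x : J → Bool) : Even (T.odd x).card := by
  have h : Even (∑ b, T.q x b) := by rw [T.sum_q, pow_succ]; exact even_two.mul_left _
  exact (Finset.even_sum_iff_even_card_odd _).1 h

abbrev Site := Σ x : J → Bool, Fin ((T.odd x).card / 2)

noncomputable def el (x : J → Bool) (i : Fin (T.odd x).card) : Option Lab :=
  ((T.odd x).equivFin.symm i).1

noncomputable def fstL (y : T.Site) : Option Lab := T.el y.1 ⟨2 * y.2.1, by omega⟩
noncomputable def sndL (y : T.Site) : Option Lab := T.el y.1 ⟨2 * y.2.1 + 1, by omega⟩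

theorem pair_sum (x : J → Bool) {R : Type*} [AddCommMonoid R] (g : Option Lab → R) :
    ∑ l : Fin ((T.odd x).card / 2), (g (T.fstL ⟨x, l⟩) + g (T.sndL ⟨x, l⟩)) =
      ∑ b ∈ T.odd x, g b := by
  classical
  let G : ℕ → R := fun i => if h : i < (T.odd x).card then g (T.el x ⟨i, h⟩) else 0
  have e1 : ∑ b ∈ T.odd x, g b = ∑ i ∈ range (T.odd x).card, G i := by
    rw [← sum_coe_sort, ← (T.odd x).equivFin.symm.sum_comp, Finset.sum_range]
    exact sum_congr rfl fun i _ => by simp [G, el]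
  have e2 : ∀ h : ℕ, ∑ i ∈ range (2 * h), G i = ∑ l ∈ range h, (G (2 * l) + G (2 * l + 1)) := by
    intro h
    induction h with
    | zero => simp
    | succ h ih => rw [Nat.mul_succ, sum_range_succ, sum_range_succ, sum_range_succ, ih, add_assoc]
  obtain ⟨h, hh⟩ := T.odd_even x
  have e3 := e2 ((T.odd x).card / 2)
  rw [show 2 * ((T.odd x).card / 2) = (T.odd x).card by omega] at e3
  rw [e1, e3, Finset.sum_range]
  refine sum_congr rfl fun l _ => ?_
  have h1 : 2 * l.1 < (T.odd x).card := by omega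
  have h2 : 2 * l.1 + 1 < (T.odd x).card := by omega
  simp [G, h1, h2, fstL, sndL]

abbrev Idx (_T : StageData B Lab γ) := B.A × Lab
abbrev Pt (_T : StageData B Lab γ) := (J → Bool) × Lab

def col (θ : T.Idx → ℝ) (a : Lab) : Finset J → ℝ := fun S => if h : S ∈ B.A then θ (⟨S, h⟩, a) else 0

def flat (f : Lab → Finset J → ℝ) : T.Idx → ℝ := fun p => f p.2 p.1.1

theorem u_col_flat (f : Lab → Finset J → ℝ) (a : Lab) (x : J → Bool) :
    B.u (T.col (T.flat f) a) x = B.u (f a) x :=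
  sum_congr rfl fun S hS => by simp [col, flat, hS]

theorem u_col_sub (θ θ' : T.Idx → ℝ) (a : Lab) (x : J → Bool) :
    B.u (T.col (θ - θ') a) x = B.u (T.col θ a) x - B.u (T.col θ' a) x := by
  rw [← B.u_sub]
  exact sum_congr rfl fun S hS => by simp [col, hS]

noncomputable def uuMap : (T.Idx → ℝ) →ₗ[ℝ] (T.Pt → ℝ) where
  toFun θ p := B.u (T.col θ p.2) p.1
  map_add' θ θ' := funext fun p => by
    rw [Pi.add_apply, ← B.u_add]
    exact sum_congr rfl fun S hS => by simp [col, hS]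
  map_smul' c θ := funext fun p => by
    rw [RingHom.id_apply, Pi.smul_apply, smul_eq_mul, ← B.u_smul]
    exact sum_congr rfl fun S hS => by simp [col, hS]

noncomputable def val (θ : T.Idx → ℝ) (x : J → Bool) (b : Option Lab) : ℝ :=
  b.elim 0 fun a => T.uuMap θ (x, a)

noncomputable def DMap : (T.Idx → ℝ) →ₗ[ℝ] EuclideanSpace ℝ T.Site where
  toFun θ := WithLp.toLp 2 fun y => T.val θ y.1 (T.fstL y) - T.val θ y.1 (T.sndL y)
  map_add' θ θ' := by
    ext y
    simp only [val, PiLp.add_apply]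
    cases T.fstL y <;> cases T.sndL y <;> simp [map_add] <;> ring
  map_smul' c θ := by
    ext y
    simp only [val, RingHom.id_apply, PiLp.smul_apply, smul_eq_mul]
    cases T.fstL y <;> cases T.sndL y <;> simp [map_smul] <;> ring

theorem DMap_apply (θ : T.Idx → ℝ) (y : T.Site) :
    T.DMap θ y = T.val θ y.1 (T.fstL y) - T.val θ y.1 (T.sndL y) := rfl

theorem res_unique {x : J → Bool} {a a' : Lab} (h : x ∈ T.W a) (h' : x ∈ T.W a') : a = a' := by
  have h1 := (T.res a x h (some a)).2 (Or.inr rfl)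
  have h2 := (T.res a' x h' (some a)).1 h1
  simpa using h2

theorem at_reserved {a : Lab} {x : J → Bool} (h : x ∈ T.W a) :
    ∃ l, ∀ θ, T.DMap θ ⟨x, l⟩ = T.uuMap θ (x, a) ∨ T.DMap θ ⟨x, l⟩ = -T.uuMap θ (x, a) := by
  have hodd : T.odd x = {none, some a} := by
    ext b; simp [odd, T.res a x h b]
  have hc : (T.odd x).card = 2 := by rw [hodd]; exact card_pair (by simp)
  refine ⟨⟨0, by omega⟩, fun θ => ?_⟩
  set y : T.Site := ⟨x, ⟨0, by omega⟩⟩
  have h1 : T.fstL y ∈ T.odd x := ((T.odd x).equivFin.symm _).2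
  have h2 : T.sndL y ∈ T.odd x := ((T.odd x).equivFin.symm _).2
  have hne : T.fstL y ≠ T.sndL y := by
    intro hh
    have := (T.odd x).equivFin.symm.injective (Subtype.ext hh)
    simp [y, Fin.ext_iff] at this
  rw [hodd, mem_insert, mem_singleton] at h1 h2
  rw [DMap_apply]
  rcases h1 with h1 | h1 <;> rcases h2 with h2 | h2
  · exact absurd (h1.trans h2.symm) hne
  · right; rw [h1, h2]; simp [val, y]
  · left; rw [h1, h2]; simp [val, y]
  · exact absurd (h1.trans h2.symm) hne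

theorem reserved_sum (F : Lab → (J → Bool) → ℝ) (G : T.Site → ℝ) (hG : ∀ y, 0 ≤ G y)
    (h : ∀ a, ∀ x ∈ T.W a, ∀ l, (∀ θ, T.DMap θ ⟨x, l⟩ = T.uuMap θ (x, a) ∨
      T.DMap θ ⟨x, l⟩ = -T.uuMap θ (x, a)) → F a x ≤ G ⟨x, l⟩) :
    ∑ a, ∑ x ∈ T.W a, F a x ≤ ∑ y, G y := by
  rw [Fintype.sum_sigma]
  have e : ∀ a, ∑ x ∈ T.W a, F a x = ∑ x, if x ∈ T.W a then F a x else 0 := fun a => by
    rw [sum_ite_mem, univ_inter]
  rw [sum_congr rfl fun a _ => e a, sum_comm]
  refine sum_le_sum fun x _ => ?_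
  by_cases hx : ∃ a, x ∈ T.W a
  · obtain ⟨a, ha⟩ := hx
    rw [sum_eq_single a]
    · rw [if_pos ha]
      obtain ⟨l, hl⟩ := T.at_reserved ha
      exact le_trans (h a x ha l hl) (single_le_sum (f := fun l => G ⟨x, l⟩) (fun l _ => hG _) (mem_univ l))
    · intro a' _ hne
      rw [if_neg]
      exact fun h' => hne (T.res_unique h' ha)
    · simp
  · push Not at hx
    simp only [hx, if_false, sum_const_zero]
    exact sum_nonneg fun l _ => hG _

variable (N : StageNum B (Fintype.card Lab) γ)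

include N in
theorem frame' (θ : T.Idx → ℝ) :
    ∑ p, (T.uuMap θ p) ^ 2 ≤ γ⁻¹ * ‖T.DMap θ‖ ^ 2 := by
  have h1 : ∀ a, ∑ x, (T.uuMap θ (x, a)) ^ 2 ≤ γ⁻¹ * ∑ x ∈ T.W a, (T.uuMap θ (x, a)) ^ 2 := by
    intro a
    rw [le_inv_mul_iff₀ N.γ_pos]
    exact B.sees_real (T.sees a) (T.col θ a)
  calc ∑ p, (T.uuMap θ p) ^ 2 = ∑ a, ∑ x, (T.uuMap θ (x, a)) ^ 2 := by
        rw [Fintype.sum_prod_type, sum_comm]
    _ ≤ ∑ a, γ⁻¹ * ∑ x ∈ T.W a, (T.uuMap θ (x, a)) ^ 2 := sum_le_sum fun a _ => h1 a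
    _ ≤ _ := by
      rw [← mul_sum, Form.norm_sq_sum]
      refine mul_le_mul_of_nonneg_left (T.reserved_sum (fun a x => (T.uuMap θ (x, a)) ^ 2)
        (fun y => (T.DMap θ y) ^ 2) (fun y => sq_nonneg _) fun a x _ l hl => ?_)
        (inv_nonneg.2 N.γ_pos.le)
      rcases hl θ with h | h <;> simp only [h] <;> simp

noncomputable def form : Form T.Idx T.Site T.Pt where
  D := T.DMap
  uu := T.uuMap
  dl := B.dens / γ
  Γ := γ⁻¹
  dl_pos := div_pos N.dens_pos N.γ_pos
  Γ_one := (one_le_inv₀ N.γ_pos).2 N.γ_le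
  frame := T.frame' N
  lev θ p := by
    refine le_trans (B.u_sq_le (T.col θ p.2) p.1) ?_
    rw [div_eq_mul_inv, mul_assoc]
    refine mul_le_mul_of_nonneg_left ?_ B.dens_nonneg
    refine le_trans ?_ (T.frame' N θ)
    rw [Fintype.sum_prod_type, sum_comm]
    exact single_le_sum (f := fun a => ∑ x, (T.uuMap θ (x, a)) ^ 2)
      (fun a _ => sum_nonneg fun x _ => sq_nonneg _) (mem_univ p.2)
  inj θ h := by
    have h' := T.frame' N θ
    rw [h, norm_zero, zero_pow two_ne_zero, mul_zero] at h'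
    have hz := (sum_eq_zero_iff_of_nonneg fun p _ => sq_nonneg (T.uuMap θ p)).1
      (le_antisymm h' (sum_nonneg fun p _ => sq_nonneg _))
    funext p
    have h2 := B.hat_u (T.col θ p.2) p.1.2
    have h3 : B.u (T.col θ p.2) = fun _ => 0 := funext fun x =>
      pow_eq_zero_iff two_ne_zero |>.1 (hz (x, p.2) (mem_univ _))
    rw [h3] at h2
    simpa [hat, col, p.1.2] using h2.symm
  site θ y b hb h := by
    rw [DMap_apply]
    have hv : ∀ c, |T.val θ y.1 c| ≤ b := fun c => by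
      cases c with
      | none => simpa [val] using hb
      | some a => exact h (y.1, a)
    linarith [abs_sub (T.val θ y.1 (T.fstL y)) (T.val θ y.1 (T.sndL y)), hv (T.fstL y), hv (T.sndL y)]

theorem chi_int (S : Finset J) (x : J → Bool) : ∃ m : ℤ, chi S x = m := by
  rcases eq_or_eq_neg_of_abs_eq (abs_chi S x) with q | q
  · exact ⟨1, by rw [q]; norm_num⟩
  · exact ⟨-1, by rw [q]; norm_num⟩

noncomputable def lattice : FineLattice T.Idx where
  L :=
    { carrier := {θ | ∀ p, ∃ m : ℤ, T.uuMap θ p = m}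
      zero_mem' := fun p => ⟨0, by simp⟩
      add_mem' := by
        intro θ θ' h h' p
        obtain ⟨m, hm⟩ := h p
        obtain ⟨m', hm'⟩ := h' p
        exact ⟨m + m', by simp [map_add, hm, hm']⟩
      neg_mem' := by
        intro θ h p
        obtain ⟨m, hm⟩ := h p
        exact ⟨-m, by simp [map_neg, hm]⟩ }
  den := 2 ^ Fintype.card J
  den_pos := by positivity
  int_mem z p := by
    choose m hm using fun S => chi_int S p.1
    refine ⟨∑ S ∈ B.A, (if h : S ∈ B.A then z (⟨S, h⟩, p.2) else 0) * m S, ?_⟩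
    simp only [uuMap, LinearMap.coe_mk, AddHom.coe_mk, Blk.u]
    push_cast
    exact sum_congr rfl fun S hS => by simp [col, hS, intVec, hm]
  bdd θ h p := by
    choose m hm using fun x => h (x, p.2)
    choose s hs using fun x => chi_int p.1.1 x
    refine ⟨∑ x, m x * s x, ?_⟩
    have h2 := B.hat_u (T.col θ p.2) p.1.2
    rw [hat, div_eq_iff Nc_pos.ne'] at h2
    have hc : T.col θ p.2 p.1.1 = θ p := by simp [col]
    rw [hc] at h2
    push_cast
    rw [show (2:ℝ) ^ Fintype.card J = Nc J from rfl, mul_comm, ← h2]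
    refine sum_congr rfl fun x _ => ?_
    have hx : B.u (T.col θ p.2) x = m x := hm x
    rw [hx, hs]

theorem mem_lattice {θ : T.Idx → ℝ} : θ ∈ T.lattice.L ↔ ∀ p, ∃ m : ℤ, T.uuMap θ p = m := Iff.rfl

theorem val_int {θ : T.Idx → ℝ} (h : θ ∈ T.lattice.L) (x : J → Bool) (b : Option Lab) :
    ∃ m : ℤ, T.val θ x b = m := by
  cases b with
  | none => exact ⟨0, by simp [val]⟩
  | some a => exact (T.mem_lattice.1 h) (x, a)

theorem perp_val (θ : T.Idx → ℝ) : ∑ x, ∑ b, (T.q x b : ℝ) * T.val θ x b = 0 := by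
  simp only [Fintype.sum_option, val, Option.elim, mul_zero, zero_add]
  rw [sum_comm]
  refine sum_eq_zero fun a _ => ?_
  simp only [uuMap, LinearMap.coe_mk, AddHom.coe_mk, Blk.u, mul_sum]
  rw [sum_comm]
  refine sum_eq_zero fun S hS => ?_
  calc ∑ x, (T.q x (some a) : ℝ) * (T.col θ a S * chi S x)
      = T.col θ a S * ∑ x, (T.q x (some a) : ℝ) * chi S x := by
        rw [mul_sum]; exact sum_congr rfl fun x _ => by ring
    _ = 0 := by rw [T.perp (some a) S hS, mul_zero]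

theorem parity {θ : T.Idx → ℝ} (h : θ ∈ T.lattice.L) :
    ∃ m : ℤ, ∑ y, T.DMap θ y = 2 * m := by
  choose v hv using T.val_int h
  refine ⟨-(∑ x, ∑ b, ((T.q x b / 2 : ℕ) : ℤ) * v x b) - ∑ y, v y.1 (T.sndL y), ?_⟩
  have hp := T.perp_val θ
  simp only [hv] at hp
  have hp' : ∑ x, ∑ b, (T.q x b : ℤ) * v x b = 0 := by exact_mod_cast hp
  have e0 : ∑ y, T.DMap θ y = ((∑ y, (v y.1 (T.fstL y) - v y.1 (T.sndL y)) : ℤ) : ℝ) := by
    push_cast; exact sum_congr rfl fun y _ => by rw [DMap_apply, hv, hv]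
  rw [e0]
  have key : ∑ y, (v y.1 (T.fstL y) - v y.1 (T.sndL y)) =
      2 * (-(∑ x, ∑ b, ((T.q x b / 2 : ℕ) : ℤ) * v x b) - ∑ y, v y.1 (T.sndL y)) := by
    have e1 : ∑ y, (v y.1 (T.fstL y) + v y.1 (T.sndL y)) =
        ∑ x, ∑ b, ((T.q x b % 2 : ℕ) : ℤ) * v x b := by
      rw [Fintype.sum_sigma]
      refine sum_congr rfl fun x _ => ?_
      rw [T.pair_sum x (v x), odd, sum_filter]
      refine sum_congr rfl fun b _ => ?_
      rcases Nat.mod_two_eq_zero_or_one (T.q x b) with h2 | h2 <;> simp [Nat.odd_iff, h2]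
    have e2 : ∑ x, ∑ b, ((T.q x b % 2 : ℕ) : ℤ) * v x b +
        2 * ∑ x, ∑ b, ((T.q x b / 2 : ℕ) : ℤ) * v x b = 0 := by
      rw [← hp', mul_sum, ← sum_add_distrib]
      refine sum_congr rfl fun x _ => ?_
      rw [mul_sum, ← sum_add_distrib]
      refine sum_congr rfl fun b _ => ?_
      conv_rhs => rw [← Nat.mod_add_div (T.q x b) 2]
      push_cast; ring
    simp only [sum_add_distrib, sum_sub_distrib] at e1 ⊢
    linarith
  exact_mod_cast congrArg (Int.cast : ℤ → ℝ) key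

noncomputable def cutL (_T : StageData B Lab γ) (gr : ℝ) : ℕ := by
  classical
  exact (insert 0 ((range (Fintype.card J + 1)).filter fun L : ℕ =>
    2 ^ L * (gr / γ / Nc J) ≤ (N.η / 16) ^ 2 / 64)).max' (insert_nonempty _ _)

theorem cutL_spec (gr : ℝ) :
    (T.cutL N gr = 0 ∨ 2 ^ T.cutL N gr * (gr / γ / Nc J) ≤ (N.η / 16) ^ 2 / 64) ∧
      T.cutL N gr ≤ Fintype.card J := by
  classical
  have hh : T.cutL N gr ∈ insert 0 ((range (Fintype.card J + 1)).filter fun L : ℕ =>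
      2 ^ L * (gr / γ / Nc J) ≤ (N.η / 16) ^ 2 / 64) := Finset.max'_mem _ _
  rcases mem_insert.1 hh with h | h
  · rw [h]; exact ⟨Or.inl rfl, Nat.zero_le _⟩
  · obtain ⟨h1, h2⟩ := mem_filter.1 h
    exact ⟨Or.inr h2, Nat.lt_succ_iff.1 (mem_range.1 h1)⟩

theorem rk_cut {gr : ℝ} (hgr : 1 ≤ gr) :
    B.rk (T.cutL N gr) ≤ 2 ^ 20 * (Fintype.card J : ℝ) * B.dens * gr / (N.η ^ 2 * γ) := by
  classical
  set n := Fintype.card J with hn
  set L := T.cutL N gr with hL
  have hη := N.η_pos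
  have hγ := N.γ_pos
  have hN := Nc_pos (J := J)
  have η1 : N.η ≤ 1 := by
    nlinarith [N.η_small, Real.pi_gt_d2, Real.exp_le_one_iff.2 (show (-8:ℝ) ≤ 0 by norm_num)]
  have key : (1:ℝ) / 2 ^ L ≤ 2 ^ 16 * gr / (N.η ^ 2 * γ * Nc J) := by
    rcases lt_or_ge L n with h | h
    · have hbig : (N.η / 16) ^ 2 / 64 < 2 ^ (L + 1) * (gr / γ / Nc J) := by
        by_contra hcon
        push Not at hcon
        have h' : L + 1 ∈ insert 0 ((range (Fintype.card J + 1)).filter fun L : ℕ =>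
            2 ^ L * (gr / γ / Nc J) ≤ (N.η / 16) ^ 2 / 64) :=
          mem_insert_of_mem (mem_filter.2 ⟨mem_range.2 (by omega), hcon⟩)
        have := Finset.le_max' _ _ h'
        have e : L + 1 ≤ L := this
        omega
      rw [div_le_div_iff₀ (by positivity) (by positivity)]
      rw [pow_succ (2:ℝ) L] at hbig
      have e : (2:ℝ) ^ L * 2 * (gr / γ / Nc J) * (γ * Nc J) = 2 ^ L * 2 * gr := by field_simp
      have h3 := mul_lt_mul_of_pos_right hbig (mul_pos hγ hN)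
      rw [e] at h3
      have h4 : (N.η / 16) ^ 2 / 64 * (γ * Nc J) = N.η ^ 2 * γ * Nc J / 16384 := by ring
      have h5 : 0 ≤ (2:ℝ) ^ L * gr := mul_nonneg (by positivity) (by linarith)
      linarith
    · calc (1:ℝ) / 2 ^ L ≤ 1 / Nc J :=
            one_div_le_one_div_of_le hN (pow_le_pow_right₀ one_le_two h)
        _ ≤ _ := by
            rw [div_le_div_iff₀ hN (by positivity)]
            have : N.η ^ 2 * γ ≤ 1 := mul_le_one₀ (pow_le_one₀ hη.le η1) hγ.le N.γ_le
            nlinarith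
  calc B.rk L = 16 * n * B.A.card * (1 / 2 ^ L) := by rw [Blk.rk, Blk.nT, ← hn]; push_cast; ring
    _ ≤ 16 * n * B.A.card * (2 ^ 16 * gr / (N.η ^ 2 * γ * Nc J)) :=
        mul_le_mul_of_nonneg_left key (by positivity)
    _ = _ := by rw [Blk.dens]; field_simp; ring

include T in
theorem kq_le {L : ℕ} (hL : L ≤ Fintype.card J) :
    ((B.kq L (N.η / 16) + 1 : ℕ) : ℝ) ≤ Real.exp (9 * Fintype.card J) := by
  set n := Fintype.card J
  have hη := N.η_pos
  have q0 : 0 < B.qq L (N.η / 16) := div_pos (by positivity) (by positivity)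
  push_cast
  refine le_trans (add_le_add_left (Nat.floor_le (div_nonneg zero_le_one q0.le)) 1) ?_
  have e1 : 1 / B.qq L (N.η / 16) = (2 ^ L * B.A.card + 1) * 16 * (1 / N.η) := by
    rw [Blk.qq]; field_simp
  have hA : (B.A.card : ℝ) ≤ 2 ^ n := by
    have h := card_le_univ B.A
    rw [Fintype.card_finset] at h
    exact_mod_cast h
  have h3 : 1 / N.η ≤ 2 ^ (2 * n) := by
    rw [pow_mul, div_le_iff₀ hη]
    have := mul_le_mul_of_nonneg_left N.η_lo (show (0:ℝ) ≤ ((2:ℝ) ^ 2) ^ n by positivity)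
    rw [← mul_pow] at this
    norm_num at this ⊢
    linarith
  have h1 : (2:ℝ) ^ L * B.A.card + 1 ≤ 2 ^ (2 * n + 1) := by
    have a : (2:ℝ) ^ L * B.A.card ≤ 2 ^ (2 * n) := by
      rw [two_mul n, pow_add]
      exact mul_le_mul (pow_le_pow_right₀ one_le_two hL) hA (Nat.cast_nonneg _) (by positivity)
    have b : (1:ℝ) ≤ 2 ^ (2 * n) := one_le_pow₀ one_le_two
    rw [pow_succ]; linarith
  rw [e1]
  have h2 : (2 ^ L * (B.A.card:ℝ) + 1) * 16 * (1 / N.η) ≤ 2 ^ (4 * n + 5) := by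
    calc _ ≤ (2:ℝ) ^ (2 * n + 1) * 16 * 2 ^ (2 * n) :=
          mul_le_mul (mul_le_mul_of_nonneg_right h1 (by norm_num)) h3 (by positivity) (by positivity)
      _ = _ := by
          rw [show (16:ℝ) = 2 ^ 4 by norm_num, ← pow_add, ← pow_add]
          congr 1; omega
  have hb : (1:ℝ) ≤ 2 ^ (4 * n + 5) := one_le_pow₀ one_le_two
  refine le_trans (le_trans (add_le_add h2 hb) (le_of_eq (by rw [pow_succ _ (4 * n + 5)]; ring :
    (2:ℝ) ^ (4 * n + 5) + 2 ^ (4 * n + 5) = 2 ^ (4 * n + 5 + 1)))) ?_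
  rw [← Real.rpow_natCast, Real.rpow_def_of_pos two_pos]
  apply Real.exp_le_exp.2
  push_cast
  have hn' : (20:ℝ) ≤ n := by exact_mod_cast N.n_big
  nlinarith [Real.log_two_lt_d9]

include N in
theorem esq_le {g : ℕ} {θ : T.Idx → ℝ} {j : T.Site → ℤ}
    (h : ∑ y, (T.DMap θ y - j y) ^ 2 ≤ g) (a : Lab) : B.esq (T.col θ a) ≤ g / γ := by
  rw [le_div_iff₀ N.γ_pos, mul_comm]
  refine le_trans (T.sees a (T.col θ a)) ?_
  refine le_trans ?_ h
  refine le_trans ?_ (T.reserved_sum (fun a x => (B.err (T.col θ a) x) ^ 2) (fun y => (T.DMap θ y - j y) ^ 2)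
    (fun y => sq_nonneg _) fun a x _ l hl => ?_)
  · exact single_le_sum (f := fun a => ∑ x ∈ T.W a, (B.err (T.col θ a) x) ^ 2)
      (fun a _ => sum_nonneg fun x _ => sq_nonneg _) (mem_univ a)
  · rw [← sq_abs (B.err _ x), ← sq_abs (_ - _)]
    refine pow_le_pow_left₀ (abs_nonneg _) ?_ 2
    rw [B.err_abs]
    rcases hl θ with q | q
    · rw [q]; exact d1_le _ _
    · rw [q]
      refine le_trans (d1_le _ (-(j ⟨x, l⟩))) (le_of_eq ?_)
      rw [← abs_neg]; congr 1; push_cast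
      show -(B.u (T.col θ a) x - -((j ⟨x, l⟩ : ℤ) : ℝ)) = -(B.u (T.col θ a) x) - _
      ring

theorem lattice_of_close (θ : T.Idx → ℝ) (f : Lab → Finset J → ℝ)
    (h : ∀ a x, d1 (B.u (T.col θ a) x - B.u (f a) x) ≤ N.η / 2) :
    ∃ l ∈ T.lattice.L, ∀ p, |T.uuMap (θ - l - T.flat f) p| ≤ N.η := by
  have hl : ∀ a, ∃ l : Finset J → ℝ, ∀ x, B.u l x = round (B.u (T.col θ a - f a) x) ∧
      |B.u (T.col θ a - f a - l) x| ≤ N.η / 2 := fun a => by
    refine B.near_lattice (T.col θ a - f a) ?_ fun x => ?_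
    · have : 0 ≤ (2:ℝ) ^ B.bb * N.η := mul_nonneg (by positivity) N.η_pos.le
      linarith [N.η_bb]
    · rw [B.u_sub]; exact h a x
  choose l hl using hl
  refine ⟨T.flat l, fun p => ⟨_, (T.u_col_flat l p.2 p.1).trans (hl p.2 p.1).1⟩, fun p => ?_⟩
  show |B.u (T.col (θ - T.flat l - T.flat f) p.2) p.1| ≤ N.η
  rw [T.u_col_sub, T.u_col_sub, T.u_col_flat, T.u_col_flat]
  have := (hl p.2 p.1).2
  rw [B.u_sub, B.u_sub] at this
  rw [show B.u (T.col θ p.2) p.1 - B.u (l p.2) p.1 - B.u (f p.2) p.1 =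
    B.u (T.col θ p.2) p.1 - B.u (f p.2) p.1 - B.u (l p.2) p.1 by ring]
  linarith [N.η_pos]

theorem cov (g : ℕ) : ∃ C : Finset (T.Idx → ℝ), ((g : ℝ) ≤ N.G0 → ∀ r ∈ C, r = 0) ∧
    (C.card : ℝ) ≤ Real.exp (g / 8) ∧
    ∀ (θ : T.Idx → ℝ) (j : T.Site → ℤ), ∑ y, (T.DMap θ y - j y) ^ 2 ≤ g →
      ∃ l ∈ T.lattice.L, ∃ r ∈ C, ∀ p, |T.uuMap (θ - l - r) p| ≤ N.η := by
  classical
  set n := Fintype.card J with hn
  have hn' : (20:ℝ) ≤ n := by exact_mod_cast N.n_big
  have hn1 : 1 ≤ Fintype.card J := le_trans (by norm_num) N.n_big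
  have hη' : 0 < N.η / 16 := by linarith [N.η_pos]
  have hG1 : (1:ℝ) ≤ N.G0 := by nlinarith [N.G0_big]
  have cond : ∀ gr : ℝ, (g:ℝ) ≤ gr → ∀ θ : T.Idx → ℝ, ∀ j : T.Site → ℤ,
      ∑ y, (T.DMap θ y - j y) ^ 2 ≤ g → ∀ a, T.cutL N gr = 0 ∨
        2 ^ T.cutL N gr * (B.esq (T.col θ a) / Nc J) ≤ (N.η / 16) ^ 2 / 64 := by
    intro gr hgr θ j hj a
    refine (T.cutL_spec N gr).1.imp_right fun h => le_trans ?_ h
    have hN := Nc_pos (J := J)
    have hγ := N.γ_pos
    gcongr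
    exact le_trans (T.esq_le N hj a) (by gcongr)
  by_cases hg : (g:ℝ) ≤ N.G0
  · refine ⟨{0}, fun _ r hr => mem_singleton.1 hr, ?_, fun θ j hj => ?_⟩
    · simp only [card_singleton, Nat.cast_one]; exact Real.one_le_exp (by positivity)
    have hrk : B.rk (T.cutL N N.G0) < 1 := by
      refine lt_of_le_of_lt (T.rk_cut N hG1) ?_
      rw [div_lt_one (mul_pos (pow_pos N.η_pos 2) N.γ_pos)]
      exact N.numB
    obtain ⟨l, hl, hl'⟩ := T.lattice_of_close N θ (fun _ => 0) fun a x => by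
      have := B.all_close_of_rk hn1 (T.col θ a) hη' _ (cond N.G0 hg θ j hj a) hrk x
      have hz : B.u 0 x = 0 := by simp [Blk.u]
      rw [hz, sub_zero]
      linarith [N.η_pos]
    refine ⟨l, hl, 0, mem_singleton.2 rfl, fun p => ?_⟩
    have : T.flat (fun _ => (0 : Finset J → ℝ)) = 0 := rfl
    rw [this] at hl'
    exact hl' p
  push Not at hg
  set L := T.cutL N g with hL
  set R := ⌊B.rk L⌋₊ with hR
  let Φ := B.net L (N.η / 16) R
  let rep : ((J → Bool) → ℝ) → Finset J → ℝ := fun φ =>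
    if h : ∃ θ', ∀ x, d1 (B.u θ' x - φ x) ≤ 4 * (N.η / 16) then Classical.choose h else 0
  refine ⟨(Fintype.piFinset fun _ : Lab => Φ).image fun φs => T.flat fun a => rep (φs a),
    fun h => absurd h (not_le.2 hg), ?_, fun θ j hj => ?_⟩
  · refine le_trans (Nat.cast_le.2 card_image_le) ?_
    rw [Fintype.card_piFinset, prod_const, card_univ, Nat.cast_pow]
    have hc : (Φ.card : ℝ) ≤ Real.exp (4 * (n:ℝ) ^ 3 + 9 * n * R) := by
      refine le_trans (Nat.cast_le.2 (B.net_card _ _ _)) ?_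
      rw [Nat.cast_mul, Nat.cast_pow, Nat.cast_pow, Nat.cast_ofNat, Real.exp_add]
      have hLn : L ≤ n := (T.cutL_spec N g).2
      refine mul_le_mul ?_ ?_ (by positivity) (Real.exp_pos _).le
      · refine le_trans (pow_le_pow_right₀ one_le_two (?_ : _ ≤ 4 * n ^ 3)) ?_
        · rw [Blk.nT, ← hn]
          calc n * L * (4 * n) ≤ n * n * (4 * n) := by gcongr
            _ = 4 * n ^ 3 := by ring
        · rw [show (4 * (n:ℝ) ^ 3) = ((4 * n ^ 3 : ℕ) : ℝ) * 1 by push_cast; ring, Real.exp_nat_mul]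
          exact pow_le_pow_left₀ (by norm_num) (by linarith [Real.add_one_le_exp (1:ℝ)]) _
      · refine le_trans (pow_le_pow_left₀ (Nat.cast_nonneg _) (T.kq_le N hLn) R) ?_
        rw [← Real.exp_nat_mul]
        exact Real.exp_le_exp.2 (by rw [← hn]; ring_nf; rfl)
    refine le_trans (pow_le_pow_left₀ (Nat.cast_nonneg _) hc _) ?_
    rw [← Real.exp_nat_mul]
    apply Real.exp_le_exp.2
    have hR' : (R:ℝ) ≤ 2 ^ 20 * (n:ℝ) * B.dens * g / (N.η ^ 2 * γ) := by
      refine le_trans (Nat.floor_le ?_) (T.rk_cut N (le_trans hG1 hg.le))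
      rw [Blk.rk]; positivity
    set nl : ℝ := (Fintype.card Lab : ℝ)
    have hp := mul_pos (pow_pos N.η_pos 2) N.γ_pos
    have a1 : nl * (4 * (n:ℝ) ^ 3) ≤ g / 16 := by linarith [N.numC]
    have a2 : nl * (9 * n * R) ≤ g / 16 := by
      refine le_trans (mul_le_mul_of_nonneg_left (mul_le_mul_of_nonneg_left hR' (by positivity))
        (Nat.cast_nonneg _)) ?_
      rw [mul_div_assoc', mul_div_assoc', div_le_iff₀ hp]
      have := mul_le_mul_of_nonneg_left N.numD (show (0:ℝ) ≤ (g:ℝ) / 16 by positivity)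
      nlinarith
    linarith
  · have hclose : ∀ a, ∃ φ ∈ Φ, ∀ x, d1 (B.u (T.col θ a) x - φ x) ≤ 4 * (N.η / 16) := fun a =>
      B.net_close hn1 (T.col θ a) hη' L (cond g le_rfl θ j hj a)
    choose φs hφs hc using hclose
    obtain ⟨l, hl, hl'⟩ := T.lattice_of_close N θ (fun a => rep (φs a)) fun a x => by
      have he : ∃ θ', ∀ x, d1 (B.u θ' x - φs a x) ≤ 4 * (N.η / 16) := ⟨_, hc a⟩
      have hs := Classical.choose_spec he
      have hr : rep (φs a) = Classical.choose he := dif_pos he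
      rw [hr]
      have := d1_tri (B.u (T.col θ a) x) (φs a x) (B.u (Classical.choose he) x)
      rw [d1_sub_comm (φs a x)] at this
      linarith [hc a x, hs x]
    exact ⟨l, hl, _, mem_image.2 ⟨φs, Fintype.mem_piFinset.2 hφs, rfl⟩, hl'⟩

noncomputable def hyp : Form.Hyp (T.form N) T.lattice where
  η := N.η
  ℓ := 2 * Fintype.card J
  G0 := N.G0
  lat θ := T.mem_lattice
  int_D θ h y := by
    obtain ⟨a, ha⟩ := T.val_int h y.1 (T.fstL y)
    obtain ⟨b, hb⟩ := T.val_int h y.1 (T.sndL y)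
    exact ⟨a - b, by show T.DMap θ y = _; rw [DMap_apply, ha, hb]; push_cast; ring⟩
  parity θ h := T.parity h
  ℓ3 := by
    have : (20:ℝ) ≤ Fintype.card J := by exact_mod_cast N.n_big
    linarith
  cardY := by
    have h : Fintype.card T.Site ≤ 2 ^ Fintype.card J * (Fintype.card Lab + 1) := by
      rw [Fintype.card_sigma]
      refine le_trans (sum_le_card_nsmul _ _ (Fintype.card Lab + 1) fun x _ => ?_) ?_
      · rw [Fintype.card_fin]
        refine le_trans (Nat.div_le_self _ _) (le_trans (card_le_univ _) ?_)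
        rw [Fintype.card_option]
      · simp
    refine le_trans (Nat.cast_le.2 (le_trans h (Nat.mul_le_mul_left _ N.lab_card))) ?_
    rw [← pow_add, Nat.cast_pow, ← two_mul, show (2 * (Fintype.card J:ℝ)) = ((2 * Fintype.card J : ℕ):ℝ) * 1 by push_cast; ring,
      Real.exp_nat_mul]
    exact pow_le_pow_left₀ (by norm_num) (by push_cast; linarith [Real.add_one_le_exp (1:ℝ)]) _
  cardZ := by
    have h : Fintype.card T.Pt ≤ 2 ^ Fintype.card J * 2 ^ Fintype.card J := by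
      rw [Fintype.card_prod, Fintype.card_fun, Fintype.card_bool]
      exact Nat.mul_le_mul_left _ (by have := N.lab_card; omega)
    refine le_trans (Nat.cast_le.2 h) ?_
    rw [← pow_add, Nat.cast_pow, ← two_mul, show (2 * (Fintype.card J:ℝ)) = ((2 * Fintype.card J : ℕ):ℝ) * 1 by push_cast; ring,
      Real.exp_nat_mul]
    exact pow_le_pow_left₀ (by norm_num) (by push_cast; linarith [Real.add_one_le_exp (1:ℝ)]) _
  η_pos := N.η_pos
  η_small := N.η_small
  G0_big := by nlinarith [N.G0_big]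
  num1 := by
    show 5000000 * (2 * (Fintype.card J : ℝ)) ^ 3 * γ⁻¹ * (B.dens / γ) ≤ N.η ^ 4
    have hγ := N.γ_pos
    rw [show 5000000 * (2 * (Fintype.card J : ℝ)) ^ 3 * γ⁻¹ * (B.dens / γ) =
      40000000 * (Fintype.card J : ℝ) ^ 3 * B.dens / γ ^ 2 by ring, div_le_iff₀ (by positivity)]
    exact N.num1
  num2 := by
    show N.G0 * (B.dens / γ) ≤ N.η ^ 2
    rw [mul_div_assoc', div_le_iff₀ N.γ_pos]
    exact N.num2
  cov := T.cov N

include N in
/-- **The halving stage.** -/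
theorem halve (wgt : (J → Bool) → ℝ) (cost : (J → Bool) → Option Lab → ℝ) :
    ∃ q' : (J → Bool) → Option Lab → ℕ, (∀ x, ∑ b, q' x b = 2 ^ T.e) ∧
      (∀ b, B.Perp fun x => (q' x b : ℝ)) ∧
      (∀ x b, Even (T.q x b) → q' x b = T.q x b / 2) ∧
      (∑ x, wgt x * ∑ b, (q' x b : ℝ) * cost x b) / 2 ^ T.e ≤
        (∑ x, wgt x * ∑ b, (T.q x b : ℝ) * cost x b) / 2 ^ (T.e + 1) := by
  classical
  obtain ⟨ε, hε, hz⟩ := (T.hyp N).signs
  let εi : T.Site → ℤ := fun y => if ε y = 1 then 1 else -1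
  have hεi : ∀ y, ((εi y : ℤ) : ℝ) = ε y := fun y => by
    rcases hε y with h | h <;> simp [εi, h]; norm_num
  let ind : T.Site → Option Lab → ℤ := fun y b =>
    (if T.fstL y = b then 1 else 0) - (if T.sndL y = b then 1 else 0)
  let δ : (J → Bool) → Option Lab → ℤ := fun x b => ∑ l, εi ⟨x, l⟩ * ind ⟨x, l⟩ b
  have cover : ∀ x b, ∑ l : Fin ((T.odd x).card / 2), ((if T.fstL ⟨x, l⟩ = b then (1:ℤ) else 0) +
      (if T.sndL ⟨x, l⟩ = b then 1 else 0)) = if b ∈ T.odd x then 1 else 0 := fun x b => by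
    rw [T.pair_sum x fun c => if c = b then (1:ℤ) else 0, sum_ite_eq']
  have heven : ∀ x b, Even (T.q x b) → δ x b = 0 := by
    intro x b he
    have hb : b ∉ T.odd x := by simpa [odd] using he
    have h := cover x b
    rw [if_neg hb] at h
    refine sum_eq_zero fun l _ => ?_
    have hl := (sum_eq_zero_iff_of_nonneg fun l _ => by split_ifs <;> norm_num).1 h l (mem_univ _)
    simp only [ind]
    split_ifs at hl ⊢ <;> omega
  have hodd : ∀ x b, Odd (T.q x b) → δ x b = 1 ∨ δ x b = -1 := by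
    intro x b ho
    have h := cover x b
    rw [if_pos (by simpa [odd] using ho)] at h
    have hab : |δ x b| ≤ 1 := by
      refine le_trans (abs_sum_le_sum_abs _ _) (le_trans (sum_le_sum fun l _ => ?_) h.le)
      simp only [ind, εi]
      split_ifs <;> simp
    have hpar : (2:ℤ) ∣ δ x b - 1 := by
      rw [← h, ← sum_sub_distrib]
      refine dvd_sum fun l _ => ?_
      simp only [ind, εi]
      split_ifs <;> norm_num
    obtain ⟨k, hk⟩ := hpar
    obtain ⟨h1, h2⟩ := abs_le.1 hab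
    omega
  have hsum : ∀ x, ∑ b, δ x b = 0 := by
    intro x
    simp only [δ]
    rw [sum_comm]
    refine sum_eq_zero fun l _ => ?_
    simp [ind, ← mul_sum, sum_sub_distrib]
  have hperp : ∀ b, B.Perp fun x => (δ x b : ℝ) := by
    have hsome : ∀ a, B.Perp fun x => (δ x (some a) : ℝ) := by
      intro a S hS
      have h := hz (⟨S, hS⟩, a)
      rw [Fintype.sum_sigma] at h
      rw [← h]
      refine sum_congr rfl fun x _ => ?_
      simp only [δ]
      push_cast
      rw [sum_mul]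
      refine sum_congr rfl fun l _ => ?_
      have hval : ∀ c, T.val (Pi.single (⟨S, hS⟩, a) 1) x c = if c = some a then chi S x else 0 := by
        intro c
        cases c with
        | none => simp [val]
        | some a' =>
          simp only [val, Option.elim, uuMap, LinearMap.coe_mk, AddHom.coe_mk, Blk.u]
          rw [sum_eq_single S]
          · by_cases ha : a' = a
            · subst ha; simp [col, hS]
            · simp [col, hS, ha]
          · intro S' hS' hne; simp [col, hS', hne]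
          · intro h'; exact absurd hS h'
      show _ = ε ⟨x, l⟩ * T.DMap _ ⟨x, l⟩
      rw [DMap_apply, hval, hval, hεi]
      simp only [ind]
      push_cast
      split_ifs <;> ring
    intro b
    cases b with
    | some a => exact hsome a
    | none =>
      have e : (fun x => (δ x none : ℝ)) = fun x => (-1:ℝ) * ∑ a, (δ x (some a) : ℝ) := by
        funext x
        have h := hsum x
        rw [Fintype.sum_option] at h
        have h' : ((δ x none : ℤ) : ℝ) + ∑ a, (δ x (some a) : ℝ) = 0 := by exact_mod_cast h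
        linarith
      rw [e]
      exact B.perp_smul _ (B.perp_sum _ fun a _ => hsome a)
  set Tt := ∑ x, wgt x * ∑ b, (δ x b : ℝ) * cost x b with hT
  obtain ⟨s, hs, hsT⟩ : ∃ s : ℤ, (s = 1 ∨ s = -1) ∧ (s:ℝ) * Tt ≤ 0 := by
    rcases le_total Tt 0 with h | h
    · exact ⟨1, Or.inl rfl, by simpa using h⟩
    · exact ⟨-1, Or.inr rfl, by simpa using h⟩
  let q' : (J → Bool) → Option Lab → ℕ := fun x b => (((T.q x b : ℤ) + s * δ x b) / 2).toNat
  have hq : ∀ x b, 2 * (q' x b : ℤ) = (T.q x b : ℤ) + s * δ x b := by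
    intro x b
    simp only [q']
    rcases Nat.even_or_odd (T.q x b) with h | h
    · obtain ⟨k, hk⟩ := h
      rw [heven x b ⟨k, hk⟩]; omega
    · obtain ⟨k, hk⟩ := h
      rcases hs with rfl | rfl <;> rcases hodd x b ⟨k, hk⟩ with h1 | h1 <;> rw [h1] <;> omega
  have hqR : ∀ x b, (q' x b : ℝ) = ((T.q x b : ℝ) + (s:ℝ) * (δ x b : ℝ)) / 2 := by
    intro x b
    have h : ((2 * (q' x b : ℤ) : ℤ) : ℝ) = (((T.q x b : ℤ) + s * δ x b : ℤ) : ℝ) := by rw [hq]
    push_cast at h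
    linarith
  refine ⟨q', fun x => ?_, fun b => ?_, fun x b he => ?_, ?_⟩
  · have h : (2:ℤ) * ∑ b, (q' x b : ℤ) = 2 * 2 ^ T.e := by
      rw [mul_sum, sum_congr rfl fun b _ => hq x b, sum_add_distrib, ← mul_sum, hsum, mul_zero,
        add_zero]
      rw [← Nat.cast_sum, T.sum_q]
      push_cast; ring
    have h2 : (∑ b, (q' x b : ℤ)) = 2 ^ T.e := by linarith
    exact_mod_cast h2
  · simp only [hqR, div_eq_inv_mul]
    exact B.perp_smul _ (B.perp_add (T.perp b) (B.perp_smul _ (hperp b)))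
  · have := hq x b
    rw [heven x b he] at this
    obtain ⟨k, hk⟩ := he
    omega
  · rw [div_le_div_iff₀ (by positivity) (by positivity), pow_succ, ← mul_assoc,
      mul_comm _ ((2:ℝ) ^ T.e)]
    rw [show (2:ℝ) ^ T.e * (∑ x, wgt x * ∑ b, (q' x b : ℝ) * cost x b) * 2 =
      2 ^ T.e * (2 * ∑ x, wgt x * ∑ b, (q' x b : ℝ) * cost x b) by ring,
      mul_comm (∑ x, wgt x * ∑ b, (T.q x b : ℝ) * cost x b)]
    refine mul_le_mul_of_nonneg_left ?_ (by positivity)
    have e : 2 * ∑ x, wgt x * ∑ b, (q' x b : ℝ) * cost x b =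
        (∑ x, wgt x * ∑ b, (T.q x b : ℝ) * cost x b) + (s:ℝ) * Tt := by
      simp only [hT, mul_sum, ← sum_add_distrib, hqR]
      exact sum_congr rfl fun x _ => sum_congr rfl fun b _ => by ring
    rw [e]; linarith

end StageData

end Vale.Agent.P047
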