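import Mathlib
import Vale.Agent.P047.Stage

/-! Exact rounding of a fractional orthogonal table to a one-hot table. -/

namespace Vale.Agent.P047

open Finset

variable {J : Type*} [Fintype J] [DecidableEq J]

/-- Numerical requirements of the rounding. -/
structure RoundNum (B : Blk J) (nl G : ℕ) where
  ρ : ℝ
  ε0 : ℝ
  lam : ℝ
  ρ_pos : 0 < ρ
  ε0_pos : 0 < ε0
  beta_le : 2 * (Fintype.card J : ℝ) * nl * ρ ≤ 1
  frame : 2 ^ 32 * (Fintype.card J : ℝ) ^ 5 * B.dens ≤ ρ
  stage : StageNum B nl (ρ / (512 * Fintype.card J))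
  numE : 2 * (2:ℝ) ^ Fintype.card J * nl * Real.exp (-(ε0 ^ 2 / (8 * B.dens))) ≤ 1/8
  numF : (2:ℝ) ^ Fintype.card J * ((2:ℝ) ^ B.bb * (2 * (Fintype.card J : ℝ) * nl * ρ)) ^ G ≤ 1/8
  numG : 2 * (Fintype.card J : ℝ) * nl * Real.exp (-(Fintype.card J : ℝ)) ≤ 1/8
  numH : ((nl : ℝ) + 1) * ((G + 1) * (ε0 + (1/2) ^ Fintype.card J)) ≤ lam

theorem flipBy_mem_Zs {T : Finset J} {z w : J → Bool} (hz : z ∈ Zs T) (hw : w ∈ Zs T) :
    flipBy z w ∈ Zs T := by
  rw [mem_Zs] at hz hw ⊢
  intro i hi; simp [flipBy, hz i hi, hw i hi]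

omit [Fintype J] [DecidableEq J] in
theorem flipBy_assoc (x y z : J → Bool) : flipBy (flipBy x y) z = flipBy x (flipBy y z) := by
  funext i; simp [flipBy]

omit [Fintype J] [DecidableEq J] in
theorem flipBy_comm (x y : J → Bool) : flipBy x y = flipBy y x := by
  funext i; simp [flipBy, Bool.xor_comm]

omit [Fintype J] [DecidableEq J] in
theorem flipBy_cancel (x z : J → Bool) : flipBy x (flipBy x z) = z := by
  funext i; simp [flipBy]

abbrev Sites (J Lab : Type*) [Fintype J] := (J → Bool) → Option (Fin (2 * Fintype.card J) × Lab)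

noncomputable def fixVal {J Lab : Type*} [Fintype J] [DecidableEq Lab]
    (ia : Fin (2 * Fintype.card J) × Lab) (a : Lab) : ℝ :=
  if a = ia.2 then (1/2:ℝ) ^ (ia.1.1 + 1) else 0

noncomputable def corr {J Lab : Type*} [Fintype J] [DecidableEq Lab]
    (p : (J → Bool) → Option Lab → ℝ) (x : J → Bool) (a : Lab)
    (o : Option (Fin (2 * Fintype.card J) × Lab)) : ℝ :=
  o.elim 0 fun ia => fixVal ia a - p x (some a)

def target {J Lab : Type*} [Fintype J] [DecidableEq Lab] (c : Sites J Lab) (x : J → Bool) (a : Lab) :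
    ℤ :=
  (c x).elim 0 fun ia => if a = ia.2 then 2 ^ (2 * Fintype.card J - (ia.1.1 + 1)) else 0

/-- The properties of a good random choice of reserved sites. -/
structure GoodSites (B : Blk J) {Lab : Type*} [Fintype Lab] [DecidableEq Lab] {G : ℕ}
    (T : Fin G → Finset J) (N : RoundNum B (Fintype.card Lab) G)
    (p : (J → Bool) → Option Lab → ℝ) (wgt : (J → Bool) → ℝ) (c : Sites J Lab) : Prop where
  sees : ∀ ia, ¬ B.FrameBad N.ρ (univ.filter fun x => decide (c x = some ia) = true)
  clean : ∀ y, ∃ g, ∀ z ∈ (Zs (T g)).erase (fun _ => false), c (flipBy y z) = none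
  small : ∀ a x, |B.proj (fun z => corr p z a (c z)) x| ≤ N.ε0
  mass : ∑ x, wgt x * (if c x ≠ none then 1 else 0) ≤
    8 * (2 * (Fintype.card J : ℝ) * Fintype.card Lab * N.ρ)

theorem exists_sites (B : Blk J) {Lab : Type*} [Fintype Lab] [DecidableEq Lab] {G : ℕ}
    (T : Fin G → Finset J) (hT : ∀ g, T g ∈ B.TT)
    (hd : ∀ g g', g ≠ g' → Disjoint (T g) (T g'))
    (N : RoundNum B (Fintype.card Lab) G)
    (p : (J → Bool) → Option Lab → ℝ) (hp : ∀ x b, N.lam ≤ p x b) (hp1 : ∀ x, ∑ b, p x b = 1)
    (hperp : ∀ b, B.Perp fun x => p x b)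
    (wgt : (J → Bool) → ℝ) (hw0 : ∀ x, 0 ≤ wgt x) (hw1 : ∑ x, wgt x = 1) :
    ∃ c : Sites J Lab, GoodSites B T N p wgt c := by
  classical
  set n := Fintype.card J with hn
  set Bt := 2 * n with hBt
  set Lc : ℝ := (Fintype.card Lab : ℝ) with hLc
  set β : ℝ := 2 * (n : ℝ) * Lc * N.ρ with hβ
  have Lc0 : 0 ≤ Lc := Nat.cast_nonneg _
  have β0 : 0 ≤ β := by have := N.ρ_pos; positivity
  have β1 : β ≤ 1 := N.beta_le
  have lam0 : 0 < N.lam := by
    refine lt_of_lt_of_le ?_ N.numH
    have := N.ε0_pos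
    positivity
  let P : PW (J → Bool) (Option (Fin Bt × Lab)) :=
    { w := fun _ o => o.elim (1 - β) fun _ => N.ρ
      nonneg := fun _ o => by cases o <;> simp [β1, N.ρ_pos.le]
      sum_one := fun _ => by
        simp [Fintype.sum_option, hβ, hBt, Lc, n] }
  let fixv : Fin Bt × Lab → Lab → ℝ := fun ia a => fixVal ia a
  let φ : (J → Bool) → Lab → Option (Fin Bt × Lab) → ℝ := fun x a o => corr p x a o
  let mu : (J → Bool) → Lab → ℝ := fun x a => ∑ o, P.w x o * φ x a o
  have hp01 : ∀ x b, 0 ≤ p x b ∧ p x b ≤ 1 := fun x b =>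
    ⟨le_trans lam0.le (hp x b), (hp1 x) ▸ single_le_sum (f := p x)
      (fun b _ => le_trans lam0.le (hp x b)) (mem_univ b)⟩
  have hφ1 : ∀ x a o, |φ x a o| ≤ 1 := by
    intro x a o
    cases o with
    | none => simp [φ, corr]
    | some ia =>
      simp only [φ, corr, Option.elim, fixVal]
      obtain ⟨a1, a2⟩ := hp01 x (some a)
      have h1 : (1/2:ℝ) ^ (ia.1.1 + 1) ≤ 1 := pow_le_one₀ (by norm_num) (by norm_num)
      have h2 : (0:ℝ) ≤ (1/2:ℝ) ^ (ia.1.1 + 1) := by positivity
      rw [abs_le]; split_ifs <;> constructor <;> linarith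
  have hmu : ∀ x a, ∑ z, B.ker x z * mu z a = 0 := by
    intro x a
    have e : ∀ z, mu z a = (∑ i : Fin Bt, N.ρ * (1/2:ℝ) ^ (i.1 + 1)) - β * p z (some a) := by
      intro z
      simp only [mu, φ, corr, fixVal, P, Fintype.sum_option, Option.elim, mul_zero, zero_add]
      rw [Fintype.sum_prod_type]
      simp only [mul_sub, mul_ite, mul_zero, sum_sub_distrib, sum_ite_eq, mem_univ, if_true,
        sum_const, card_univ, Fintype.card_fin, nsmul_eq_mul]
      simp only [hβ, hBt, Lc]
      push_cast; ring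
    have hP : B.Perp fun z => mu z a := by
      simp only [e]
      exact B.perp_sub (B.perp_const _) (B.perp_smul _ (hperp (some a)))
    rw [← B.proj_eq_ker (fun z => mu z a) x]
    refine sum_eq_zero fun S hS => ?_
    rw [(B.perp_iff_hat.1 hP) S hS, zero_mul]
  let dA : ((J → Bool) → Option (Fin Bt × Lab)) → Lab → (J → Bool) → ℝ :=
    fun c a => B.proj fun z => φ z a (c z)
  have hoeff : ∀ x a, ∀ s : ℝ, s ^ 2 = 1 →
      P.pr (fun c => N.ε0 ≤ s * dA c a x) ≤ Real.exp (-(N.ε0 ^ 2 / (8 * B.dens))) := by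
    intro x a s hs
    have d0 : 0 < B.dens := N.stage.dens_pos
    set t := N.ε0 / (4 * B.dens) with ht
    have t0 : 0 < t := div_pos N.ε0_pos (by linarith)
    have e : ∀ c : (J → Bool) → Option (Fin Bt × Lab),
        t * (s * dA c a x) = ∑ z, t * s * B.ker x z * (φ z a (c z) - mu z a) := by
      intro c
      simp only [dA, B.proj_eq_ker, mul_sub, sum_sub_distrib]
      have h0 : ∑ z, t * s * B.ker x z * mu z a = 0 := by
        calc ∑ z, t * s * B.ker x z * mu z a = t * s * ∑ z, B.ker x z * mu z a := by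
              rw [mul_sum]; exact sum_congr rfl fun z _ => by ring
          _ = 0 := by rw [hmu, mul_zero]
      rw [h0, sub_zero, mul_sum, mul_sum]
      exact sum_congr rfl fun z _ => by ring
    refine le_trans (P.pr_mono (q := fun c => t * N.ε0 ≤ ∑ z, t * s * B.ker x z * (φ z a (c z) - mu z a))
      fun c hc => by rw [← e]; exact mul_le_mul_of_nonneg_left hc t0.le) ?_
    refine le_trans (P.pr_exp_bound _ _ (2 * t ^ 2 * B.dens) ?_) (Real.exp_le_exp.2 (le_of_eq ?_))
    · simp only [Real.exp_sum]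
      rw [P.E_prod fun z o => Real.exp (t * s * B.ker x z * (φ z a o - mu z a))]
      refine le_trans (prod_le_prod (fun z _ => sum_nonneg fun o _ =>
        mul_nonneg (P.nonneg z o) (Real.exp_pos _).le) fun z _ => hoeff_one _ _ (P.nonneg z) (P.sum_one z)
        (by
          calc ∑ o, P.w z o * (t * s * B.ker x z * (φ z a o - mu z a))
              = t * s * B.ker x z * (∑ o, P.w z o * φ z a o - (∑ o, P.w z o) * mu z a) := by
                rw [sum_mul, ← sum_sub_distrib, mul_sum]
                exact sum_congr rfl fun o _ => by ring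
            _ = 0 := by rw [P.sum_one, one_mul, sub_self, mul_zero])
        (b := 2 * t * |B.ker x z|) fun o => ?_) ?_
      · have hs1 : |s| = 1 := by rw [← abs_one, ← sq_eq_sq_iff_abs_eq_abs]; simpa using hs
        have hm : |mu z a| ≤ 1 := by
          refine le_trans (abs_sum_le_sum_abs _ _) ?_
          rw [← P.sum_one z]
          refine sum_le_sum fun o _ => ?_
          rw [abs_mul, abs_of_nonneg (P.nonneg z o)]
          exact mul_le_of_le_one_right (P.nonneg z o) (hφ1 z a o)
        have hd2 : |φ z a o - mu z a| ≤ 2 :=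
          le_trans (abs_sub _ _) (by linarith [hφ1 z a o])
        rw [abs_mul, abs_mul, abs_mul, hs1, abs_of_pos t0]
        calc t * 1 * |B.ker x z| * |φ z a o - mu z a| ≤ t * 1 * |B.ker x z| * 2 :=
              mul_le_mul_of_nonneg_left hd2 (by positivity)
          _ = _ := by ring
      · rw [← Real.exp_sum]
        apply Real.exp_le_exp.2
        rw [← B.ker_sq x, mul_sum]
        exact le_of_eq (sum_congr rfl fun z _ => by rw [mul_pow, sq_abs]; ring)
    · rw [ht]; field_simp; ring
  let Wall : ((J → Bool) → Option (Fin Bt × Lab)) → Finset (J → Bool) :=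
    fun c => univ.filter fun x => c x ≠ none
  let Wia : ((J → Bool) → Option (Fin Bt × Lab)) → Fin Bt × Lab → Finset (J → Bool) :=
    fun c ia => univ.filter fun x => decide (c x = some ia) = true
  let bad1 : ((J → Bool) → Option (Fin Bt × Lab)) → Prop := fun c =>
    ∃ ia ∈ (univ : Finset (Fin Bt × Lab)), B.FrameBad N.ρ (Wia c ia)
  let bad2 : ((J → Bool) → Option (Fin Bt × Lab)) → Prop := fun c =>
    ∃ y ∈ (univ : Finset (J → Bool)), ∃ f ∈ Fintype.piFinset
      (fun g => (Zs (T g)).erase fun _ => false), ∀ g, c (flipBy y (f g)) ≠ none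
  let bad3 : ((J → Bool) → Option (Fin Bt × Lab)) → Prop := fun c =>
    ∃ xa ∈ (univ : Finset ((J → Bool) × Lab)), ∃ s ∈ ({1, -1} : Finset ℝ), N.ε0 ≤ s * dA c xa.2 xa.1
  let bad4 : ((J → Bool) → Option (Fin Bt × Lab)) → Prop := fun c =>
    8 * β < ∑ x, wgt x * if c x ≠ none then 1 else 0
  have hwne : ∀ x, ∑ o, P.w x o * (if o ≠ none then 1 else 0) = β := by
    intro x
    simp [P, Fintype.sum_option, hβ, hBt, Lc, n]
  have p1 : P.pr bad1 ≤ 1/8 := by
    refine le_trans (P.pr_exists _ _) (le_trans (sum_le_card_nsmul _ _ _ fun ia _ =>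
      B.frame_bad_pr P (fun o => decide (o = some ia)) (ρ := N.ρ) (fun x => ?_) N.stage.n_big) ?_)
    · simp [P, Fintype.sum_option]
    · rw [nsmul_eq_mul, card_univ, Fintype.card_prod, Fintype.card_fin]
      refine le_trans (le_of_eq ?_) N.numG
      simp only [hBt, n]; push_cast; ring
  have p2 : P.pr bad2 ≤ 1/8 := by
    refine le_trans (P.pr_exists _ _) (le_trans (sum_le_card_nsmul _ _ _ fun y _ =>
      le_trans (P.pr_exists _ _) (sum_le_card_nsmul _ _ (β ^ G) fun f hf => ?_)) ?_)
    · set S := univ.image fun g => flipBy y (f g) with hS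
      have hinj : Function.Injective fun g => flipBy y (f g) := by
        intro g g' h
        by_contra hne
        have he : f g = f g' := by
          have h' := congrArg (flipBy y) h
          simpa [flipBy_cancel] using h'
        have h1 := Fintype.mem_piFinset.1 hf g
        have h2 := Fintype.mem_piFinset.1 hf g'
        refine (mem_erase.1 h1).1 (funext fun i => ?_)
        by_cases hi : i ∈ T g
        · rw [he]; exact mem_Zs.1 (mem_erase.1 h2).2 i (disjoint_left.1 (hd g g' hne) hi)
        · exact mem_Zs.1 (mem_erase.1 h1).2 i hi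
      refine le_trans (P.pr_mono (q := fun c => ∀ z ∈ S, c z ≠ none) fun c hc z hz => ?_) ?_
      · obtain ⟨g, -, rfl⟩ := mem_image.1 hz; exact hc g
      have e : ∀ c : (J → Bool) → Option (Fin Bt × Lab), (if (∀ z ∈ S, c z ≠ none) then (1:ℝ) else 0) =
          ∏ z, if z ∈ S then (if c z ≠ none then 1 else 0) else 1 := by
        intro c
        rw [prod_ite_mem, univ_inter, prod_boole]
        congr
      unfold PW.pr
      refine le_trans (le_of_eq ?_) (le_of_eq (show β ^ S.card = β ^ G by
        rw [hS, card_image_of_injective _ hinj]; simp))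
      refine (congrArg P.E (funext fun c => (?_ : _ =
        ∏ z, if z ∈ S then (if c z ≠ none then (1:ℝ) else 0) else 1))).trans ?_
      · rw [← e c]; congr
      rw [P.E_prod fun z o => if z ∈ S then (if o ≠ none then (1:ℝ) else 0) else 1]
      rw [← prod_const, ← univ_inter S, ← prod_ite_mem univ S]
      refine prod_congr rfl fun z _ => ?_
      by_cases hz : z ∈ S
      · simp only [univ_inter, hz, if_true]; exact hwne z
      · simp only [univ_inter, hz, if_false, mul_one]; exact P.sum_one z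
    · rw [nsmul_eq_mul, card_univ, card_cube]
      refine le_trans (mul_le_mul_of_nonneg_left ?_ Nc_pos.le) N.numF
      rw [nsmul_eq_mul]
      show _ ≤ ((2:ℝ) ^ B.bb * β) ^ G
      rw [mul_pow ((2:ℝ) ^ B.bb) β]
      refine mul_le_mul_of_nonneg_right ?_ (pow_nonneg β0 _)
      rw [Fintype.card_piFinset]
      push_cast
      calc ∏ g, (((Zs (T g)).erase fun _ => false).card : ℝ) ≤ ∏ _g : Fin G, (2:ℝ) ^ B.bb := by
            refine prod_le_prod (fun g _ => Nat.cast_nonneg _) fun g _ => ?_
            refine le_trans (Nat.cast_le.2 card_erase_le) ?_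
            rw [card_Zs]; push_cast
            exact pow_le_pow_right₀ one_le_two (B.size _ (hT g))
        _ = _ := by simp
  have p3 : P.pr bad3 ≤ 1/8 := by
    refine le_trans (P.pr_exists _ _) (le_trans (sum_le_card_nsmul _ _ _ fun xa _ =>
      le_trans (P.pr_exists _ _) (sum_le_card_nsmul _ _ _ fun s hs =>
        hoeff xa.1 xa.2 s (by rcases mem_insert.1 hs with rfl | h
                              · norm_num
                              · rw [mem_singleton.1 h]; norm_num))) ?_)
    rw [nsmul_eq_mul, card_pair (by norm_num : (1:ℝ) ≠ -1), nsmul_eq_mul, card_univ,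
      Fintype.card_prod, Nat.cast_mul, card_cube]
    refine le_trans (le_of_eq ?_) N.numE
    simp only [Nc]; push_cast; ring
  have p4 : P.pr bad4 ≤ 1/8 := by
    rcases eq_or_lt_of_le β0 with h | h
    · refine le_trans (le_of_eq ?_) (by norm_num : (0:ℝ) ≤ 1/8)
      have hE : P.E (fun c => ∑ x, wgt x * if c x ≠ none then (1:ℝ) else 0) = 0 := by
        simp only [P.E_sum, P.E_smul]
        refine sum_eq_zero fun x _ => ?_
        rw [P.E_single x (fun o => if o ≠ none then (1:ℝ) else 0), hwne, ← h, mul_zero]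
      refine le_antisymm ?_ (P.pr_nonneg _)
      refine le_of_forall_pos_le_add fun e he => ?_
      unfold PW.pr
      have hle : ∀ c, (if bad4 c then (1:ℝ) else 0) ≤ if bad4 c then (1:ℝ) else 0 := fun c => le_rfl
      by_cases hex : ∃ c, bad4 c ∧ P.wt c ≠ 0
      · obtain ⟨c, hc, hwt⟩ := hex
        exfalso
        have hnn : ∀ c : (J → Bool) → Option (Fin Bt × Lab),
            0 ≤ P.wt c * ∑ x, wgt x * if c x ≠ none then (1:ℝ) else 0 := fun c =>
          mul_nonneg (P.wt_nonneg c) (sum_nonneg fun x _ => mul_nonneg (hw0 x) (by split_ifs <;> norm_num))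
        have hz := (sum_eq_zero_iff_of_nonneg fun c _ => hnn c).1 hE c (mem_univ _)
        rcases mul_eq_zero.1 hz with h1 | h1
        · exact hwt h1
        · simp only [bad4] at hc; linarith
      · push Not at hex
        rw [zero_add]
        refine le_trans (le_of_eq (sum_eq_zero fun c _ => ?_)) he.le
        by_cases hc : bad4 c
        · simp [hex c hc]
        · simp [hc]
    · refine le_trans (P.pr_mono (q := fun c => 8 * β ≤ ∑ x, wgt x * if c x ≠ none then 1 else 0)
        fun c hc => le_of_lt hc) ?_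
      refine le_trans (P.markov (fun c => sum_nonneg fun x _ =>
        mul_nonneg (hw0 x) (by split_ifs <;> norm_num)) (by linarith)) ?_
      simp only [P.E_sum, P.E_smul]
      rw [sum_congr rfl fun x _ => by rw [P.E_single x (fun o => if o ≠ none then (1:ℝ) else 0), hwne],
        ← sum_mul, hw1, one_mul, div_le_iff₀ (by linarith)]
      linarith
  obtain ⟨c, hc⟩ := P.exists_not (p := fun c => ((bad1 c ∨ bad2 c) ∨ bad3 c) ∨ bad4 c) (by
    have := P.pr_or (fun c => (bad1 c ∨ bad2 c) ∨ bad3 c) bad4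
    have := P.pr_or (fun c => bad1 c ∨ bad2 c) bad3
    have := P.pr_or bad1 bad2
    linarith)
  simp only [bad1, bad2, bad3, bad4, not_or, not_exists, not_and, not_lt, not_le] at hc
  obtain ⟨⟨⟨hb1, hb2⟩, hb3⟩, hb4⟩ := hc
  have hclean : ∀ y, ∃ g, ∀ z ∈ (Zs (T g)).erase (fun _ => false), c (flipBy y z) = none := by
    intro y
    by_contra hcon
    push Not at hcon
    choose f hf1 hf2 using hcon
    exact hb2 y (mem_univ _) f (Fintype.mem_piFinset.2 hf1) hf2
  refine ⟨c, ⟨fun ia => hb1 ia (mem_univ _), hclean, fun a x => ?_, hb4⟩⟩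
  have h1 := hb3 (x, a) (mem_univ _) 1 (by simp)
  have h2 := hb3 (x, a) (mem_univ _) (-1) (by simp)
  simp only [dA, φ] at h1 h2
  rw [abs_le]; constructor <;> linarith

theorem exists_int_table (B : Blk J) {Lab : Type*} [Fintype Lab] [DecidableEq Lab] {G : ℕ}
    (T : Fin G → Finset J) (hT : ∀ g, T g ∈ B.TT)
    (N : RoundNum B (Fintype.card Lab) G)
    (p : (J → Bool) → Option Lab → ℝ) (hperp : ∀ b, B.Perp fun x => p x b)
    (wgt : (J → Bool) → ℝ) (c : Sites J Lab) (hgood : GoodSites B T N p wgt c) :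
    ∃ Q : Lab → (J → Bool) → ℤ, (∀ a, B.Perp fun x => (Q a x : ℝ)) ∧
      (∀ a x, c x ≠ none → Q a x = target c x a) ∧
      ∀ a x, c x = none → |(Q a x : ℝ) - (2:ℝ) ^ (2 * Fintype.card J) * p x (some a)| ≤
        (2:ℝ) ^ (2 * Fintype.card J) * (((G:ℝ) + 1) * (N.ε0 + (1/2:ℝ) ^ Fintype.card J)) := by
  classical
  set n := Fintype.card J with hn
  set Bt := 2 * n with hBt
  let φ : (J → Bool) → Lab → Option (Fin Bt × Lab) → ℝ := fun x a o => corr p x a o
  let dA : Sites J Lab → Lab → (J → Bool) → ℝ := fun c a => B.proj fun z => φ z a (c z)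
  let Wall : Sites J Lab → Finset (J → Bool) := fun c => univ.filter fun x => c x ≠ none
  have hclean := hgood.clean
  choose gf hgf using hclean
  let p1 : Lab → (J → Bool) → ℝ := fun a x => p x (some a) + φ x a (c x) - dA c a x
  have hp1perp : ∀ a, B.Perp (p1 a) := fun a => by
    have := B.perp_add (hperp (some a)) (B.perp_sub_proj fun z => φ z a (c z))
    simpa [p1, dA, add_sub_assoc] using this
  choose cs hcs using fun (S : Finset J) (x : J → Bool) => StageData.chi_int S x
  let K : ℝ := (2:ℝ) ^ Bt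
  let Q1 : Lab → (J → Bool) → ℤ := fun a x => ∑ S, ⌊K * hat (p1 a) S⌋ * cs S x
  have hQ1R : ∀ a x, (Q1 a x : ℝ) = ∑ S, (⌊K * hat (p1 a) S⌋ : ℝ) * chi S x := fun a x => by
    simp [Q1, hcs]
  have hQ1perp : ∀ a, B.Perp fun x => (Q1 a x : ℝ) := by
    intro a S hS
    simp only [hQ1R, sum_mul, mul_assoc]
    rw [sum_comm]
    refine sum_eq_zero fun S' _ => ?_
    rw [← mul_sum, orth]
    by_cases h : S' = S
    · subst h
      rw [(B.perp_iff_hat.1 (hp1perp a)) S' hS, mul_zero, Int.floor_zero]
      simp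
    · rw [if_neg h, mul_zero]
  have hQ1err : ∀ a x, |(Q1 a x : ℝ) - K * p1 a x| ≤ (2:ℝ) ^ n := by
    intro a x
    rw [hQ1R, ← inversion (p1 a) x, mul_sum, ← sum_sub_distrib]
    refine le_trans (abs_sum_le_sum_abs _ _) (le_trans (sum_le_card_nsmul _ _ 1 fun S _ => ?_) ?_)
    · rw [← mul_assoc, ← sub_mul, abs_mul, abs_chi, mul_one, abs_le]
      constructor <;> linarith [Int.floor_le (K * hat (p1 a) S), Int.lt_floor_add_one (K * hat (p1 a) S)]
    · simp [n]
  let fq : Fin Bt × Lab → Lab → ℕ := fun ia a => if a = ia.2 then 2 ^ (Bt - (ia.1.1 + 1)) else 0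
  let fqo : (J → Bool) → Lab → ℤ := fun x a => target c x a
  have hfqo : ∀ x a, fqo x a = (c x).elim 0 fun ia => (fq ia a : ℤ) := fun x a => by
    simp only [fqo, target]
    cases c x <;> simp [fq, hBt, hn]
  have hfq : ∀ ia a, (fq ia a : ℝ) = K * fixVal ia a := by
    intro ia a
    simp only [fq, fixVal]
    split_ifs
    · have h : ia.1.1 + 1 ≤ Bt := ia.1.2
      simp only [K]
      push_cast
      rw [one_div, inv_pow, pow_sub₀ _ (by norm_num : (2:ℝ) ≠ 0) h]
    · simp
  let Rr : Lab → (J → Bool) → ℤ := fun a y => fqo y a - Q1 a y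
  let near : (J → Bool) → (J → Bool) → Prop := fun x y => flipBy x y ∈ Zs (T (gf y))
  let Q : Lab → (J → Bool) → ℤ := fun a x =>
    Q1 a x + ∑ y ∈ Wall c, if near x y then Rr a y else 0
  have hself : ∀ x : J → Bool, flipBy x x = fun _ => false := fun x => by funext i; simp [flipBy]
  have hnear_self : ∀ x, near x x := fun x => by
    simp only [near, hself]; exact mem_Zs.2 fun i _ => rfl
  have hnear_res : ∀ x ∈ Wall c, ∀ y ∈ Wall c, near x y → y = x := by
    intro x hx y hy hn'
    by_contra hne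
    have hz : flipBy x y ≠ fun _ => false := by
      intro h
      apply hne
      funext i
      have := congrFun h i
      revert this
      simp only [flipBy]; cases x i <;> cases y i <;> simp
    have h := hgf y _ (mem_erase.2 ⟨hz, hn'⟩)
    rw [flipBy_comm x y, flipBy_cancel] at h
    exact (mem_filter.1 hx).2 h
  have hQW : ∀ a, ∀ x ∈ Wall c, Q a x = fqo x a := by
    intro a x hx
    simp only [Q]
    rw [sum_eq_single x]
    · rw [if_pos (hnear_self x)]; simp [Rr]
    · intro y hy hne; rw [if_neg fun h => hne (hnear_res x hx y hy h)]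
    · intro h; exact absurd hx h
  have hcount : ∀ x, ((Wall c).filter fun y => near x y).card ≤ G := by
    intro x
    refine le_trans (card_le_card_of_injOn gf (t := univ) (fun y _ => mem_univ _) ?_) (by simp)
    intro y hy y' hy' he
    obtain ⟨hyW, hyn⟩ := mem_filter.1 hy
    obtain ⟨hyW', hyn'⟩ := mem_filter.1 hy'
    by_contra hne
    have hz : flipBy y y' ∈ Zs (T (gf y)) := by
      have : flipBy y y' = flipBy (flipBy x y) (flipBy x y') := by
        funext i; simp [flipBy]; cases x i <;> cases y i <;> cases y' i <;> rfl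
      rw [this]
      refine flipBy_mem_Zs hyn ?_
      rw [he]; exact hyn'
    have hz0 : flipBy y y' ≠ fun _ => false := by
      intro h
      apply hne
      funext i
      have := congrFun h i
      revert this
      simp only [flipBy]; cases y i <;> cases y' i <;> simp
    have h := hgf y _ (mem_erase.2 ⟨hz0, hz⟩)
    rw [flipBy_cancel] at h
    exact (mem_filter.1 hyW').2 h
  have hdA : ∀ a x, |dA c a x| ≤ N.ε0 := hgood.small
  have hRr : ∀ a, ∀ y ∈ Wall c, |(Rr a y : ℝ)| ≤ K * N.ε0 + 2 ^ n := by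
    intro a y hy
    obtain ⟨ia, hia⟩ := Option.ne_none_iff_exists'.1 (mem_filter.1 hy).2
    have e : K * p1 a y = (fqo y a : ℝ) - K * dA c a y := by
      simp only [p1, φ, corr, hfqo, hia, Option.elim, Int.cast_natCast, hfq]; ring
    have h1 := hQ1err a y
    rw [e] at h1
    have h2 : |K * dA c a y| ≤ K * N.ε0 := by
      rw [abs_mul, abs_of_pos (by positivity : (0:ℝ) < K)]
      exact mul_le_mul_of_nonneg_left (hdA a y) (by positivity)
    simp only [Rr]
    push_cast
    rw [abs_le] at h1 h2 ⊢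
    constructor <;> linarith
  set ε1 : ℝ := ((G:ℝ) + 1) * (N.ε0 + (1/2:ℝ) ^ n) with hε1
  have hQoff : ∀ a x, c x = none → |(Q a x : ℝ) - K * p x (some a)| ≤ K * ε1 := by
    intro a x hx
    have h1 := hQ1err a x
    have e : K * p1 a x = K * p x (some a) - K * dA c a x := by
      simp [p1, φ, corr, hx]; ring
    rw [e] at h1
    have h2 : |K * dA c a x| ≤ K * N.ε0 := by
      rw [abs_mul, abs_of_pos (by positivity : (0:ℝ) < K)]
      exact mul_le_mul_of_nonneg_left (hdA a x) (by positivity)
    have h3 : |((∑ y ∈ Wall c, if near x y then Rr a y else 0 : ℤ) : ℝ)| ≤ G * (K * N.ε0 + 2 ^ n) := by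
      rw [← sum_filter]
      push_cast
      refine le_trans (abs_sum_le_sum_abs _ _) (le_trans (sum_le_card_nsmul _ _ _ fun y hy =>
        hRr a y (mem_filter.1 hy).1) ?_)
      rw [nsmul_eq_mul]
      exact mul_le_mul_of_nonneg_right (Nat.cast_le.2 (hcount x)) (by have := N.ε0_pos; positivity)
    have hk : K * ε1 = ((G:ℝ) + 1) * (K * N.ε0 + 2 ^ n) := by
      have : K * (1/2:ℝ) ^ n = 2 ^ n := by
        simp only [K, hBt]; rw [two_mul n, pow_add, mul_assoc, ← mul_pow]; norm_num
      rw [hε1, ← this]; ring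
    rw [hk]
    simp only [Q, Int.cast_add]
    rw [abs_le] at h1 h2 h3 ⊢
    constructor <;> linarith
  have hQperp : ∀ a, B.Perp fun x => (Q a x : ℝ) := by
    intro a
    have : (fun x => (Q a x : ℝ)) =
        fun x => (Q1 a x : ℝ) + ∑ y ∈ Wall c, if near x y then (Rr a y : ℝ) else 0 := by
      funext x; simp [Q, apply_ite (Int.cast : ℤ → ℝ)]
    rw [this]
    refine B.perp_add (hQ1perp a) (B.perp_sum _ fun y _ => B.perp_invariant (hT (gf y)) fun x z hz => ?_)
    have hiff : near (flipBy x z) y ↔ near x y := by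
      have e : flipBy (flipBy x z) y = flipBy (flipBy x y) z := by
        funext i; simp [flipBy]; cases x i <;> cases y i <;> cases z i <;> rfl
      simp only [near, e]
      constructor
      · intro h
        have := flipBy_mem_Zs h hz
        rwa [flipBy_assoc, hself, show flipBy (flipBy x y) (fun _ => false) = flipBy x y by
          funext i; simp [flipBy]] at this
      · exact fun h => flipBy_mem_Zs h hz
    simp only [hiff]
  exact ⟨Q, hQperp, fun a x h => hQW a x (mem_filter.2 ⟨mem_univ _, h⟩), hQoff⟩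

theorem exists_start_table (B : Blk J) {Lab : Type*} [Fintype Lab] [DecidableEq Lab] {G : ℕ}
    (N : RoundNum B (Fintype.card Lab) G)
    (p : (J → Bool) → Option Lab → ℝ) (hp : ∀ x b, N.lam ≤ p x b) (hp1 : ∀ x, ∑ b, p x b = 1)
    (c : Sites J Lab) (Q : Lab → (J → Bool) → ℤ) (hQperp : ∀ a, B.Perp fun x => (Q a x : ℝ))
    (hQW : ∀ a x, c x ≠ none → Q a x = target c x a)
    (hQoff : ∀ a x, c x = none → |(Q a x : ℝ) - (2:ℝ) ^ (2 * Fintype.card J) * p x (some a)| ≤
      (2:ℝ) ^ (2 * Fintype.card J) * (((G:ℝ) + 1) * (N.ε0 + (1/2:ℝ) ^ Fintype.card J)))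
    (cost : (J → Bool) → Option Lab → ℝ) {cmax : ℝ} (hc0 : ∀ x b, 0 ≤ cost x b)
    (hc1 : ∀ x b, cost x b ≤ cmax) :
    ∃ q0 : (J → Bool) → Option Lab → ℕ, (∀ x, ∑ b, q0 x b = 2 ^ (2 * Fintype.card J)) ∧
      (∀ b, B.Perp fun x => (q0 x b : ℝ)) ∧
      (∀ x ia, c x = some ia → ∀ b, q0 x b = b.elim
        (2 ^ (2 * Fintype.card J) - 2 ^ (2 * Fintype.card J - (ia.1.1 + 1)))
        fun a => if a = ia.2 then 2 ^ (2 * Fintype.card J - (ia.1.1 + 1)) else 0) ∧
      ∀ x, ∑ b, (q0 x b : ℝ) * cost x b / (2:ℝ) ^ (2 * Fintype.card J) ≤ ∑ b, p x b * cost x b +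
        ((Fintype.card Lab : ℝ) + 1) * N.lam * cmax + cmax * (if c x ≠ none then 1 else 0) := by
  classical
  set n := Fintype.card J with hn
  set Bt := 2 * n with hBt
  set Lc : ℝ := (Fintype.card Lab : ℝ) with hLc
  have Lc0 : 0 ≤ Lc := Nat.cast_nonneg _
  let K : ℝ := (2:ℝ) ^ Bt
  set ε1 : ℝ := ((G:ℝ) + 1) * (N.ε0 + (1/2:ℝ) ^ n) with hε1
  let fq : Fin Bt × Lab → Lab → ℕ := fun ia a => if a = ia.2 then 2 ^ (Bt - (ia.1.1 + 1)) else 0
  have hcm : 0 ≤ cmax := le_trans (hc0 (fun _ => false) none) (hc1 _ none)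
  have lam0 : 0 < N.lam := by
    refine lt_of_lt_of_le ?_ N.numH
    have := N.ε0_pos
    positivity
  have hp01 : ∀ x b, 0 ≤ p x b ∧ p x b ≤ 1 := fun x b =>
    ⟨le_trans lam0.le (hp x b), (hp1 x) ▸ single_le_sum (f := p x)
      (fun b _ => le_trans lam0.le (hp x b)) (mem_univ b)⟩
  have hKL : Lc * ε1 + ε1 ≤ N.lam := by
    have := N.numH
    linarith
  have hε10 : 0 ≤ ε1 := by have := N.ε0_pos; positivity
  have K0 : 0 < K := by positivity
  have hQnn : ∀ a x, 0 ≤ Q a x := by
    intro a x
    rcases Option.eq_none_or_eq_some (c x) with h | ⟨ia, h⟩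
    · have := abs_le.1 (hQoff a x h)
      have hl := hp x (some a)
      have : (0:ℝ) ≤ (Q a x : ℝ) := by
        nlinarith [mul_le_mul_of_nonneg_left hl K0.le, mul_le_mul_of_nonneg_left hKL K0.le,
          mul_nonneg (mul_nonneg K0.le Lc0) hε10]
      exact_mod_cast this
    · rw [hQW a x (by simp [h])]
      simp only [target, h, Option.elim]
      split_ifs <;> positivity
  have hQle : ∀ x, ∑ a, Q a x ≤ 2 ^ Bt := by
    intro x
    rcases Option.eq_none_or_eq_some (c x) with h | ⟨ia, h⟩
    · have h1 : ((∑ a, Q a x : ℤ) : ℝ) ≤ K := by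
        push_cast
        calc ∑ a, (Q a x : ℝ) ≤ ∑ a, (K * p x (some a) + K * ε1) :=
              sum_le_sum fun a _ => by linarith [(abs_le.1 (hQoff a x h)).2]
          _ = K * (1 - p x none) + K * (Lc * ε1) := by
              rw [sum_add_distrib, ← mul_sum, sum_const, card_univ, nsmul_eq_mul]
              have := hp1 x
              rw [Fintype.sum_option] at this
              rw [show ∑ a, p x (some a) = 1 - p x none by linarith]; ring
          _ ≤ K := by nlinarith [hp x none, mul_le_mul_of_nonneg_left hKL K0.le]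
      simp only [K] at h1
      exact_mod_cast h1
    · rw [sum_congr rfl fun a _ => hQW a x (by simp [h])]
      have e0 : ∀ a, target c x a = if a = ia.2 then 2 ^ (2 * Fintype.card J - (ia.1.1 + 1)) else 0 := fun a => by
        unfold target; rw [h]; rfl
      simp only [e0]
      rw [sum_eq_single ia.2]
      · rw [if_pos rfl]; push_cast
        exact pow_le_pow_right₀ (by norm_num) (Nat.sub_le _ _)
      · intro b _ hb; simp [hb]
      · simp
  let q0 : (J → Bool) → Option Lab → ℕ := fun x b =>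
    b.elim ((2:ℤ) ^ Bt - ∑ a, Q a x).toNat fun a => (Q a x).toNat
  have hq0s : ∀ x a, (q0 x (some a) : ℤ) = Q a x := fun x a => Int.toNat_of_nonneg (hQnn a x)
  have hq0n : ∀ x, (q0 x none : ℤ) = 2 ^ Bt - ∑ a, Q a x := fun x =>
    Int.toNat_of_nonneg (sub_nonneg.2 (hQle x))
  have hsum0 : ∀ x, ∑ b, q0 x b = 2 ^ Bt := by
    intro x
    have : ((∑ b, q0 x b : ℕ) : ℤ) = ((2 ^ Bt : ℕ) : ℤ) := by
      push_cast [Fintype.sum_option, hq0n, hq0s]; ring
    exact_mod_cast this
  refine ⟨q0, hsum0, fun b => ?_, fun x ia h b => ?_, fun x => ?_⟩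
  ·
    cases b with
    | some a =>
        have : (fun x => (q0 x (some a) : ℝ)) = fun x => (Q a x : ℝ) := funext fun x => by
          exact_mod_cast hq0s x a
        rw [this]; exact hQperp a
    | none =>
        have : (fun x => (q0 x none : ℝ)) = fun x => K - ∑ a, (Q a x : ℝ) := funext fun x => by
          have h := congrArg (Int.cast : ℤ → ℝ) (hq0n x)
          push_cast at h
          simpa [K] using h
        rw [this]
        exact B.perp_sub (B.perp_const _) (B.perp_sum _ fun a _ => hQperp a)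
  ·
      have hQx : ∀ a, Q a x = (fq ia a : ℤ) := fun a => by rw [hQW a x (by simp [h])]; simp [target, fq, h, hBt, hn]
      cases b with
      | some a =>
        have := hq0s x a
        rw [hQx a] at this
        exact_mod_cast this
      | none =>
        have h1 := hq0n x
        rw [sum_congr rfl fun a _ => hQx a, ← Nat.cast_sum, sum_ite_eq' univ ia.2 (fun _ => _)] at h1
        simp only [mem_univ, if_true] at h1
        simp only [Option.elim]
        have hle : 2 ^ (Bt - (ia.1.1 + 1)) ≤ 2 ^ Bt := Nat.pow_le_pow_right (by norm_num) (Nat.sub_le _ _)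
        have h2 : ((q0 x none : ℕ) : ℤ) = ((2 ^ Bt - 2 ^ (Bt - (ia.1.1 + 1)) : ℕ) : ℤ) := by
          rw [Nat.cast_sub hle, h1]; push_cast; ring
        exact_mod_cast h2
  revert x
  have hpt : ∀ x, ∑ b, (q0 x b : ℝ) * cost x b / K ≤ ∑ b, p x b * cost x b +
      (Lc + 1) * N.lam * cmax + cmax * (if c x ≠ none then 1 else 0) := by
    intro x
    by_cases h : c x = none
    · rw [if_neg (by simp [h]), mul_zero, add_zero]
      have hb : ∀ b, |(q0 x b : ℝ) / K - p x b| ≤ N.lam := by
        intro b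
        rw [div_sub' K0.ne', abs_div, abs_of_pos K0, div_le_iff₀ K0]
        cases b with
        | some a =>
          have e : (q0 x (some a) : ℝ) = (Q a x : ℝ) := by exact_mod_cast hq0s x a
          rw [e]
          refine le_trans (hQoff a x h) ?_
          rw [mul_comm N.lam]
          exact mul_le_mul_of_nonneg_left (by nlinarith) K0.le
        | none =>
          have e : (q0 x none : ℝ) = K - ∑ a, (Q a x : ℝ) := by
            have h := congrArg (Int.cast : ℤ → ℝ) (hq0n x)
            push_cast at h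
            simpa [K] using h
          have hp' := hp1 x
          rw [Fintype.sum_option] at hp'
          have e' : (q0 x none : ℝ) - K * p x none = -∑ a, ((Q a x : ℝ) - K * p x (some a)) := by
            rw [e, sum_sub_distrib, ← mul_sum]
            have : p x none = 1 - ∑ a, p x (some a) := by linarith
            rw [this]; ring
          rw [e', abs_neg]
          refine le_trans (abs_sum_le_sum_abs _ _) (le_trans (sum_le_card_nsmul _ _ _ fun a _ => hQoff a x h) ?_)
          rw [nsmul_eq_mul, card_univ, mul_comm N.lam]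
          nlinarith [mul_le_mul_of_nonneg_left hKL K0.le, mul_nonneg K0.le hε10]
      calc ∑ b, (q0 x b : ℝ) * cost x b / K ≤ ∑ b, (p x b * cost x b + N.lam * cmax) := by
            refine sum_le_sum fun b _ => ?_
            have h1 := (abs_le.1 (hb b)).2
            have h2 := mul_le_mul_of_nonneg_right h1 (hc0 x b)
            have h3 := mul_le_mul_of_nonneg_left (hc1 x b) lam0.le
            rw [mul_div_right_comm]
            linarith
        _ = _ := by
            rw [sum_add_distrib, sum_const, card_univ, Fintype.card_option, nsmul_eq_mul]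
            push_cast; ring
    · rw [if_pos h, mul_one]
      have h1 : ∑ b, (q0 x b : ℝ) * cost x b / K ≤ cmax := by
        rw [← sum_div, div_le_iff₀ K0]
        calc ∑ b, (q0 x b : ℝ) * cost x b ≤ ∑ b, (q0 x b : ℝ) * cmax :=
              sum_le_sum fun b _ => mul_le_mul_of_nonneg_left (hc1 x b) (Nat.cast_nonneg _)
          _ = K * cmax := by
              rw [← sum_mul, ← Nat.cast_sum, hsum0]; simp [K]
          _ = cmax * K := mul_comm _ _
      have h2 : 0 ≤ ∑ b, p x b * cost x b := sum_nonneg fun b _ => mul_nonneg (hp01 x b).1 (hc0 x b)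
      have h3 : 0 ≤ (Lc + 1) * N.lam * cmax := by positivity
      linarith
  exact hpt

/-- **Exact rounding.** -/
theorem exists_rounding (B : Blk J) {Lab : Type*} [Fintype Lab] [DecidableEq Lab] {G : ℕ}
    (T : Fin G → Finset J) (hT : ∀ g, T g ∈ B.TT) (hd : ∀ g g', g ≠ g' → Disjoint (T g) (T g'))
    (N : RoundNum B (Fintype.card Lab) G)
    (p : (J → Bool) → Option Lab → ℝ) (hp : ∀ x b, N.lam ≤ p x b) (hp1 : ∀ x, ∑ b, p x b = 1)
    (hperp : ∀ b, B.Perp fun x => p x b)
    (wgt : (J → Bool) → ℝ) (hw0 : ∀ x, 0 ≤ wgt x) (hw1 : ∑ x, wgt x = 1)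
    (cost : (J → Bool) → Option Lab → ℝ) {cmax : ℝ} (hc0 : ∀ x b, 0 ≤ cost x b)
    (hc1 : ∀ x b, cost x b ≤ cmax) :
    ∃ F : (J → Bool) → Option Lab, (∀ b, B.Perp fun x => if F x = b then (1:ℝ) else 0) ∧
      ∑ x, wgt x * cost x (F x) ≤ ∑ x, wgt x * ∑ b, p x b * cost x b +
        ((Fintype.card Lab : ℝ) + 1) * N.lam * cmax +
        8 * (2 * (Fintype.card J : ℝ) * Fintype.card Lab * N.ρ) * cmax := by
  classical
  obtain ⟨c, hgood⟩ := exists_sites B T hT hd N p hp hp1 hperp wgt hw0 hw1
  obtain ⟨Q, hQperp, hQW, hQoff⟩ := exists_int_table B T hT N p hperp wgt c hgood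
  obtain ⟨q0, hsum0, hq0perp, hq0res, hpt⟩ :=
    exists_start_table B N p hp hp1 c Q hQperp hQW hQoff cost hc0 hc1
  set n := Fintype.card J with hn
  set Bt := 2 * n with hBt
  set Lc : ℝ := (Fintype.card Lab : ℝ) with hLc
  set β : ℝ := 2 * (n : ℝ) * Lc * N.ρ with hβ
  let K : ℝ := (2:ℝ) ^ Bt
  have hcm : 0 ≤ cmax := le_trans (hc0 (fun _ => false) none) (hc1 _ none)
  let Wia : Sites J Lab → Fin Bt × Lab → Finset (J → Bool) :=
    fun c ia => univ.filter fun x => decide (c x = some ia) = true
  have hb4 := hgood.mass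
  let Inv : ℕ → Prop := fun e => ∃ q : (J → Bool) → Option Lab → ℕ,
    (∀ x, ∑ b, q x b = 2 ^ e) ∧ (∀ b, B.Perp fun x => (q x b : ℝ)) ∧
    (∀ x (ia : Fin Bt × Lab), c x = some ia → ia.1.1 < e → ∀ b,
      q x b = b.elim (2 ^ e - 2 ^ (e - (ia.1.1 + 1))) fun a => if a = ia.2 then 2 ^ (e - (ia.1.1 + 1)) else 0) ∧
    (∑ x, wgt x * ∑ b, (q x b : ℝ) * cost x b) / 2 ^ e ≤
      ∑ x, wgt x * ∑ b, (q0 x b : ℝ) * cost x b / K
  have base : Inv Bt := ⟨q0, hsum0, hq0perp, fun x ia h _ b => hq0res x ia h b, by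
    simp only [← sum_div, ← mul_div_assoc]
    exact le_rfl⟩
  have step : ∀ e, e < Bt → Inv (e + 1) → Inv e := by
    rintro e he ⟨q, qs, qp, qr, qc⟩
    let W : Lab → Finset (J → Bool) := fun a => Wia c (⟨e, he⟩, a)
    have hres : ∀ a, ∀ x ∈ W a, ∀ b, Odd (q x b) ↔ b = none ∨ b = some a := by
      intro a x hx b
      have hcx : c x = some (⟨e, he⟩, a) := by simpa [W, Wia] using hx
      have h := qr x _ hcx (Nat.lt_succ_self e) b
      rw [h]
      cases b with
      | none =>
        simp only [Option.elim, Nat.sub_self, pow_zero, true_or, iff_true]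
        rw [Nat.odd_sub (Nat.one_le_two_pow)]
        simp [Nat.even_pow, Nat.odd_iff]
      | some a' =>
        simp only [Option.elim, Nat.sub_self, pow_zero]
        by_cases h' : a' = a <;> simp [h']
    let TD : StageData B Lab (N.ρ / (512 * n)) :=
      { q := q, e := e, W := W, sum_q := qs, perp := qp,
        sees := fun a => B.sees_of_not_bad N.stage.n_big (hgood.sees _) N.frame
        res := hres }
    obtain ⟨q', s1, s2, s3, s4⟩ := TD.halve N.stage wgt cost
    refine ⟨q', s1, s2, fun x ia h hlt b => ?_, le_trans s4 qc⟩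
    have hval := qr x ia h (Nat.lt_succ_of_lt hlt)
    obtain ⟨k, hk⟩ : ∃ k, e = ia.1.1 + 1 + k := ⟨e - (ia.1.1 + 1), by omega⟩
    have e1 : e + 1 - (ia.1.1 + 1) = k + 1 := by omega
    have e2 : e - (ia.1.1 + 1) = k := by omega
    have e3 : 2 ^ (e + 1) - 2 ^ (k + 1) = 2 * (2 ^ e - 2 ^ k) := by
      rw [Nat.mul_sub, pow_succ', pow_succ']
    have hev : Even (TD.q x b) := by
      show Even (q x b)
      rw [hval b, e1]
      cases b with
      | none => simp only [Option.elim]; rw [e3]; exact even_two_mul _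
      | some a =>
        simp only [Option.elim]
        split_ifs
        · rw [pow_succ']; exact even_two_mul _
        · exact ⟨0, rfl⟩
    rw [s3 x b hev]
    show q x b / 2 = _
    rw [hval b, e1, e2]
    cases b with
    | none => simp only [Option.elim]; rw [e3]; omega
    | some a =>
      simp only [Option.elim]
      split_ifs
      · rw [pow_succ']; omega
      · rfl
  have all : ∀ k, k ≤ Bt → Inv (Bt - k) := by
    intro k
    induction k with
    | zero => intro _; exact base
    | succ k ih =>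
      intro hk
      refine step _ (by omega) ?_
      rw [show Bt - (k + 1) + 1 = Bt - k by omega]
      exact ih (by omega)
  have hfin := all Bt le_rfl
  rw [Nat.sub_self] at hfin
  obtain ⟨q, qs, qp, -, qc⟩ := hfin
  have hone : ∀ x, ∃ b, q x b = 1 ∧ ∀ b', b' ≠ b → q x b' = 0 := by
    intro x
    have h := qs x
    rw [pow_zero] at h
    obtain ⟨b, hb, hb0⟩ := exists_ne_zero_of_sum_ne_zero (s := univ) (f := q x) (by omega)
    have hle : q x b ≤ 1 := h ▸ single_le_sum (f := q x) (fun _ _ => Nat.zero_le _) hb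
    refine ⟨b, by omega, fun b' hne => ?_⟩
    have := add_sum_erase univ (q x) hb
    have h2 : q x b' ≤ ∑ j ∈ univ.erase b, q x j :=
      single_le_sum (f := q x) (fun _ _ => Nat.zero_le _) (mem_erase.2 ⟨hne, mem_univ _⟩)
    omega
  choose F hF1 hF0 using hone
  have hqF : ∀ x b, (q x b : ℝ) = if F x = b then 1 else 0 := by
    intro x b
    by_cases h : F x = b
    · subst h; simp [hF1]
    · simp [h, hF0 x b (Ne.symm h)]
  refine ⟨F, fun b => by simpa only [hqF] using qp b, ?_⟩
  have hLHS : ∑ x, wgt x * cost x (F x) = (∑ x, wgt x * ∑ b, (q x b : ℝ) * cost x b) / 2 ^ 0 := by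
    simp [hqF]
  rw [hLHS]
  refine le_trans qc ?_
  calc ∑ x, wgt x * ∑ b, (q0 x b : ℝ) * cost x b / K
      ≤ ∑ x, wgt x * (∑ b, p x b * cost x b + (Lc + 1) * N.lam * cmax +
          cmax * (if c x ≠ none then 1 else 0)) :=
        sum_le_sum fun x _ => mul_le_mul_of_nonneg_left (hpt x) (hw0 x)
    _ = ∑ x, wgt x * ∑ b, p x b * cost x b + (Lc + 1) * N.lam * cmax +
          cmax * ∑ x, wgt x * (if c x ≠ none then 1 else 0) := by
        simp only [mul_add, sum_add_distrib, ← sum_mul, hw1, one_mul]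
        congr 1
        rw [mul_sum]
        exact sum_congr rfl fun x _ => by ring
    _ ≤ _ := by
        have := mul_le_mul_of_nonneg_left hb4 hcm
        simp only [hβ, Lc, n] at this ⊢
        linarith

end Vale.Agent.P047
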