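import Vale.Agent.P047.GadgetDefs

/-! Properties and composition of gadgets. -/

namespace Vale.Agent.P047

open Finset

/-! ## Elementary facts on degree and on first moments -/

theorem degLE_sum {n d : ℕ} {ι : Type*} (s : Finset ι) (f : ι → (Fin n → Bool) → ℝ)
    (h : ∀ i ∈ s, DegLE d (f i)) : DegLE d fun x => ∑ i ∈ s, f i x := by
  intro S hS
  simp only [hat, sum_mul]
  rw [sum_comm, sum_div]
  exact sum_eq_zero fun i hi => h i hi S hS

theorem degLE_smul {n d : ℕ} (c : ℝ) {f : (Fin n → Bool) → ℝ} (h : DegLE d f) :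
    DegLE d fun x => c * f x := by
  intro S hS
  have := h S hS
  simp only [hat, mul_assoc, ← mul_sum, mul_div_assoc] at this ⊢
  rw [this, mul_zero]

theorem degLE_chi {n d : ℕ} (W : Finset (Fin n)) (hW : W.card ≤ d) : DegLE d (chi W) := by
  intro S hS
  simp only [hat, orth]
  rw [if_neg (fun h => by subst h; omega), zero_div]

theorem sum_sg {n : ℕ} (i : Fin n) : ∑ x : Fin n → Bool, sg (x i) = 0 := by
  simpa [chi] using sum_chi ({i} : Finset (Fin n))

theorem sum_ssum {n : ℕ} : ∑ x : Fin n → Bool, ssum x = 0 := by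
  simp only [ssum]
  rw [sum_comm]
  exact sum_eq_zero fun i _ => sum_sg i

theorem sum_ssum_sq {n : ℕ} : ∑ x : Fin n → Bool, ssum x ^ 2 = n * Nc (Fin n) := by
  simp only [ssum, pow_two, sum_mul_sum]
  rw [sum_comm]
  have h : ∀ i j : Fin n, ∑ x : Fin n → Bool, sg (x i) * sg (x j)
      = if i = j then Nc (Fin n) else 0 := fun i j => by
    simpa [chi] using orth ({i} : Finset (Fin n)) {j}
  calc ∑ i, ∑ x : Fin n → Bool, ∑ j, sg (x i) * sg (x j)
      = ∑ i : Fin n, ∑ j : Fin n, (if i = j then Nc (Fin n) else 0) :=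
        sum_congr rfl fun i _ => by rw [sum_comm]; exact sum_congr rfl fun j _ => h i j
    _ = _ := by simp

theorem sum_exp_ssum {n : ℕ} (c : ℝ) :
    ∑ x : Fin n → Bool, Real.exp (c * ssum x) = Nc (Fin n) * Real.cosh c ^ n := by
  simp only [ssum, mul_sum, Real.exp_sum]
  rw [← Fintype.prod_sum (fun (_ : Fin n) (b : Bool) => Real.exp (c * sg b))]
  have : ∑ b : Bool, Real.exp (c * sg b) = 2 * Real.cosh c := by
    simp [sg, Real.cosh_eq]
    ring
  simp only [this, prod_const, card_univ, Fintype.card_fin, mul_pow, Nc]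

theorem pow_four_le_cosh (x : ℝ) : x ^ 4 ≤ 24 * Real.cosh x := by
  have h := Real.hasSum_cosh x
  have h2 := le_hasSum h 2 fun j _ => div_nonneg (by rw [pow_mul]; positivity) (Nat.cast_nonneg _)
  norm_num [Nat.factorial] at h2
  linarith

namespace Gadget

variable {M : ℕ} (g : Gadget M)

theorem degLE_comp (h : Fin M → ℝ) : DegLE g.d fun x => h (g.lab x) := by
  have e : (fun x => h (g.lab x))
      = fun x => ∑ a, h a * (if g.lab x = a then (1 : ℝ) else 0) := by
    funext x; simp
  rw [e]
  exact degLE_sum _ _ fun a _ => degLE_smul _ (g.deg a)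

/-- The first moment on a class. -/
noncomputable def mom (a : Fin M) : ℝ := avg fun x => if g.lab x = a then ssum x else 0

theorem P_nonneg (a : Fin M) : 0 ≤ g.P a :=
  div_nonneg (sum_nonneg fun x _ => by split_ifs <;> norm_num) Nc_pos.le

theorem sqrt_n_pos : 0 < Real.sqrt g.n := Real.sqrt_pos.2 (by exact_mod_cast g.n_pos)

theorem mom_eq_zero {a : Fin M} (h : g.P a = 0) : g.mom a = 0 := by
  have h0 : ∀ x, g.lab x ≠ a := by
    intro x hx
    simp only [P, avg, div_eq_zero_iff, Nc_pos.ne', or_false] at h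
    have := (sum_eq_zero_iff_of_nonneg fun y _ => by split_ifs <;> norm_num).1 h x (mem_univ x)
    simp [hx] at this
  simp [mom, avg, h0]

theorem P_mul_v (a : Fin M) : g.P a * g.v a = g.mom a / Real.sqrt g.n := by
  by_cases h : g.P a = 0
  · rw [g.mom_eq_zero h, h]; simp
  · rw [v, mom]; field_simp

theorem sum_classes (h : (Fin g.n → Bool) → ℝ) (c : Fin M → ℝ) :
    ∑ a, c a * avg (fun x => if g.lab x = a then h x else 0)
      = avg fun x => c (g.lab x) * h x := by
  simp only [avg, mul_div_assoc', mul_sum, ← sum_div]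
  rw [sum_comm]
  simp

theorem sum_P : ∑ a, g.P a = 1 := by
  have h := g.sum_classes (fun _ => 1) (fun _ => 1)
  simp only [one_mul] at h
  simp only [P, h]
  simp [avg, Nc]

theorem sum_P_mul_v : ∑ a, g.P a * g.v a = 0 := by
  simp only [P_mul_v, ← sum_div]
  have h := g.sum_classes ssum (fun _ => 1)
  simp only [one_mul] at h
  simp only [mom, h]
  simp [avg, sum_ssum]

theorem mgf (t : ℝ) : ∑ a, g.P a * Real.exp (t * g.v a) ≤ Real.exp (t ^ 2 / 2) := by
  set c := t / Real.sqrt g.n
  have key : ∀ a, g.P a * Real.exp (t * g.v a)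
      ≤ avg fun x => if g.lab x = a then Real.exp (c * ssum x) else 0 := by
    intro a
    set w := t * g.v a
    have hpt : ∀ x, Real.exp w * ((1 - w) * (if g.lab x = a then (1 : ℝ) else 0)
        + c * (if g.lab x = a then ssum x else 0))
        ≤ if g.lab x = a then Real.exp (c * ssum x) else 0 := by
      intro x
      split_ifs
      · have h1 := Real.add_one_le_exp (c * ssum x - w)
        have h2 : Real.exp (c * ssum x) = Real.exp w * Real.exp (c * ssum x - w) := by
          rw [← Real.exp_add]; ring_nf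
        rw [h2]
        exact mul_le_mul_of_nonneg_left (by linarith) (Real.exp_pos w).le
      · simp
    have hs := div_le_div_of_nonneg_right (sum_le_sum fun x (_ : x ∈ univ) => hpt x)
      (Nc_pos (J := Fin g.n)).le
    refine le_trans (le_of_eq ?_) hs
    rw [← mul_sum, sum_add_distrib, ← mul_sum, ← mul_sum, mul_div_assoc, add_div, mul_div_assoc,
      mul_div_assoc]
    show g.P a * Real.exp w = Real.exp w * ((1 - w) * g.P a + c * g.mom a)
    have hm : c * g.mom a = w * g.P a := by
      show t / Real.sqrt g.n * g.mom a = t * g.v a * g.P a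
      rw [mul_assoc t, mul_comm (g.v a), g.P_mul_v]; ring
    rw [hm]; ring
  refine (sum_le_sum fun a _ => key a).trans ?_
  have h := g.sum_classes (fun x => Real.exp (c * ssum x)) (fun _ => 1)
  simp only [one_mul] at h
  rw [h, avg, sum_exp_ssum, mul_div_cancel_left₀ _ Nc_pos.ne']
  refine (pow_le_pow_left₀ (Real.cosh_pos c).le (Real.cosh_le_exp_half_sq c) _).trans
    (le_of_eq ?_)
  rw [← Real.exp_nat_mul]
  congr 1
  have hn : (0 : ℝ) < g.n := by exact_mod_cast g.n_pos
  simp only [c, div_pow, Real.sq_sqrt hn.le]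
  field_simp

end Gadget

theorem gadget_facts {M : ℕ} (g : Gadget M) :
    (∀ a, 0 ≤ g.P a) ∧ ∑ a, g.P a = 1 ∧ ∑ a, g.P a * g.v a = 0 ∧
      ∀ t : ℝ, ∑ a, g.P a * Real.exp (t * g.v a) ≤ Real.exp (t ^ 2 / 2) :=
  ⟨g.P_nonneg, g.sum_P, g.sum_P_mul_v, g.mgf⟩

theorem gadget_start (m : ℕ) (hm : 1 ≤ m) :
    ∃ g : Gadget (2 ^ m), g.n = m ∧ g.d = m ∧ g.om = 1 := by
  classical
  let L : (Fin m → Bool) ≃ Fin (2 ^ m) := Fintype.equivFinOfCardEq (by simp)
  refine ⟨{ n := m, d := m, n_pos := hm, lab := L, deg := ?_ }, rfl, rfl, ?_⟩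
  · intro a S hS
    have := card_finset_fin_le S
    omega
  · simp only [Gadget.om, Gadget.v, Gadget.P, avg]
    rw [← L.sum_comp]
    simp only [L.injective.eq_iff, sum_ite_eq', mem_univ, if_true]
    have hm' : (0 : ℝ) < m := by exact_mod_cast hm
    have hN := (Nc_pos (J := Fin m))
    calc ∑ x : Fin m → Bool, 1 / Nc (Fin m) *
          (ssum x / Nc (Fin m) / (1 / Nc (Fin m) * Real.sqrt m)) ^ 2
        = ∑ x : Fin m → Bool, ssum x ^ 2 / (Nc (Fin m) * m) := by
          refine sum_congr rfl fun x _ => ?_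
          have hs : Real.sqrt m ≠ 0 := (Real.sqrt_pos.2 hm').ne'
          field_simp
          rw [Real.sq_sqrt hm'.le]
      _ = 1 := by
          rw [← sum_div, sum_ssum_sq]
          field_simp

/-! ## Composition -/

/-- A cube of `k * n` coordinates as `k` blocks. -/
def blocks (k n : ℕ) : (Fin (k * n) → Bool) ≃ (Fin k → Fin n → Bool) :=
  (Equiv.arrowCongr finProdFinEquiv.symm (Equiv.refl Bool)).trans (Equiv.curry _ _ _)

theorem blocks_apply {k n : ℕ} (y : Fin (k * n) → Bool) (j : Fin k) (i : Fin n) :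
    blocks k n y j i = y (finProdFinEquiv (j, i)) := rfl

theorem ssum_blocks {k n : ℕ} (y : Fin (k * n) → Bool) :
    ssum y = ∑ j, ssum (blocks k n y j) := by
  simp only [ssum, blocks_apply]
  rw [← finProdFinEquiv.sum_comp, Fintype.sum_prod_type]

theorem avg_blocks {k n : ℕ} (f : Fin k → (Fin n → Bool) → ℝ) :
    avg (fun y : Fin (k * n) → Bool => ∏ j, f j (blocks k n y j)) = ∏ j, avg (f j) := by
  simp only [avg, Finset.prod_div_distrib, prod_const, card_univ, Fintype.card_fin]
  rw [(blocks k n).sum_comp fun Y => ∏ j, f j (Y j), ← Fintype.prod_sum]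
  simp [Nc, ← pow_mul, Nat.mul_comm n k]

theorem degLE_blocks {k n d D : ℕ} (U : Finset (Fin k)) (h : Fin k → (Fin n → Bool) → ℝ)
    (hh : ∀ j ∈ U, DegLE d (h j)) (hD : U.card * d ≤ D) :
    DegLE D fun y : Fin (k * n) → Bool => ∏ j ∈ U, h j (blocks k n y j) := by
  classical
  have e : (fun y : Fin (k * n) → Bool => ∏ j ∈ U, h j (blocks k n y j))
      = fun y => ∑ p ∈ U.pi fun _ => (univ : Finset (Finset (Fin n))).filter (fun S => S.card ≤ d),
        (∏ j ∈ U.attach, hat (h j.1) (p j.1 j.2))
          * chi (U.attach.biUnion fun j => (p j.1 j.2).image fun i => finProdFinEquiv (j.1, i)) y := by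
    funext y
    have hexp : ∀ j ∈ U, h j (blocks k n y j)
        = ∑ S ∈ (univ : Finset (Finset (Fin n))).filter (fun S => S.card ≤ d),
            hat (h j) S * chi S (blocks k n y j) := fun j hj => by
      rw [← inversion (h j) (blocks k n y j)]
      refine (sum_subset (filter_subset _ _) fun S _ hS => ?_).symm
      simp only [mem_filter, mem_univ, true_and, not_le] at hS
      rw [hh j hj S hS, zero_mul]
    rw [prod_congr rfl hexp, prod_sum]
    refine sum_congr rfl fun p _ => ?_
    rw [prod_mul_distrib]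
    congr 1
    unfold chi
    rw [prod_biUnion]
    · refine prod_congr rfl fun j _ => ?_
      rw [prod_image (fun a _ b _ hab => (Prod.ext_iff.1 (finProdFinEquiv.injective hab)).2)]
      rfl
    · intro a _ b _ hab
      rw [Function.onFun, disjoint_left]
      intro x hx hx'
      simp only [mem_image] at hx hx'
      obtain ⟨i, -, rfl⟩ := hx
      obtain ⟨i', -, hi'⟩ := hx'
      exact hab (Subtype.ext (Prod.ext_iff.1 (finProdFinEquiv.injective hi')).1.symm)
  rw [e]
  refine degLE_sum _ _ fun p hp => degLE_smul _ (degLE_chi _ (le_trans ?_ hD))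
  refine card_biUnion_le.trans ?_
  rw [← card_attach (s := U)]
  refine (sum_le_card_nsmul _ _ d fun j _ => card_image_le.trans ?_).trans (le_of_eq (by simp))
  exact (mem_filter.1 (mem_pi.1 hp j.1 j.2)).2

namespace Gadget

variable {M : ℕ} (g : Gadget M) {k m : ℕ} (e : (Fin m → Bool) ≃ Fin M)

/-- The word of labels of the blocks. -/
def word (y : Fin (k * g.n) → Bool) : Fin k × Fin m → Bool :=
  fun p => e.symm (g.lab (blocks k g.n y p.1)) p.2

theorem word_eq_iff (y : Fin (k * g.n) → Bool) (x : Fin k × Fin m → Bool) :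
    g.word e y = x ↔ ∀ j, g.lab (blocks k g.n y j) = e fun i => x (j, i) := by
  simp only [word, funext_iff, Prod.forall]
  refine forall_congr' fun j => ?_
  rw [← funext_iff, Equiv.symm_apply_eq]

theorem ind_word (y : Fin (k * g.n) → Bool) (x : Fin k × Fin m → Bool) :
    (if g.word e y = x then (1 : ℝ) else 0)
      = ∏ j, if g.lab (blocks k g.n y j) = e (fun i => x (j, i)) then (1 : ℝ) else 0 := by
  by_cases h : g.word e y = x
  · rw [if_pos h]
    exact (prod_eq_one fun j _ => if_pos ((g.word_eq_iff e y x).1 h j)).symm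
  · rw [if_neg h]
    obtain ⟨j, hj⟩ := not_forall.1 (fun hall => h ((g.word_eq_iff e y x).2 hall))
    exact (prod_eq_zero (mem_univ j) (if_neg hj)).symm

theorem avg_word (x : Fin k × Fin m → Bool) :
    avg (fun y => if g.word e y = x then (1 : ℝ) else 0) = g.wpi e x := by
  simp only [ind_word]
  rw [avg_blocks fun j z => if g.lab z = e (fun i => x (j, i)) then (1 : ℝ) else 0]
  rfl

theorem avg_word_ssum (x : Fin k × Fin m → Bool) :
    avg (fun y => if g.word e y = x then ssum y else 0)
      = Real.sqrt g.n * (g.wpi e x * g.zsum e x) := by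
  classical
  set a := fun j => e fun i => x (j, i)
  have h1 : ∀ y, (if g.word e y = x then ssum y else 0) = ∑ l, ∏ j,
      if j = l then (if g.lab (blocks k g.n y j) = a j then ssum (blocks k g.n y j) else 0)
      else (if g.lab (blocks k g.n y j) = a j then (1 : ℝ) else 0) := by
    intro y
    rw [← mul_boole, ind_word, ssum_blocks, sum_mul]
    refine sum_congr rfl fun l _ => ?_
    rw [← mul_prod_erase univ _ (mem_univ l), ← mul_prod_erase univ _ (mem_univ l), if_pos rfl,
      ← mul_assoc, mul_boole]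
    congr 1
    exact prod_congr rfl fun j hj => by rw [if_neg (ne_of_mem_erase hj)]
  have h2 : avg (fun y => if g.word e y = x then ssum y else 0) = ∑ l, avg fun y => ∏ j,
      if j = l then (if g.lab (blocks k g.n y j) = a j then ssum (blocks k g.n y j) else 0)
      else (if g.lab (blocks k g.n y j) = a j then (1 : ℝ) else 0) := by
    simp only [avg, h1, ← sum_div]
    rw [sum_comm]
  have h3 : ∀ l, avg (fun y => ∏ j,
      if j = l then (if g.lab (blocks k g.n y j) = a j then ssum (blocks k g.n y j) else 0)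
      else (if g.lab (blocks k g.n y j) = a j then (1 : ℝ) else 0))
      = Real.sqrt g.n * (g.wpi e x * g.v (a l)) := by
    intro l
    rw [avg_blocks fun j z => if j = l then (if g.lab z = a j then ssum z else 0)
      else (if g.lab z = a j then (1 : ℝ) else 0), ← mul_prod_erase univ _ (mem_univ l)]
    simp only [if_true]
    have hm : g.mom (a l) = Real.sqrt g.n * (g.P (a l) * g.v (a l)) := by
      rw [P_mul_v]; field_simp [g.sqrt_n_pos.ne']
    rw [show avg (fun z => if g.lab z = a l then ssum z else 0) = g.mom (a l) from rfl, hm,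
      wpi, ← mul_prod_erase univ (fun j => g.P (e fun i => x (j, i))) (mem_univ l)]
    have hp : ∀ j ∈ univ.erase l, avg (fun z => if j = l then (if g.lab z = a j then ssum z else 0)
        else (if g.lab z = a j then (1 : ℝ) else 0)) = g.P (e fun i => x (j, i)) := by
      intro j hj
      simp only [if_neg (ne_of_mem_erase hj)]
      rfl
    rw [prod_congr rfl hp]
    ring
  rw [h2, sum_congr rfl fun l _ => h3 l, ← mul_sum, ← mul_sum]
  rfl

theorem wpi_nonneg (x : Fin k × Fin m → Bool) : 0 ≤ g.wpi e x :=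
  prod_nonneg fun _ _ => g.P_nonneg _

theorem sum_sq_zsum :
    ∑ x : Fin k × Fin m → Bool, g.wpi e x * g.zsum e x ^ 2 = k * g.om := by
  classical
  let ψ : (Fin k × Fin m → Bool) ≃ (Fin k → Fin M) :=
    (Equiv.curry _ _ _).trans (Equiv.arrowCongr (Equiv.refl _) e)
  have hψ : ∀ x, g.wpi e x * g.zsum e x ^ 2
      = (∏ j, g.P (ψ x j)) * (∑ l, g.v (ψ x l)) ^ 2 := fun x => rfl
  simp only [hψ]
  rw [ψ.sum_comp fun a => (∏ j, g.P (a j)) * (∑ l, g.v (a l)) ^ 2]
  simp only [pow_two, sum_mul_sum]
  simp only [mul_sum]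
  rw [sum_comm]
  have hterm : ∀ l l' : Fin k, ∑ a : Fin k → Fin M, (∏ j, g.P (a j)) * (g.v (a l) * g.v (a l'))
      = if l = l' then g.om else 0 := by
    intro l l'
    have hf : ∀ a : Fin k → Fin M, (∏ j, g.P (a j)) * (g.v (a l) * g.v (a l'))
        = ∏ j, g.P (a j) * (if j = l then g.v (a j) else 1) * (if j = l' then g.v (a j) else 1) := by
      intro a
      rw [prod_mul_distrib, prod_mul_distrib, prod_ite_eq' univ l, prod_ite_eq' univ l']
      simp [mul_assoc]
    simp only [hf]
    rw [← Fintype.prod_sum (fun j b => g.P b * (if j = l then g.v b else 1)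
      * (if j = l' then g.v b else 1))]
    by_cases hll : l = l'
    · subst hll
      rw [if_pos rfl, ← mul_prod_erase univ _ (mem_univ l), prod_eq_one, mul_one]
      · simp only [if_true, om]
        exact sum_congr rfl fun b _ => by ring
      · intro j hj
        simp [ne_of_mem_erase hj, g.sum_P]
    · rw [if_neg hll]
      refine prod_eq_zero (mem_univ l) ?_
      simp [hll, g.sum_P_mul_v]
  calc ∑ l, ∑ a : Fin k → Fin M, ∑ l', (∏ j, g.P (a j)) * (g.v (a l) * g.v (a l'))
      = ∑ l : Fin k, ∑ l' : Fin k, (if l = l' then g.om else 0) :=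
        sum_congr rfl fun l _ => by rw [sum_comm]; exact sum_congr rfl fun l' _ => hterm l l'
    _ = _ := by simp

end Gadget

theorem gadget_compose {M : ℕ} (g : Gadget M) (k s m : ℕ) (hk : 1 ≤ k) (_hs : s ≤ k)
    (e : (Fin m → Bool) ≃ Fin M) (F : (Fin k × Fin m → Bool) → Fin M)
    (hF : ∀ a S, k - s < (touched S).card → hat (fun x => if F x = a then (1:ℝ) else 0) S = 0)
    (t : Fin M → ℝ) (loss : ℝ) (hl : ∑ x, g.wpi e x * (g.zsum e x - t (F x)) ^ 2 ≤ loss) :
    ∃ g' : Gadget M, g'.n = k * g.n ∧ g'.d = (k - s) * g.d ∧ g.om - loss / k ≤ g'.om := by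
  classical
  let g' : Gadget M :=
    { n := k * g.n
      d := (k - s) * g.d
      n_pos := Nat.mul_pos hk g.n_pos
      lab := fun y => F (g.word e y)
      deg := fun a => by
        have he : (fun y => if F (g.word e y) = a then (1 : ℝ) else 0)
            = fun y => ∑ T : Finset (Fin k × Fin m),
              hat (fun x => if F x = a then (1 : ℝ) else 0) T * chi T (g.word e y) :=
          funext fun y => (inversion (fun x => if F x = a then (1 : ℝ) else 0) _).symm
        rw [he]
        refine degLE_sum _ _ fun T _ => ?_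
        by_cases hT : (touched T).card ≤ k - s
        · refine degLE_smul _ ?_
          have hc : (fun y => chi T (g.word e y))
              = fun y => ∏ j ∈ touched T, (fun b => ∏ p ∈ T.filter (fun p => p.1 = j),
                sg (e.symm b p.2)) (g.lab (blocks k g.n y j)) := by
            funext y
            rw [chi, ← prod_fiberwise_of_maps_to (s := T) (t := touched T) (g := Prod.fst)
              fun p hp => mem_image_of_mem _ hp]
            refine prod_congr rfl fun j _ => prod_congr rfl fun p hp => ?_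
            simp only [Gadget.word]
            rw [(mem_filter.1 hp).2]
          rw [hc]
          exact degLE_blocks (touched T) (fun j z => (fun b => ∏ p ∈ T.filter (fun p => p.1 = j),
              sg (e.symm b p.2)) (g.lab z))
            (fun j _ => g.degLE_comp fun b => ∏ p ∈ T.filter (fun p => p.1 = j), sg (e.symm b p.2))
            (Nat.mul_le_mul_right _ hT)
        · simp only [hF a T (not_le.1 hT), zero_mul]
          intro S _
          simp [hat] }
  refine ⟨g', rfl, rfl, ?_⟩
  set w := g.wpi e (k := k)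
  set z := g.zsum e (k := k)
  set P' : Fin M → ℝ := fun a => ∑ x, if F x = a then w x else 0
  set B : Fin M → ℝ := fun a => ∑ x, if F x = a then w x * z x else 0
  have hsplit : ∀ (a : Fin M) (h : (Fin (k * g.n) → Bool) → ℝ),
      avg (fun y => if F (g.word e y) = a then h y else 0)
        = ∑ x, if F x = a then avg (fun y => if g.word e y = x then h y else 0) else 0 := by
    intro a h
    simp only [avg]
    have hd : ∀ (x : Fin k × Fin m → Bool) (u : ℝ),
        (if F x = a then u / Nc (Fin (k * g.n)) else 0)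
          = (if F x = a then u else 0) / Nc (Fin (k * g.n)) := fun x u => by split_ifs <;> simp
    simp only [hd, ← sum_div]
    refine congrArg (· / _) ?_
    simp only [ite_sum_zero]
    rw [sum_comm]
    refine sum_congr rfl fun y _ => ?_
    rw [sum_eq_single (g.word e y) (fun x _ hx => by simp [Ne.symm hx]) (by simp)]
    simp
  have hP : ∀ a, g'.P a = P' a := fun a => by
    show avg (fun y => if F (g.word e y) = a then (1 : ℝ) else 0) = _
    rw [hsplit]
    simp only [g.avg_word e]
    rfl
  have hmom : ∀ a, g'.mom a = Real.sqrt g.n * B a := fun a => by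
    show avg (fun y => if F (g.word e y) = a then ssum y else 0) = _
    rw [hsplit]
    simp only [g.avg_word_ssum e, B, mul_sum, mul_ite, mul_zero]
    rfl
  have hk0 : (0 : ℝ) < k := by exact_mod_cast hk
  have hterm : ∀ a, (∑ x, if F x = a then w x * z x ^ 2 - w x * (z x - t a) ^ 2 else 0) / k
      ≤ g'.P a * g'.v a ^ 2 := by
    intro a
    have he : (∑ x, if F x = a then w x * z x ^ 2 - w x * (z x - t a) ^ 2 else 0)
        = 2 * t a * B a - t a ^ 2 * P' a := by
      simp only [B, P', mul_sum, ← sum_sub_distrib]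
      refine sum_congr rfl fun x _ => ?_
      split_ifs <;> ring
    rw [he]
    rcases eq_or_lt_of_le (g'.P_nonneg a) with h0 | h0
    · have hB : B a = 0 := by
        have := g'.mom_eq_zero h0.symm
        rw [hmom] at this
        exact (mul_eq_zero.1 this).resolve_left g.sqrt_n_pos.ne'
      rw [← h0, hB, ← hP, ← h0]
      simp
    · have hv : g'.v a = B a / (g'.P a * Real.sqrt k) := by
        show g'.mom a / (g'.P a * Real.sqrt ((k * g.n : ℕ) : ℝ)) = _
        rw [hmom, Nat.cast_mul, Real.sqrt_mul (Nat.cast_nonneg k)]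
        have := g.sqrt_n_pos.ne'
        field_simp
      rw [hv, ← hP, div_pow, mul_pow, Real.sq_sqrt hk0.le]
      rw [show g'.P a * (B a ^ 2 / (g'.P a ^ 2 * k)) = B a ^ 2 / g'.P a / k by field_simp]
      refine div_le_div_of_nonneg_right ((le_div_iff₀ h0).2 ?_) hk0.le
      nlinarith [sq_nonneg (B a - t a * g'.P a)]
  have hsum : ∑ a, (∑ x, if F x = a then w x * z x ^ 2 - w x * (z x - t a) ^ 2 else 0) / (k : ℝ)
      = g.om - (∑ x, w x * (z x - t (F x)) ^ 2) / k := by
    rw [← sum_div, sum_comm]
    simp only [sum_ite_eq, mem_univ, if_true]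
    rw [sum_sub_distrib, sub_div, g.sum_sq_zsum e, mul_div_cancel_left₀ _ hk0.ne']
  calc g.om - loss / k ≤ g.om - (∑ x, w x * (z x - t (F x)) ^ 2) / k :=
        sub_le_sub_left (div_le_div_of_nonneg_right hl hk0.le) _
    _ ≤ g'.om := hsum ▸ sum_le_sum fun a _ => hterm a

theorem gadget_final {M : ℕ} (g : Gadget M) (h : 1/2 ≤ g.om) :
    ∃ f : (Fin g.n → Bool) → ℝ, (∀ x, f x = 1 ∨ f x = -1) ∧ DegLE g.d f ∧
      Real.sqrt g.n / 50 ≤ ∑ i, hat f {i} := by
  classical
  set s : Fin M → ℝ := fun a => if 0 ≤ g.v a then 1 else -1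
  refine ⟨fun x => s (g.lab x), fun x => ?_, g.degLE_comp s, ?_⟩
  · show s (g.lab x) = 1 ∨ s (g.lab x) = -1
    simp only [s]; split_ifs <;> simp
  have hsum : ∑ i, hat (fun x => s (g.lab x)) {i}
      = Real.sqrt g.n * ∑ a, g.P a * |g.v a| := by
    have h1 : ∑ i, hat (fun x => s (g.lab x)) {i} = avg fun x => s (g.lab x) * ssum x := by
      simp only [hat, chi, prod_singleton, avg, ssum, mul_sum, ← sum_div]
      rw [sum_comm]
    rw [h1, ← g.sum_classes, mul_sum]
    refine sum_congr rfl fun a _ => ?_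
    show s a * g.mom a = _
    have hm : g.mom a = Real.sqrt g.n * (g.P a * g.v a) := by
      rw [g.P_mul_v]; field_simp [g.sqrt_n_pos.ne']
    rw [hm]
    simp only [s]
    split_ifs with hv
    · rw [abs_of_nonneg hv]; ring
    · rw [abs_of_neg (not_le.1 hv)]; ring
  rw [hsum]
  have hpt : ∀ a, g.P a * g.v a ^ 2 ≤ 16 * (g.P a * |g.v a|) + g.P a * Real.cosh (g.v a) * (24 / 256) := by
    intro a
    have h4 := pow_four_le_cosh (g.v a)
    have key : g.v a ^ 2 ≤ 16 * |g.v a| + g.v a ^ 4 / 256 := by
      rw [← sq_abs, show g.v a ^ 4 = |g.v a| ^ 4 by rw [pow_abs, abs_of_nonneg (by positivity)]]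
      have hu := abs_nonneg (g.v a)
      generalize |g.v a| = u at hu ⊢
      rcases le_total u 16 with h16 | h16
      · nlinarith [pow_nonneg hu 4]
      · nlinarith [mul_le_mul h16 h16 (by norm_num) hu, pow_nonneg hu 2]
    have := mul_le_mul_of_nonneg_left
      (key.trans (add_le_add le_rfl (div_le_div_of_nonneg_right h4 (by norm_num)))) (g.P_nonneg a)
    linarith
  have hc : ∑ a, g.P a * Real.cosh (g.v a) ≤ Real.exp (1 / 2) := by
    have h1 := g.mgf 1
    have h2 := g.mgf (-1)
    simp only [one_mul, neg_mul, one_pow, neg_one_sq] at h1 h2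
    simp only [Real.cosh_eq, mul_div_assoc', ← sum_div, mul_add, sum_add_distrib]
    linarith
  have he : Real.exp (1 / 2 : ℝ) ≤ 1.65 := by
    have h2 : Real.exp (1 / 2 : ℝ) ^ 2 = Real.exp 1 := by
      rw [← Real.exp_nat_mul]; norm_num
    have := Real.exp_one_lt_d9
    nlinarith [Real.exp_pos (1 / 2 : ℝ)]
  have hom : g.om ≤ 16 * ∑ a, g.P a * |g.v a| + (∑ a, g.P a * Real.cosh (g.v a)) * (24 / 256) := by
    rw [Gadget.om, mul_sum, sum_mul, ← sum_add_distrib]
    exact sum_le_sum fun a _ => hpt a
  have : (1 / 50 : ℝ) ≤ ∑ a, g.P a * |g.v a| := by linarith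
  have hn := g.sqrt_n_pos
  nlinarith

end Vale.Agent.P047
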