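import Mathlib
import Vale.Agent.P047.Clean

/-! The parameters of one level. -/

namespace Vale.Agent.P047

open Finset

theorem two_pow_ge (r : ℕ) (hr : 20 ≤ r) : 100 * r * r + 100 * r + 100 ≤ 2 ^ r := by
  induction r, hr using Nat.le_induction with
  | base => norm_num
  | succ r hr ih =>
    rw [pow_succ]
    nlinarith

theorem two_pow_le_exp (x : ℕ) : (2:ℝ) ^ x ≤ Real.exp x := by
  rw [← mul_one (x : ℝ), Real.exp_nat_mul]
  exact pow_le_pow_left₀ (by norm_num) (by linarith [Real.add_one_le_exp (1:ℝ)]) x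

/-- Elementary consequences of the parameter choice. -/
structure ParamFacts (r : ℕ) {J : Type*} [Fintype J] [DecidableEq J] (B : Blk J) : Prop where
  hn1 : 20 ≤ Fintype.card J
  hJ : Fintype.card J = 2 ^ (4 * r) * (2 * r)
  hnR : (Fintype.card J : ℝ) ≤ 2 ^ (6 * r)
  hSbb : (2:ℝ) ^ B.bb = 2 ^ (2 * r * 2 ^ r)
  he32 : 32 * r ≤ 2 * r * 2 ^ r
  hd0 : 0 < B.dens
  hdens : B.dens * ((2:ℝ) ^ (2 * r * 2 ^ r)) ^ 40 ≤ 1

theorem paramFacts (r : ℕ) (hr : 20 ≤ r) {J : Type*} [Fintype J] [DecidableEq J] (B : Blk J)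
    (hJ : Fintype.card J = 2 ^ (4 * r) * (2 * r)) (hbb : B.bb = 2 ^ r * (2 * r))
    (hd0 : 0 < B.dens)
    (hd : B.dens ≤ ((2 ^ r : ℕ) : ℝ) * ((2 ^ (4 * r) : ℕ) : ℝ) ^ (2 ^ r) *
      Real.exp (-((((2 ^ (4 * r) : ℕ) : ℝ) - ((2 ^ r : ℕ) : ℝ)) / 2 ^ (2 * r)))) :
    ParamFacts r B := by
  have hbig := two_pow_ge r hr
  set n := Fintype.card J with hn
  set s := 2 ^ r with hs
  set e := 2 * r * s with he
  set S : ℝ := 2 ^ e with hS
  -- elementary facts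
  have hs1 : 1 ≤ s := Nat.one_le_two_pow
  have he32 : 32 * r ≤ e := by nlinarith
  have hS0 : 0 < S := by positivity
  have hS1 : 1 ≤ S := one_le_pow₀ one_le_two
  have spow : ∀ a b : ℕ, a ≤ e * b → (2:ℝ) ^ a ≤ S ^ b := fun a b h => by
    rw [hS, ← pow_mul]; exact pow_le_pow_right₀ one_le_two h
  have spow1 : ∀ a : ℕ, a ≤ e → (2:ℝ) ^ a ≤ S := fun a h => pow_le_pow_right₀ one_le_two h
  have hr2 : 2 * r ≤ 2 ^ (2 * r) := by
    have : r ≤ 2 ^ r := (Nat.lt_two_pow_self).le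
    rw [two_mul r, pow_add]; nlinarith
  have hnle : n ≤ 2 ^ (6 * r) := by
    rw [hJ, show 6 * r = 4 * r + 2 * r by ring, pow_add]
    exact Nat.mul_le_mul_left _ hr2
  have hnR : (n:ℝ) ≤ 2 ^ (6 * r) := by exact_mod_cast hnle
  have hn1 : 20 ≤ n := by
    rw [hJ]; nlinarith [Nat.one_le_two_pow (n := 4 * r)]
  have hn1R : (20:ℝ) ≤ n := by exact_mod_cast hn1
  have hM : ((2 ^ (2 * r) - 1 : ℕ) : ℝ) ≤ 2 ^ (2 * r) := by
    have : (2 ^ (2 * r) - 1 : ℕ) ≤ 2 ^ (2 * r) := Nat.sub_le _ _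
    exact_mod_cast this
  set Mn : ℝ := ((2 ^ (2 * r) - 1 : ℕ) : ℝ) with hMn
  have Mn0 : 0 ≤ Mn := Nat.cast_nonneg _
  have hSbb : (2:ℝ) ^ B.bb = S := by rw [hbb, hS, he]; congr 1; ring
  -- the density is tiny
  have hdens : B.dens * S ^ 40 ≤ 1 := by
    refine le_trans (mul_le_mul_of_nonneg_right hd (by positivity)) ?_
    have h1 : ((s : ℕ) : ℝ) ≤ (2:ℝ) ^ e := by
      rw [hs]; push_cast
      exact pow_le_pow_right₀ one_le_two (by nlinarith)
    have h2 : ((2 ^ (4 * r) : ℕ) : ℝ) ^ s = S ^ 2 := by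
      push_cast; rw [hS, ← pow_mul, ← pow_mul, he]; congr 1; ring
    rw [h2]
    calc ((s : ℕ) : ℝ) * S ^ 2 *
          Real.exp (-((((2 ^ (4 * r) : ℕ) : ℝ) - ((s : ℕ) : ℝ)) / 2 ^ (2 * r))) * S ^ 40
        ≤ S * S ^ 2 * Real.exp (-((((2 ^ (4 * r) : ℕ) : ℝ) - ((s : ℕ) : ℝ)) / 2 ^ (2 * r))) * S ^ 40 := by
          gcongr
      _ = (2:ℝ) ^ (e * 43) * Real.exp (-((((2 ^ (4 * r) : ℕ) : ℝ) - ((s : ℕ) : ℝ)) / 2 ^ (2 * r))) := by
          rw [hS]; ring
      _ ≤ Real.exp ((e * 43 : ℕ) : ℝ) *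
            Real.exp (-((((2 ^ (4 * r) : ℕ) : ℝ) - ((s : ℕ) : ℝ)) / 2 ^ (2 * r))) := by
          gcongr; exact two_pow_le_exp _
      _ ≤ 1 := by
          rw [← Real.exp_add, Real.exp_le_one_iff, add_neg_le_iff_le_add, zero_add,
            le_div_iff₀ (by positivity)]
          have hk : ((2 ^ (4 * r) : ℕ) : ℝ) = ((2:ℝ) ^ (2 * r)) * ((2:ℝ) ^ (2 * r)) := by
            push_cast; rw [← pow_add]; congr 1; ring
          have hM2 : ((2:ℝ) ^ (2 * r)) = (s:ℝ) * s := by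
            rw [hs]; push_cast; rw [← pow_add]; congr 1; ring
          have hsR : (100:ℝ) * r * r + 100 * r + 100 ≤ (s:ℝ) := by exact_mod_cast hbig
          have hr0 : (0:ℝ) ≤ r := Nat.cast_nonneg r
          have key : ((e * 43 : ℕ) : ℝ) + 1 ≤ (s:ℝ) * s := by
            rw [he]; push_cast
            nlinarith
          have hs0 : (1:ℝ) ≤ s := by exact_mod_cast hs1
          rw [hk, hM2]
          nlinarith [mul_le_mul_of_nonneg_right key (show (0:ℝ) ≤ (s:ℝ) * s by positivity)]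
  exact ⟨hn1, hJ, hnR, hSbb, he32, hd0, hdens⟩

noncomputable def stageNum (r : ℕ) (hr : 20 ≤ r) {J : Type*} [Fintype J] [DecidableEq J] (B : Blk J)
    (F : ParamFacts r B) :
    StageNum B (2 ^ (2 * r) - 1) (1 / ((2:ℝ) ^ (2 * r * 2 ^ r)) ^ 4 / (512 * (Fintype.card J : ℝ))) := by
  have hbig := two_pow_ge r hr
  obtain ⟨hn1, hJ, hnR, hSbb, he32, hd0, hdens⟩ := F
  set n := Fintype.card J with hn
  set s := 2 ^ r with hs
  set e := 2 * r * s with he
  set S : ℝ := 2 ^ e with hS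
  have hs1 : 1 ≤ s := Nat.one_le_two_pow
  have hS0 : 0 < S := by positivity
  have hS1 : 1 ≤ S := one_le_pow₀ one_le_two
  have spow : ∀ a b : ℕ, a ≤ e * b → (2:ℝ) ^ a ≤ S ^ b := fun a b h => by
    rw [hS, ← pow_mul]; exact pow_le_pow_right₀ one_le_two h
  have spow1 : ∀ a : ℕ, a ≤ e → (2:ℝ) ^ a ≤ S := fun a h => pow_le_pow_right₀ one_le_two h
  have hn1R : (20:ℝ) ≤ n := by exact_mod_cast hn1
  have hM : ((2 ^ (2 * r) - 1 : ℕ) : ℝ) ≤ 2 ^ (2 * r) := by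
    have : (2 ^ (2 * r) - 1 : ℕ) ≤ 2 ^ (2 * r) := Nat.sub_le _ _
    exact_mod_cast this
  set Mn : ℝ := ((2 ^ (2 * r) - 1 : ℕ) : ℝ) with hMn
  have Mn0 : 0 ≤ Mn := Nat.cast_nonneg _
  have dS : ∀ a b : ℕ, a + b = 40 → S ^ a * B.dens ≤ 1 / S ^ b := fun a b h => by
    rw [le_div_iff₀ (by positivity), mul_right_comm, ← pow_add, h, mul_comm]
    exact hdens
  have inv_mono : ∀ a b : ℕ, a ≤ b → 1 / S ^ b ≤ 1 / S ^ a := fun a b h =>
    one_div_le_one_div_of_le (by positivity) (pow_le_pow_right₀ hS1 h)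
  -- polynomial quantities are at most powers of S
  have hnS : (n:ℝ) ≤ S := le_trans hnR (spow1 _ (by omega))
  have hMS : Mn ≤ S := le_trans hM (spow1 _ (by omega))
  have hn5 : 2 ^ 32 * (n:ℝ) ^ 5 ≤ S ^ 2 := by
    calc 2 ^ 32 * (n:ℝ) ^ 5 ≤ 2 ^ 32 * ((2:ℝ) ^ (6 * r)) ^ 5 := by gcongr
      _ = (2:ℝ) ^ (32 + 6 * r * 5) := by rw [← pow_mul, ← pow_add]
      _ ≤ _ := spow _ 2 (by omega)
  have h512 : 512 * (n:ℝ) ≤ S := by
    calc 512 * (n:ℝ) ≤ 512 * (2:ℝ) ^ (6 * r) := by gcongr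
      _ = (2:ℝ) ^ (9 + 6 * r) := by rw [pow_add]; norm_num
      _ ≤ _ := spow1 _ (by omega)
  set γ : ℝ := 1 / S ^ 4 / (512 * n) with hγ
  have γlo : 1 / S ^ 5 ≤ γ := by
    rw [hγ, div_div]
    exact one_div_le_one_div_of_le (by positivity)
      (by rw [pow_succ S 4]; exact mul_le_mul_of_nonneg_left h512 (by positivity))
  have γ0 : 0 < γ := by rw [hγ]; positivity
  have ηγ : 1 / S ^ 9 ≤ (1 / S ^ 2) ^ 2 * γ := by
    calc 1 / S ^ 9 = (1 / S ^ 2) ^ 2 * (1 / S ^ 5) := by ring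
      _ ≤ _ := by gcongr
  exact
    { η := 1 / S ^ 2
      G0 := S
      n_big := hn1
      lab_card := by
        rw [Nat.sub_add_cancel Nat.one_le_two_pow]
        exact Nat.pow_le_pow_right (by norm_num)
          (by rw [← hn, hJ]; nlinarith [Nat.one_le_two_pow (n := 4 * r)])
      γ_pos := γ0
      γ_le := by
        rw [hγ, div_le_one (by positivity)]
        have : 1 / S ^ 4 ≤ 1 := by
          rw [div_le_one (by positivity)]; exact one_le_pow₀ hS1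
        linarith
      dens_pos := hd0
      η_pos := by positivity
      η_lo := by
        rw [hS, ← pow_mul, ← hn, one_div_pow]
        refine one_div_le_one_div_of_le (by positivity) ?_
        rw [show (4:ℝ) = 2 ^ 2 by norm_num, ← pow_mul]
        refine pow_le_pow_right₀ one_le_two ?_
        rw [hJ, he, hs]
        have : 2 ^ r ≤ 2 ^ (4 * r) := Nat.pow_le_pow_right (by norm_num) (by omega)
        nlinarith
      η_small := by
        have h8 : (1:ℝ) / 10000 ≤ Real.exp (-8) := by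
          rw [Real.exp_neg, one_div]
          refine inv_anti₀ (Real.exp_pos _) ?_
          calc Real.exp 8 = Real.exp 1 ^ 8 := by rw [← Real.exp_nat_mul]; norm_num
            _ ≤ (3:ℝ) ^ 8 := pow_le_pow_left₀ (Real.exp_pos _).le
                  (Real.exp_one_lt_d9.le.trans (by norm_num)) 8
            _ ≤ 10000 := by norm_num
        have hS2 : (2:ℝ) ^ 21 ≤ S ^ 2 := spow 21 2 (by omega)
        rw [mul_one_div, div_le_iff₀ (by positivity)]
        nlinarith [Real.pi_lt_d2]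
      η_bb := by
        rw [hSbb, mul_one_div, div_lt_one (by positivity)]
        have : 2 ≤ S := by
          calc (2:ℝ) = 2 ^ 1 := (pow_one 2).symm
            _ ≤ S := spow1 1 (by omega)
        nlinarith
      G0_big := by
        calc 4000 * (n:ℝ) ^ 2 ≤ 2 ^ 12 * ((2:ℝ) ^ (6 * r)) ^ 2 := by gcongr; norm_num
          _ = (2:ℝ) ^ (12 + 6 * r * 2) := by rw [← pow_mul, ← pow_add]
          _ ≤ S := spow1 _ (by omega)
      num1 := by
        have h1 : 40000000 * (n:ℝ) ^ 3 ≤ S ^ 2 := by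
          calc 40000000 * (n:ℝ) ^ 3 ≤ 2 ^ 26 * ((2:ℝ) ^ (6 * r)) ^ 3 := by gcongr; norm_num
            _ = (2:ℝ) ^ (26 + 6 * r * 3) := by rw [← pow_mul, ← pow_add]
            _ ≤ _ := spow _ 2 (by omega)
        calc 40000000 * (n:ℝ) ^ 3 * B.dens ≤ S ^ 2 * B.dens := by gcongr
          _ ≤ 1 / S ^ 38 := dS 2 38 (by norm_num)
          _ ≤ 1 / S ^ 18 := inv_mono _ _ (by norm_num)
          _ = (1 / S ^ 2) ^ 4 * (1 / S ^ 5) ^ 2 := by ring
          _ ≤ _ := by gcongr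
      num2 := by
        calc S * B.dens = S ^ 1 * B.dens := by rw [pow_one]
          _ ≤ 1 / S ^ 39 := dS 1 39 (by norm_num)
          _ ≤ 1 / S ^ 9 := inv_mono _ _ (by norm_num)
          _ ≤ _ := ηγ
      numB := by
        have h1 : 2 ^ 20 * (n:ℝ) ≤ S := by
          calc 2 ^ 20 * (n:ℝ) ≤ 2 ^ 20 * (2:ℝ) ^ (6 * r) := by gcongr
            _ = (2:ℝ) ^ (20 + 6 * r) := by rw [pow_add]
            _ ≤ _ := spow1 _ (by omega)
        have h2 : S * S * B.dens ≤ 1 / S ^ 38 := by rw [← pow_two]; exact dS 2 38 (by norm_num)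
        have h3 : (1:ℝ) / S ^ 38 < 1 / S ^ 9 := by
          refine one_div_lt_one_div_of_lt (by positivity) (pow_lt_pow_right₀ ?_ (by norm_num))
          calc (1:ℝ) < 2 ^ 1 := by norm_num
            _ ≤ S := spow1 1 (by omega)
        calc 2 ^ 20 * (n:ℝ) * B.dens * S ≤ S * B.dens * S := by gcongr
          _ = S * S * B.dens := by ring
          _ ≤ 1 / S ^ 38 := h2
          _ < 1 / S ^ 9 := h3
          _ ≤ _ := ηγ
      numC := by
        calc 64 * Mn * (n:ℝ) ^ 3 ≤ 2 ^ 6 * (2:ℝ) ^ (2 * r) * ((2:ℝ) ^ (6 * r)) ^ 3 := by gcongr; norm_num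
          _ = (2:ℝ) ^ (6 + 2 * r + 6 * r * 3) := by rw [← pow_mul, ← pow_add, ← pow_add]
          _ ≤ S := spow1 _ (by omega)
      numD := by
        have h1 : 144 * 2 ^ 20 * Mn * (n:ℝ) ^ 2 ≤ S ^ 2 := by
          calc 144 * 2 ^ 20 * Mn * (n:ℝ) ^ 2 ≤ 2 ^ 28 * (2:ℝ) ^ (2 * r) * ((2:ℝ) ^ (6 * r)) ^ 2 := by
                gcongr; norm_num
            _ = (2:ℝ) ^ (28 + 2 * r + 6 * r * 2) := by rw [← pow_mul, ← pow_add, ← pow_add]
            _ ≤ _ := spow _ 2 (by omega)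
        calc 144 * 2 ^ 20 * Mn * (n:ℝ) ^ 2 * B.dens ≤ S ^ 2 * B.dens := by gcongr
          _ ≤ 1 / S ^ 38 := dS 2 38 (by norm_num)
          _ ≤ 1 / S ^ 9 := inv_mono _ _ (by norm_num)
          _ ≤ _ := ηγ }

theorem exists_roundNum (r : ℕ) (hr : 20 ≤ r) {J : Type*} [Fintype J] [DecidableEq J] (B : Blk J)
    (hJ : Fintype.card J = 2 ^ (4 * r) * (2 * r)) (hbb : B.bb = 2 ^ r * (2 * r))
    (hd0 : 0 < B.dens)
    (hd : B.dens ≤ ((2 ^ r : ℕ) : ℝ) * ((2 ^ (4 * r) : ℕ) : ℝ) ^ (2 ^ r) *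
      Real.exp (-((((2 ^ (4 * r) : ℕ) : ℝ) - ((2 ^ r : ℕ) : ℝ)) / 2 ^ (2 * r)))) :
    ∃ N : RoundNum B (2 ^ (2 * r) - 1) (2 ^ (3 * r)),
      N.lam = 1 / ((2:ℝ) ^ (4 * r)) ^ 4 ∧
      8 * (2 * (Fintype.card J : ℝ) * ((2 ^ (2 * r) - 1 : ℕ) : ℝ) * N.ρ) *
        (4 * ((2:ℝ) ^ (4 * r)) ^ 2 * (6 * r + 4) ^ 2) ≤ 1 := by
  have F := paramFacts r hr B hJ hbb hd0 hd
  have st := stageNum r hr B F
  clear hd hd0 hJ
  have hbig := two_pow_ge r hr
  obtain ⟨hn1, hJ, hnR, hSbb, he32, hd0, hdens⟩ := F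
  set n := Fintype.card J with hn
  set s := 2 ^ r with hs
  set e := 2 * r * s with he
  set S : ℝ := 2 ^ e with hS
  have hs1 : 1 ≤ s := Nat.one_le_two_pow
  have hS0 : 0 < S := by positivity
  have hS1 : 1 ≤ S := one_le_pow₀ one_le_two
  have spow : ∀ a b : ℕ, a ≤ e * b → (2:ℝ) ^ a ≤ S ^ b := fun a b h => by
    rw [hS, ← pow_mul]; exact pow_le_pow_right₀ one_le_two h
  have spow1 : ∀ a : ℕ, a ≤ e → (2:ℝ) ^ a ≤ S := fun a h => pow_le_pow_right₀ one_le_two h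
  have hn1R : (20:ℝ) ≤ n := by exact_mod_cast hn1
  have hM : ((2 ^ (2 * r) - 1 : ℕ) : ℝ) ≤ 2 ^ (2 * r) := by
    have : (2 ^ (2 * r) - 1 : ℕ) ≤ 2 ^ (2 * r) := Nat.sub_le _ _
    exact_mod_cast this
  set Mn : ℝ := ((2 ^ (2 * r) - 1 : ℕ) : ℝ) with hMn
  have Mn0 : 0 ≤ Mn := Nat.cast_nonneg _
  have dS : ∀ a b : ℕ, a + b = 40 → S ^ a * B.dens ≤ 1 / S ^ b := fun a b h => by
    rw [le_div_iff₀ (by positivity), mul_right_comm, ← pow_add, h, mul_comm]
    exact hdens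
  have inv_mono : ∀ a b : ℕ, a ≤ b → 1 / S ^ b ≤ 1 / S ^ a := fun a b h =>
    one_div_le_one_div_of_le (by positivity) (pow_le_pow_right₀ hS1 h)
  -- polynomial quantities are at most powers of S
  have hnS : (n:ℝ) ≤ S := le_trans hnR (spow1 _ (by omega))
  have hMS : Mn ≤ S := le_trans hM (spow1 _ (by omega))
  have hn5 : 2 ^ 32 * (n:ℝ) ^ 5 ≤ S ^ 2 := by
    calc 2 ^ 32 * (n:ℝ) ^ 5 ≤ 2 ^ 32 * ((2:ℝ) ^ (6 * r)) ^ 5 := by gcongr
      _ = (2:ℝ) ^ (32 + 6 * r * 5) := by rw [← pow_mul, ← pow_add]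
      _ ≤ _ := spow _ 2 (by omega)
  have hnM : 2 * (n:ℝ) * Mn ≤ (2:ℝ) ^ (1 + 6 * r + 2 * r) := by
    rw [pow_add, pow_add, pow_one]; gcongr
  refine ⟨{ ρ := 1 / S ^ 4
            ε0 := 1 / S
            lam := 1 / ((2:ℝ) ^ (4 * r)) ^ 4
            ρ_pos := by positivity
            ε0_pos := by positivity
            beta_le := ?_
            frame := ?_
            stage := st
            numE := ?_
            numF := ?_
            numG := ?_
            numH := ?_ }, rfl, ?_⟩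
  · rw [← hn, mul_one_div, div_le_one (by positivity)]
    exact le_trans hnM (spow _ 4 (by omega))
  · calc 2 ^ 32 * (n:ℝ) ^ 5 * B.dens ≤ S ^ 2 * B.dens := by gcongr
      _ ≤ 1 / S ^ 38 := dS 2 38 (by norm_num)
      _ ≤ _ := inv_mono _ _ (by norm_num)
  · have h1 : S ≤ (1 / S) ^ 2 / (8 * B.dens) := by
      rw [div_pow, one_pow, le_div_iff₀ (by positivity), le_div_iff₀ (by positivity)]
      have hb : S * (8 * B.dens) * S ^ 2 = 8 * (S ^ 3 * B.dens) := by ring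
      rw [hb]
      have h3 := dS 3 37 (by norm_num)
      have h4 : (8:ℝ) ≤ S ^ 37 := by
        calc (8:ℝ) = 2 ^ 3 := by norm_num
          _ ≤ _ := spow 3 37 (by omega)
      calc 8 * (S ^ 3 * B.dens) ≤ 8 * (1 / S ^ 37) := by gcongr
        _ ≤ 1 := by rw [mul_one_div, div_le_one (by positivity)]; exact h4
    refine le_trans (mul_le_mul_of_nonneg_left (Real.exp_le_exp.2 (neg_le_neg h1)) (by positivity)) ?_
    rw [← hn]
    calc 2 * (2:ℝ) ^ n * Mn * Real.exp (-S) ≤ (2:ℝ) ^ (1 + n + 2 * r) * Real.exp (-S) := by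
          rw [pow_add, pow_add, pow_one]
          gcongr
      _ ≤ Real.exp ((1 + n + 2 * r : ℕ) : ℝ) * Real.exp (-S) := by gcongr; exact two_pow_le_exp _
      _ ≤ Real.exp (-(3:ℝ)) := by
          rw [← Real.exp_add]
          apply Real.exp_le_exp.2
          push_cast
          have h5 : ((2:ℝ)) ^ (6 * r) * 4 ≤ S := by
            calc ((2:ℝ)) ^ (6 * r) * 4 = 2 ^ (6 * r + 2) := by rw [pow_add]; norm_num
              _ ≤ S := spow1 _ (by omega)
          have h7 : (r:ℝ) ≤ n := by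
            have : r ≤ n := by rw [hJ]; nlinarith [Nat.one_le_two_pow (n := 4 * r)]
            exact_mod_cast this
          linarith
      _ ≤ 1/8 := by
          rw [Real.exp_neg, ← one_div]
          refine one_div_le_one_div_of_le (by norm_num) ?_
          have := Real.quadratic_le_exp_of_nonneg (x := 3) (by norm_num)
          linarith
  · rw [hSbb, ← hn]
    have h1 : S * (2 * (n:ℝ) * Mn * (1 / S ^ 4)) ≤ 1 / S ^ 2 := by
      rw [mul_one_div, mul_div_assoc', div_le_div_iff₀ (by positivity) (by positivity), one_mul]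
      calc S * (2 * (n:ℝ) * Mn) * S ^ 2 = 2 * (n:ℝ) * Mn * S ^ 3 := by ring
        _ ≤ S * S ^ 3 := by gcongr; exact le_trans hnM (spow1 _ (by omega))
        _ = _ := by ring
    refine le_trans (mul_le_mul_of_nonneg_left (pow_le_pow_left₀ (by positivity) h1 _) (by positivity)) ?_
    have hexp : e * 2 * 2 ^ (3 * r) = 2 * n := by
      rw [hJ, he, hs, show 4 * r = r + 3 * r by ring, pow_add]; ring
    rw [one_div_pow, hS, ← pow_mul, ← pow_mul, ← mul_assoc, hexp, two_mul n, pow_add]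
    rw [mul_one_div, div_mul_eq_div_div, div_self (by positivity),
      div_le_div_iff₀ (by positivity) (by norm_num)]
    calc (1:ℝ) * 8 = 2 ^ 3 := by norm_num
      _ ≤ 2 ^ n := pow_le_pow_right₀ one_le_two (by omega)
      _ = _ := (one_mul _).symm
  · rw [← hn]
    have h1 := Real.pow_div_factorial_le_exp (n:ℝ) (by positivity) 3
    have h2 : Mn ≤ n := by
      refine le_trans hM ?_
      have : 2 ^ (2 * r) ≤ n := by
        rw [hJ]
        calc 2 ^ (2 * r) ≤ 2 ^ (4 * r) := Nat.pow_le_pow_right (by norm_num) (by omega)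
          _ ≤ _ := Nat.le_mul_of_pos_right _ (by omega)
      exact_mod_cast this
    rw [Real.exp_neg, mul_inv_le_iff₀ (Real.exp_pos _)]
    norm_num [Nat.factorial] at h1
    have hbn : (1000:ℝ) ≤ n := by
      have : 1000 ≤ n := by
        rw [hJ]
        nlinarith [Nat.pow_le_pow_right (show 1 ≤ 2 by norm_num) (show 10 ≤ 4 * r by omega)]
      exact_mod_cast this
    calc 2 * (n:ℝ) * Mn ≤ 2 * n * n := by gcongr
      _ ≤ 1/8 * Real.exp n := by nlinarith [mul_le_mul_of_nonneg_right hbn (sq_nonneg (n:ℝ))]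
  · rw [← hn]
    have h2 : (1/2:ℝ) ^ n ≤ 1 / S := by
      rw [one_div_pow, hS]
      refine one_div_le_one_div_of_le (by positivity) (pow_le_pow_right₀ one_le_two ?_)
      rw [hJ, he, hs]
      have : 2 ^ r ≤ 2 ^ (4 * r) := Nat.pow_le_pow_right (by norm_num) (by omega)
      nlinarith
    have hG : ((2 ^ (3 * r) : ℕ) : ℝ) + 1 ≤ (2:ℝ) ^ (3 * r + 1) := by
      push_cast; rw [pow_succ]; nlinarith [one_le_pow₀ (M₀ := ℝ) (n := 3 * r) one_le_two]
    have hM1 : Mn + 1 = (2:ℝ) ^ (2 * r) := by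
      rw [hMn, Nat.cast_sub Nat.one_le_two_pow]; push_cast; ring
    rw [← hMn, hM1]
    calc (2:ℝ) ^ (2 * r) * ((((2 ^ (3 * r) : ℕ) : ℝ) + 1) * (1 / S + (1/2) ^ n))
        ≤ (2:ℝ) ^ (2 * r) * ((2:ℝ) ^ (3 * r + 1) * (1 / S + 1 / S)) := by gcongr
      _ = (2:ℝ) ^ (2 * r + (3 * r + 1) + 1) / S := by rw [pow_succ, pow_add]; ring
      _ ≤ _ := by
          rw [div_le_div_iff₀ hS0 (by positivity), one_mul, ← pow_mul, ← pow_add]
          exact spow1 _ (by omega)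
  · show 8 * (2 * (n:ℝ) * Mn * (1 / S ^ 4)) * _ ≤ 1
    have hR : (6 * (r:ℝ) + 4) ≤ 2 ^ (2 * r) := by
      have : 6 * r + 4 ≤ 2 ^ r := by nlinarith
      have h' : (2:ℕ) ^ r ≤ 2 ^ (2 * r) := Nat.pow_le_pow_right (by norm_num) (by omega)
      exact_mod_cast le_trans this h'
    calc 8 * (2 * (n:ℝ) * Mn * (1 / S ^ 4)) * (4 * ((2:ℝ) ^ (4 * r)) ^ 2 * (6 * r + 4) ^ 2)
        ≤ 8 * ((2:ℝ) ^ (1 + 6 * r + 2 * r) * (1 / S ^ 4)) *
            (4 * ((2:ℝ) ^ (4 * r)) ^ 2 * ((2:ℝ) ^ (2 * r)) ^ 2) := by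
          gcongr
      _ = (2:ℝ) ^ 3 * 2 ^ (1 + 6 * r + 2 * r) * (2 ^ 2 * 2 ^ (4 * r * 2) * 2 ^ (2 * r * 2)) / S ^ 4 := by
          rw [← pow_mul (2:ℝ) (4 * r) 2, ← pow_mul (2:ℝ) (2 * r) 2]; ring
      _ = (2:ℝ) ^ (6 + 20 * r) / S ^ 4 := by
          rw [← pow_add, ← pow_add, ← pow_add, ← pow_add]; congr 2; ring
      _ ≤ 1 := by rw [div_le_one (by positivity)]; exact spow _ 4 (by omega)

end Vale.Agent.P047
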