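import Mathlib

/-!
P047: Jackson weights: a partition of unity on `[-1,1]` by polynomials of degree `≤ 2q` whose
second moment is `O(1/q²)`.
-/

namespace Vale.Agent.P047

open Finset Real

namespace Jackson

/-- The squared modulus of the Dirichlet kernel. -/
noncomputable def fejer (q : ℕ) (t : ℝ) : ℝ :=
  ∑ x ∈ range q ×ˢ range q, cos ((((x.1 : ℤ) - x.2 : ℤ) : ℝ) * t)

/-- Quadruples indexing the square of the Fejér kernel. -/
def quad (q : ℕ) : Finset ((ℕ × ℕ) × ℕ × ℕ) := (range q ×ˢ range q) ×ˢ range q ×ˢ range q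

/-- The frequency of a quadruple. -/
def freq (x : (ℕ × ℕ) × ℕ × ℕ) : ℤ := ((x.1.1 : ℤ) + x.1.2) - (x.2.1 + x.2.2)

/-- The Jackson kernel. -/
noncomputable def jker (q : ℕ) (t : ℝ) : ℝ := ∑ x ∈ quad q, cos ((freq x : ℝ) * t)

lemma fejer_eq (q : ℕ) (t : ℝ) : fejer q t
    = (∑ a ∈ range q, cos (a * t)) ^ 2 + (∑ a ∈ range q, sin (a * t)) ^ 2 := by
  rw [fejer, Finset.sum_product, sq, sq, Finset.sum_mul_sum, Finset.sum_mul_sum,
    ← Finset.sum_add_distrib]
  refine Finset.sum_congr rfl fun a _ => ?_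
  rw [← Finset.sum_add_distrib]
  refine Finset.sum_congr rfl fun b _ => ?_
  push_cast
  rw [sub_mul, cos_sub]

lemma fejer_nonneg (q : ℕ) (t : ℝ) : 0 ≤ fejer q t := by
  rw [fejer_eq]; positivity

lemma sums_eq (q : ℕ) (t : ℝ) :
    (1 - cos t) * (∑ a ∈ range q, cos (a * t)) + sin t * (∑ a ∈ range q, sin (a * t))
      = 1 - cos (q * t) ∧
    (1 - cos t) * (∑ a ∈ range q, sin (a * t)) - sin t * (∑ a ∈ range q, cos (a * t))
      = -sin (q * t) := by
  induction q with
  | zero => simp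
  | succ n ih =>
    obtain ⟨h1, h2⟩ := ih
    rw [Finset.sum_range_succ, Finset.sum_range_succ, Nat.cast_succ, add_mul, one_mul, cos_add,
      sin_add]
    exact ⟨by linear_combination h1, by linear_combination h2⟩

lemma fejer_bound (q : ℕ) (t : ℝ) : (2 - 2 * cos t) * fejer q t ≤ 4 := by
  obtain ⟨h1, h2⟩ := sums_eq q t
  set C := ∑ a ∈ range q, cos (a * t)
  set S := ∑ a ∈ range q, sin (a * t)
  have hs := sin_sq_add_cos_sq t
  have hs' := sin_sq_add_cos_sq (q * t)
  have hc := neg_one_le_cos (q * t)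
  rw [fejer_eq]
  have : (2 - 2 * cos t) * (C ^ 2 + S ^ 2)
      = ((1 - cos t) * C + sin t * S) ^ 2 + ((1 - cos t) * S - sin t * C) ^ 2 := by
    linear_combination (-(C ^ 2 + S ^ 2)) * hs
  rw [this, h1, h2]
  nlinarith

lemma jker_eq (q : ℕ) (t : ℝ) : jker q t = fejer q t ^ 2 := by
  rw [fejer_eq]
  set C := ∑ a ∈ range q, cos (a * t) with hC
  set S := ∑ a ∈ range q, sin (a * t) with hS
  have hc : ∑ p ∈ range q ×ˢ range q, cos (((p.1 : ℝ) + p.2) * t) = C ^ 2 - S ^ 2 := by
    rw [Finset.sum_product, sq, sq, hC, hS, Finset.sum_mul_sum, Finset.sum_mul_sum,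
      ← Finset.sum_sub_distrib]
    refine Finset.sum_congr rfl fun a _ => ?_
    rw [← Finset.sum_sub_distrib]
    exact Finset.sum_congr rfl fun b _ => by rw [add_mul, cos_add]
  have hs : ∑ p ∈ range q ×ˢ range q, sin (((p.1 : ℝ) + p.2) * t) = 2 * (S * C) := by
    rw [Finset.sum_product, two_mul]
    nth_rw 2 [mul_comm S C]
    rw [hC, hS, Finset.sum_mul_sum, Finset.sum_mul_sum, ← Finset.sum_add_distrib]
    refine Finset.sum_congr rfl fun a _ => ?_
    rw [← Finset.sum_add_distrib]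
    exact Finset.sum_congr rfl fun b _ => by rw [add_mul, sin_add]
  have h : jker q t = (C ^ 2 - S ^ 2) * (C ^ 2 - S ^ 2) + (2 * (S * C)) * (2 * (S * C)) := by
    rw [← hc, ← hs, Finset.sum_mul_sum, Finset.sum_mul_sum, ← Finset.sum_add_distrib, jker, quad,
      Finset.sum_product]
    refine Finset.sum_congr rfl fun a _ => ?_
    rw [← Finset.sum_add_distrib]
    refine Finset.sum_congr rfl fun b _ => ?_
    simp only [freq]
    push_cast
    rw [sub_mul, cos_sub]
  rw [h]; ring

lemma grid_sum {P : ℕ} {m : ℤ} (hm : m ≠ 0) (hmP : |m| < (P : ℤ)) (x : ℝ) :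
    ∑ g ∈ range P, cos (x + (m : ℝ) * (2 * π * g / P)) = 0 := by
  have hP : (0 : ℝ) < P := by exact_mod_cast lt_of_le_of_lt (abs_nonneg m) hmP
  set h := (m : ℝ) * π / P with hh
  have hne : sin h ≠ 0 := by
    rw [Ne, sin_eq_zero_iff]
    rintro ⟨n, hn⟩
    have h1 : ((n * P : ℤ) : ℝ) = (m : ℝ) := by
      rw [hh, eq_div_iff hP.ne'] at hn
      push_cast
      exact mul_right_cancel₀ pi_ne_zero (by linarith)
    have h2 : n * P = m := Int.cast_injective h1
    rcases eq_or_ne n 0 with h0 | h0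
    · exact hm (by rw [← h2, h0, zero_mul])
    · have : (P : ℤ) ≤ |m| := by
        rw [← h2, abs_mul, Nat.abs_cast]
        exact le_mul_of_one_le_left (Int.natCast_nonneg P) (Int.one_le_abs h0)
      omega
  have key : ∑ g ∈ range P, 2 * sin h * cos (x + (m : ℝ) * (2 * π * g / P)) = 0 := by
    have e : ∀ g : ℕ, 2 * sin h * cos (x + (m : ℝ) * (2 * π * g / P))
        = sin (x + (2 * ((g + 1 : ℕ) : ℝ) - 1) * h) - sin (x + (2 * (g : ℝ) - 1) * h) := by
      intro g
      rw [sin_sub_sin, hh]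
      push_cast
      ring_nf
    rw [Finset.sum_congr rfl (fun g _ => e g),
      Finset.sum_range_sub (fun g : ℕ => sin (x + (2 * (g : ℝ) - 1) * h)), sub_eq_zero]
    have e2 : x + (2 * (P : ℝ) - 1) * h = x + (2 * ((0 : ℕ) : ℝ) - 1) * h + (m : ℝ) * (2 * π) := by
      rw [hh, Nat.cast_zero]; field_simp; ring
    rw [e2, sin_add_int_mul_two_pi]
  rw [← Finset.mul_sum] at key
  exact (mul_eq_zero.1 key).resolve_left (by simpa using hne)

lemma sum_grid {ι : Type*} [DecidableEq ι] (s : Finset ι) (f : ι → ℤ) {P : ℕ}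
    (hf : ∀ i ∈ s, |f i| < (P : ℤ)) (φ : ℝ) :
    ∑ g ∈ range P, ∑ i ∈ s, cos ((f i : ℝ) * (φ + 2 * π * g / P))
      = (P : ℝ) * ((s.filter (fun i => f i = 0)).card : ℝ) := by
  rw [Finset.sum_comm, ← Finset.sum_filter_add_sum_filter_not s (fun i => f i = 0)]
  have h1 : ∀ i ∈ s.filter (fun i => f i = 0),
      ∑ g ∈ range P, cos ((f i : ℝ) * (φ + 2 * π * g / P)) = (P : ℝ) := fun i hi => by
    simp [(Finset.mem_filter.1 hi).2]
  have h2 : ∀ i ∈ s.filter (fun i => ¬ f i = 0),
      ∑ g ∈ range P, cos ((f i : ℝ) * (φ + 2 * π * g / P)) = 0 := fun i hi => by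
    obtain ⟨hi1, hi2⟩ := Finset.mem_filter.1 hi
    simp only [mul_add]
    exact grid_sum hi2 (hf i hi1) _
  rw [Finset.sum_congr rfl h1, Finset.sum_eq_zero h2, add_zero, Finset.sum_const, nsmul_eq_mul,
    mul_comm]

/-- The number of quadruples of frequency zero. -/
def diagN (q : ℕ) : ℕ := ((quad q).filter (fun x => freq x = 0)).card

lemma cube_le_diagN (q : ℕ) : q ^ 3 ≤ 2 * diagN q := by
  set P := range q ×ˢ range q with hP
  set r : ℕ → ℕ := fun s => (P.filter (fun p => p.1 + p.2 = s)).card with hr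
  have hN : diagN q = ∑ s ∈ range (2 * q), r s * r s := by
    rw [diagN, Finset.card_eq_sum_card_fiberwise
      (f := fun x : (ℕ × ℕ) × ℕ × ℕ => x.1.1 + x.1.2) (t := range (2 * q))]
    · refine Finset.sum_congr rfl fun s _ => ?_
      rw [hr, ← Finset.card_product, ← Finset.filter_product]
      congr 1
      ext x
      rw [Finset.mem_filter, Finset.mem_filter]
      simp only [quad, freq, hP, Finset.mem_filter, Finset.mem_product, Finset.mem_range]
      constructor <;> intro h <;> omega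
    · intro x hx
      simp only [quad, Finset.mem_coe, Finset.mem_filter, Finset.mem_product,
        Finset.mem_range] at hx ⊢
      omega
  have htot : ∑ s ∈ range (2 * q), r s = q * q := by
    rw [hr, ← Finset.card_eq_sum_card_fiberwise, hP, Finset.card_product, Finset.card_range]
    intro x hx
    simp only [hP, Finset.mem_coe, Finset.mem_product, Finset.mem_range] at hx ⊢
    omega
  have hcs := sq_sum_le_card_mul_sum_sq (s := range (2 * q)) (f := r)
  rw [htot, Finset.card_range] at hcs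
  simp only [sq] at hcs
  rw [← hN] at hcs
  rcases Nat.eq_zero_or_pos q with rfl | hq
  · simp
  · refine Nat.le_of_mul_le_mul_left ?_ hq
    calc q * q ^ 3 = q * q * (q * q) := by ring
      _ ≤ 2 * q * diagN q := hcs
      _ = q * (2 * diagN q) := by ring

lemma freq_bound {q : ℕ} {x : (ℕ × ℕ) × ℕ × ℕ} (hx : x ∈ quad q) : |freq x| ≤ 2 * (q : ℤ) := by
  simp only [quad, Finset.mem_product, Finset.mem_range] at hx
  rw [freq, abs_le]
  omega

end Jackson

open Jackson in
theorem jackson (q : ℕ) (hq : 1 ≤ q) :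
    ∃ (P : ℕ) (w : Fin P → Polynomial ℝ) (c : Fin P → ℝ),
      (∀ g, (w g).natDegree ≤ 2 * q) ∧ (∀ g, |c g| ≤ 1) ∧
      ∀ y : ℝ, |y| ≤ 1 → (∀ g, 0 ≤ (w g).eval y) ∧ ∑ g, (w g).eval y = 1 ∧
        ∑ g, (w g).eval y * (y - c g) ^ 2 ≤ 16 / (q : ℝ) ^ 2 := by
  classical
  have hqR : (0 : ℝ) < q := by exact_mod_cast hq
  set N := diagN q with hN
  have hN3 : (q : ℝ) ^ 3 ≤ 2 * (N : ℝ) := by exact_mod_cast cube_le_diagN q
  have hN0 : (0 : ℝ) < N := by nlinarith [pow_pos hqR 3]
  set Z : ℝ := (4 * q : ℕ) * (N : ℝ) with hZ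
  have hZ0 : 0 < Z := by rw [hZ]; push_cast; positivity
  set ang : ℕ → ℝ := fun g => 2 * π * g / (4 * q : ℕ) with hang
  let w : Fin (4 * q) → Polynomial ℝ := fun g =>
    ∑ x ∈ quad q, Polynomial.C (cos ((freq x : ℝ) * ang g) / Z) * Polynomial.Chebyshev.T ℝ (freq x)
  refine ⟨4 * q, w, fun g => cos (ang g), fun g => ?_, fun g => abs_cos_le_one _, fun y hy => ?_⟩
  · refine Polynomial.natDegree_sum_le_of_forall_le _ _ fun x hx => ?_
    refine (Polynomial.natDegree_C_mul_le _ _).trans ?_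
    rw [Polynomial.Chebyshev.natDegree_T]
    have := freq_bound hx
    rw [abs_le] at this
    omega
  obtain ⟨hy1, hy2⟩ := abs_le.1 hy
  set φ := arccos y with hφ
  have hyφ : y = cos φ := (cos_arccos hy1 hy2).symm
  have heval : ∀ g : Fin (4 * q), (w g).eval y
      = (jker q (φ + ang g) + jker q (-φ + ang g)) / (2 * Z) := by
    intro g
    simp only [w, Polynomial.eval_finsetSum, Polynomial.eval_mul, Polynomial.eval_C, hyφ,
      Polynomial.Chebyshev.T_real_cos]
    rw [jker, jker, ← Finset.sum_add_distrib, Finset.sum_div]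
    refine Finset.sum_congr rfl fun x _ => ?_
    rw [cos_add_cos]
    rw [show ((freq x : ℝ) * (φ + ang g) + (freq x : ℝ) * (-φ + ang g)) / 2
      = (freq x : ℝ) * ang g by ring,
      show ((freq x : ℝ) * (φ + ang g) - (freq x : ℝ) * (-φ + ang g)) / 2 = (freq x : ℝ) * φ by ring]
    field_simp
  have hK : ∀ t, ∑ g : Fin (4 * q), jker q (t + ang g) = Z := by
    intro t
    rw [Fin.sum_univ_eq_sum_range (fun g : ℕ => jker q (t + ang g))]
    simp only [jker, hang]
    exact sum_grid (quad q) freq (fun x hx => (freq_bound hx).trans_lt (by push_cast; omega)) t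
  have hF : ∀ t, ∑ g : Fin (4 * q), fejer q (t + ang g) = (4 * q : ℕ) * (q : ℝ) := by
    intro t
    rw [Fin.sum_univ_eq_sum_range (fun g : ℕ => fejer q (t + ang g))]
    simp only [fejer, hang]
    refine (sum_grid (range q ×ˢ range q) (fun x : ℕ × ℕ => (x.1 : ℤ) - x.2) (fun x hx => ?_) t).trans ?_
    · simp only [Finset.mem_product, Finset.mem_range] at hx
      rw [abs_lt]; push_cast; omega
    · congr 2
      rw [show (range q ×ˢ range q).filter (fun x : ℕ × ℕ => (x.1 : ℤ) - x.2 = 0)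
        = (range q).image (fun a => (a, a)) by
          ext ⟨a, b⟩
          simp only [Finset.mem_filter, Finset.mem_product, Finset.mem_range, Finset.mem_image,
            Prod.mk.injEq, sub_eq_zero, Int.ofNat_inj]
          constructor
          · rintro ⟨⟨h1, -⟩, rfl⟩; exact ⟨a, h1, rfl, rfl⟩
          · rintro ⟨c, h, rfl, rfl⟩; exact ⟨⟨h, h⟩, rfl⟩,
        Finset.card_image_of_injective _ (fun a b h => congrArg Prod.fst h), Finset.card_range]
  have hpt : ∀ t a : ℝ, jker q (t + a) * (cos t - cos a) ^ 2 ≤ 4 * fejer q (t + a) := by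
    intro t a
    rw [jker_eq]
    have hd : (cos t - cos a) ^ 2 ≤ 2 - 2 * cos (t + a) := by
      rw [cos_add]
      nlinarith [sin_sq_add_cos_sq t, sin_sq_add_cos_sq a, sq_nonneg (sin t + sin a)]
    have h := fejer_bound q (t + a)
    have h0 := fejer_nonneg q (t + a)
    calc fejer q (t + a) ^ 2 * (cos t - cos a) ^ 2
        ≤ fejer q (t + a) ^ 2 * (2 - 2 * cos (t + a)) :=
          mul_le_mul_of_nonneg_left hd (sq_nonneg _)
      _ = fejer q (t + a) * ((2 - 2 * cos (t + a)) * fejer q (t + a)) := by ring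
      _ ≤ fejer q (t + a) * 4 := mul_le_mul_of_nonneg_left h h0
      _ = _ := mul_comm _ _
  refine ⟨fun g => ?_, ?_, ?_⟩
  · rw [heval, jker_eq, jker_eq]; positivity
  · simp only [heval]
    rw [← Finset.sum_div, Finset.sum_add_distrib, hK, hK, div_eq_one_iff_eq (by positivity)]
    ring
  · calc ∑ g : Fin (4 * q), (w g).eval y * (y - cos (ang g)) ^ 2
        ≤ ∑ g : Fin (4 * q), (4 * fejer q (φ + ang g) + 4 * fejer q (-φ + ang g)) / (2 * Z) := by
          refine Finset.sum_le_sum fun g _ => ?_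
          rw [heval, div_mul_eq_mul_div, add_mul, hyφ]
          refine div_le_div_of_nonneg_right (add_le_add (hpt φ _) ?_) (by positivity)
          have := hpt (-φ) (ang g)
          rwa [cos_neg] at this
      _ = 4 * (q : ℝ) / N := by
          rw [← Finset.sum_div, Finset.sum_add_distrib, ← Finset.mul_sum, ← Finset.mul_sum, hF, hF,
            hZ]
          field_simp
          ring
      _ ≤ 16 / (q : ℝ) ^ 2 := by
          rw [div_le_div_iff₀ hN0 (by positivity)]
          nlinarith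

end Vale.Agent.P047
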