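import Mathlib
import Vale.Agent.P047.Params
import Vale.Agent.P047.Gadget
import Vale.Agent.P047.BlkKM
import Vale.Agent.P047.Weights

/-! One level of the iteration. -/

namespace Vale.Agent.P047

open Finset

/-- A row assignment as a word of symbols. -/
def words {k m M : ℕ} (e : (Fin m → Bool) ≃ Fin M) : (Fin k × Fin m → Bool) ≃ (Fin k → Fin M) :=
  (Equiv.curry _ _ _).trans (Equiv.arrowCongr (Equiv.refl _) e)

noncomputable def classPW {M : ℕ} (g : Gadget M) (k : ℕ) : PW (Fin k) (Fin M) where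
  w _ a := g.P a
  nonneg _ a := (gadget_facts g).1 a
  sum_one _ := (gadget_facts g).2.1

theorem sum_wpi {M k m : ℕ} (g : Gadget M) (e : (Fin m → Bool) ≃ Fin M) (Φ : (Fin k → Fin M) → ℝ) :
    ∑ x, g.wpi e x * Φ (words e x) = (classPW g k).E Φ := by
  rw [PW.E, ← (words (k := k) e).sum_comp]
  rfl

noncomputable def clipR (R v : ℝ) : ℝ := max (-R) (min v R)

theorem abs_clipR {R : ℝ} (hR : 0 ≤ R) (v : ℝ) : |clipR R v| ≤ R :=
  abs_le.2 ⟨le_max_left _ _, max_le (by linarith) (min_le_right _ _)⟩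

theorem clip_defect {R : ℝ} (hR : 0 ≤ R) (v : ℝ) :
    (v - clipR R v) ^ 2 ≤ 2 * Real.exp (-R) * (Real.exp (2 * v) + Real.exp (-(2 * v))) := by
  have hp : 0 ≤ 2 * Real.exp (-R) * (Real.exp (2 * v) + Real.exp (-(2 * v))) := by positivity
  unfold clipR
  rcases lt_trichotomy |v| R with h | h | h
  · obtain ⟨h1, h2⟩ := abs_lt.1 h
    rw [min_eq_left h2.le, max_eq_right h1.le, sub_self]
    simpa using hp
  · obtain ⟨h1, h2⟩ := abs_le.1 h.le
    rw [min_eq_left h2, max_eq_right h1, sub_self]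
    simpa using hp
  · have hq := Real.quadratic_le_exp_of_nonneg (abs_nonneg v)
    have h3 : (v - max (-R) (min v R)) ^ 2 ≤ v ^ 2 := by
      rcases lt_abs.1 h with q | q
      · rw [min_eq_right q.le, max_eq_right (by linarith)]
        exact pow_le_pow_left₀ (by linarith) (by linarith) 2
      · rw [min_eq_left (by linarith), max_eq_left (by linarith)]
        nlinarith
    refine le_trans h3 ?_
    have h4 : v ^ 2 ≤ 2 * Real.exp |v| := by rw [← sq_abs]; linarith [abs_nonneg v]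
    have h5 : Real.exp |v| ≤ Real.exp (-R) * Real.exp (2 * |v|) := by
      rw [← Real.exp_add]; exact Real.exp_le_exp.2 (by linarith)
    have h6 : Real.exp (2 * |v|) ≤ Real.exp (2 * v) + Real.exp (-(2 * v)) := by
      rcases abs_choice v with q | q <;> rw [q]
      · linarith [Real.exp_pos (-(2 * v))]
      · rw [mul_neg]; linarith [Real.exp_pos (2 * v)]
    calc v ^ 2 ≤ 2 * (Real.exp (-R) * Real.exp (2 * |v|)) := by linarith
      _ ≤ _ := by rw [mul_assoc]; gcongr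

noncomputable def excess (T z : ℝ) : ℝ := max (|z| - T) 0

theorem excess_nonneg (T z : ℝ) : 0 ≤ excess T z := le_max_right _ _

theorem excess_lip (T z z' : ℝ) : excess T z ≤ excess T z' + |z - z'| := by
  unfold excess
  refine max_le ?_ (add_nonneg (le_max_right _ _) (abs_nonneg _))
  have := abs_sub_abs_le_abs_sub z z'
  linarith [le_max_left (|z'| - T) 0]

theorem excess_bound {T c : ℝ} (hc : 0 < c) (z : ℝ) :
    excess T z ^ 2 ≤ 2 * c ^ 2 * Real.exp (-(T / c)) * (Real.exp (z / c) + Real.exp (-(z / c))) := by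
  have hp : 0 ≤ 2 * c ^ 2 * Real.exp (-(T / c)) * (Real.exp (z / c) + Real.exp (-(z / c))) := by
    positivity
  unfold excess
  rcases le_or_gt (|z| - T) 0 with h | h
  · rw [max_eq_right h]; simpa using hp
  · rw [max_eq_left h.le]
    set u := (|z| - T) / c with hu
    have u0 : 0 ≤ u := div_nonneg h.le hc.le
    have hq := Real.quadratic_le_exp_of_nonneg u0
    have e : (|z| - T) ^ 2 = c ^ 2 * u ^ 2 := by rw [hu]; field_simp
    rw [e]
    have h5 : Real.exp u = Real.exp (-(T / c)) * Real.exp (|z| / c) := by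
      rw [← Real.exp_add, hu]; congr 1; ring
    have h6 : Real.exp (|z| / c) ≤ Real.exp (z / c) + Real.exp (-(z / c)) := by
      rcases abs_choice z with q | q <;> rw [q]
      · linarith [Real.exp_pos (-(z / c))]
      · rw [neg_div]; linarith [Real.exp_pos (z / c)]
    calc c ^ 2 * u ^ 2 ≤ c ^ 2 * (2 * Real.exp u) := by gcongr; linarith
      _ = 2 * c ^ 2 * Real.exp (-(T / c)) * Real.exp (|z| / c) := by rw [h5]; ring
      _ ≤ _ := by gcongr

/-- Selecting among equally spaced labels. -/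
theorem exists_bin {T Δ : ℝ} (hΔ : 0 < Δ) (M : ℕ) (hM : 2 * T = Δ * M) (hT : 0 ≤ T) (w : ℝ) :
    ∃ i : Fin (M + 1), ∀ z : ℝ, |w - (-T + Δ * (i : ℝ))| ≤ |w - z| + excess T z + Δ := by
  set w' := max (-T) (min w T) with hw'
  have w1 : -T ≤ w' := le_max_left _ _
  have w2 : w' ≤ T := max_le (by linarith) (min_le_right _ _)
  have hcl : ∀ z, |w - w'| ≤ |w - z| + excess T z := by
    intro z
    have e1 : excess T z ≥ |z| - T := le_max_left _ _
    have e2 : excess T z ≥ 0 := le_max_right _ _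
    have a1 := le_abs_self (w - z)
    have a2 := neg_le_abs (w - z)
    have a3 := le_abs_self z
    have a4 := neg_le_abs z
    rcases le_or_gt w (-T) with h | h
    · rw [hw', min_eq_left (by linarith), max_eq_left h, abs_le]
      constructor <;> linarith [abs_nonneg (w - z)]
    rcases le_or_gt w T with h2 | h2
    · rw [hw', min_eq_left h2, max_eq_right h.le, sub_self, abs_zero]
      linarith [abs_nonneg (w - z)]
    · rw [hw', min_eq_right h2.le, max_eq_right (by linarith), abs_le]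
      constructor <;> linarith [abs_nonneg (w - z)]
  set u := (w' + T) / Δ with hu
  have u0 : 0 ≤ u := div_nonneg (by linarith) hΔ.le
  have uM : u ≤ M := by rw [hu, div_le_iff₀ hΔ]; linarith
  refine ⟨⟨⌊u⌋₊, Nat.lt_succ_of_le (Nat.floor_le_of_le uM)⟩, fun z => ?_⟩
  have f1 := Nat.floor_le u0
  have f2 := Nat.lt_floor_add_one u
  have e : w' = -T + Δ * u := by rw [hu]; field_simp; ring
  have h3 : |w' - (-T + Δ * (⌊u⌋₊ : ℝ))| ≤ Δ := by
    rw [e, abs_le]; constructor <;> nlinarith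
  refine le_trans (abs_sub_le w w' _) ?_
  linarith [hcl z]

theorem sq_moment_sum {M : ℕ} (g : Gadget M) (k : ℕ) (δ : Fin M → ℝ) :
    (classPW g k).E (fun ω => (∑ j, δ (ω j)) ^ 2) ≤ (k : ℝ) ^ 2 * ∑ a, g.P a * δ a ^ 2 := by
  set W := classPW g k
  set A := ∑ a, g.P a * δ a ^ 2 with hA
  set μ := ∑ a, g.P a * δ a with hμ
  have hμA : μ ^ 2 ≤ A := by
    have h1 := (gadget_facts g).2.1
    have h : 0 ≤ ∑ a, g.P a * (δ a - μ) ^ 2 :=
      sum_nonneg fun a _ => mul_nonneg ((gadget_facts g).1 a) (sq_nonneg _)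
    have e : ∑ a, g.P a * (δ a - μ) ^ 2 = A - 2 * μ * μ + (∑ a, g.P a) * μ ^ 2 := by
      conv_rhs => rw [hA]; enter [1, 2, 2]; rw [hμ]
      simp only [mul_sum, sum_mul, ← sum_sub_distrib, ← sum_add_distrib]
      exact sum_congr rfl fun a _ => by ring
    rw [e, h1] at h
    nlinarith
  have e : ∀ ω : Fin k → Fin M, (∑ j, δ (ω j)) ^ 2 = ∑ j, ∑ j', δ (ω j) * δ (ω j') := fun ω => by
    rw [pow_two, sum_mul_sum]
  simp only [e, W.E_sum]
  calc ∑ j, ∑ j', W.E (fun ω => δ (ω j) * δ (ω j')) ≤ ∑ _j : Fin k, ∑ _j' : Fin k, A := by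
        refine sum_le_sum fun j _ => sum_le_sum fun j' _ => ?_
        by_cases h : j = j'
        · subst h
          rw [W.E_single j (fun a => δ a * δ a)]
          exact le_of_eq (sum_congr rfl fun a _ => by rw [pow_two]; rfl)
        · rw [W.E_pair h δ δ]
          show (∑ a, g.P a * δ a) * (∑ a, g.P a * δ a) ≤ A
          rw [← hμ, ← pow_two]; exact hμA
    _ = _ := by simp; ring

theorem exp_sum_bound {M : ℕ} (g : Gadget M) (k : ℕ) (t : ℝ) :
    (classPW g k).E (fun ω => Real.exp (t * ∑ j, g.v (ω j))) ≤ Real.exp ((k : ℝ) * (t ^ 2 / 2)) := by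
  simp only [mul_sum, Real.exp_sum]
  rw [(classPW g k).E_prod fun _ a => Real.exp (t * g.v a)]
  calc ∏ _j : Fin k, ∑ a, g.P a * Real.exp (t * g.v a) ≤ ∏ _j : Fin k, Real.exp (t ^ 2 / 2) :=
        prod_le_prod (fun _ _ => sum_nonneg fun a _ =>
          mul_nonneg ((gadget_facts g).1 a) (Real.exp_pos _).le) fun _ _ => (gadget_facts g).2.2.2 t
    _ = _ := by rw [prod_const, card_univ, Fintype.card_fin, ← Real.exp_nat_mul]

/-- The cost of the mixed rounding of one value. -/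
theorem mix_cost {P : ℕ} {L : Type*} [Fintype L] [DecidableEq L] (wv c : Fin P → ℝ) (lab : Fin P → L)
    (t : L → ℝ) {z k R q T Δ lam Mc : ℝ} (hk : 0 < k) (hR : 0 < R) (hq : q * 8 = k)
    (w0 : ∀ g, 0 ≤ wv g) (w1 : ∑ g, wv g = 1)
    (w2 : ∑ g, wv g * (z / (k * R) - c g) ^ 2 ≤ 16 / q ^ 2)
    (hbin : ∀ g, |k * R * c g - t (lab g)| ≤ |k * R * c g - z| + excess T z + Δ)
    (hΔ0 : 0 ≤ Δ) (hΔ : Δ ≤ 22/10 * R) (hb4 : ∀ b, (z - t b) ^ 2 ≤ 4 * (k * R) ^ 2)
    (hlam : 0 ≤ lam) (hcard : (Fintype.card L : ℝ) = Mc)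
    (hmix : Mc * (lam * (4 * (k * R) ^ 2)) ≤ 4 * R ^ 2) :
    ∑ b, ((1 - Mc * lam) * (∑ g ∈ univ.filter (fun g => lab g = b), wv g) + lam) * (z - t b) ^ 2 ≤
      12400 * R ^ 2 + 3 * excess T z ^ 2 := by
  have hpt : ∀ g, (z - t (lab g)) ^ 2 ≤
      12 * ((k * R) ^ 2 * (z / (k * R) - c g) ^ 2) + 3 * excess T z ^ 2 + 3 * Δ ^ 2 := by
    intro g
    set a := |k * R * c g - z|
    set b := excess T z
    have h1 : |z - t (lab g)| ≤ 2 * a + b + Δ := by
      refine le_trans (abs_sub_le z (k * R * c g) _) ?_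
      rw [abs_sub_comm z]
      linarith [hbin g]
    have h2 : (k * R) ^ 2 * (z / (k * R) - c g) ^ 2 = a ^ 2 := by
      simp only [a]; rw [sq_abs, ← mul_pow]
      rw [mul_sub, mul_div_cancel₀ _ (mul_pos hk hR).ne']; ring
    rw [h2, ← sq_abs]
    refine le_trans (pow_le_pow_left₀ (abs_nonneg _) h1 2) ?_
    nlinarith [sq_nonneg (2 * a - b), sq_nonneg (2 * a - Δ), sq_nonneg (b - Δ)]
  have hmain : ∑ b, (∑ g ∈ univ.filter (fun g => lab g = b), wv g) * (z - t b) ^ 2 ≤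
      12 * (16 / q ^ 2) * (k * R) ^ 2 + 3 * excess T z ^ 2 + 3 * Δ ^ 2 := by
    simp only [sum_mul]
    rw [sum_congr rfl fun b _ => sum_congr rfl (g := fun g => wv g * (z - t (lab g)) ^ 2)
      fun g hg => by rw [(mem_filter.1 hg).2], sum_fiberwise]
    calc ∑ g, wv g * (z - t (lab g)) ^ 2
        ≤ ∑ g, wv g * (12 * ((k * R) ^ 2 * (z / (k * R) - c g) ^ 2) +
            3 * excess T z ^ 2 + 3 * Δ ^ 2) :=
          sum_le_sum fun g _ => mul_le_mul_of_nonneg_left (hpt g) (w0 g)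
      _ = 12 * (k * R) ^ 2 * ∑ g, wv g * (z / (k * R) - c g) ^ 2 +
            (3 * excess T z ^ 2 + 3 * Δ ^ 2) * ∑ g, wv g := by
          rw [mul_sum, mul_sum, ← sum_add_distrib]
          exact sum_congr rfl fun g _ => by ring
      _ ≤ _ := by
          rw [w1, mul_one]
          have := mul_le_mul_of_nonneg_left w2 (show (0:ℝ) ≤ 12 * (k * R) ^ 2 by positivity)
          linarith
  have hqp : 0 < q := by linarith
  have h1 : 12 * (16 / q ^ 2) * (k * R) ^ 2 = 12288 * R ^ 2 := by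
    rw [← hq]; field_simp; ring
  have h2 : Δ ^ 2 ≤ (22/10 * R) ^ 2 := pow_le_pow_left₀ hΔ0 hΔ 2
  calc ∑ b, ((1 - Mc * lam) * (∑ g ∈ univ.filter (fun g => lab g = b), wv g) + lam) * (z - t b) ^ 2
      ≤ ∑ b, ((∑ g ∈ univ.filter (fun g => lab g = b), wv g) * (z - t b) ^ 2 +
          lam * (4 * (k * R) ^ 2)) := by
        refine sum_le_sum fun b _ => ?_
        set S := ∑ g ∈ univ.filter (fun g => lab g = b), wv g
        have hS : 0 ≤ S := sum_nonneg fun g _ => w0 g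
        have hMc : 0 ≤ Mc := hcard ▸ Nat.cast_nonneg _
        have a1 := mul_le_mul_of_nonneg_left (hb4 b) hlam
        have a2 := mul_nonneg (mul_nonneg (mul_nonneg hMc hlam) hS) (sq_nonneg (z - t b))
        linarith
    _ ≤ _ := by
        rw [sum_add_distrib, sum_const, card_univ, nsmul_eq_mul, hcard]
        nlinarith [sq_nonneg R]

theorem frac_target (r : ℕ) (hr : 20 ≤ r) {J : Type*} [Fintype J] [DecidableEq J] (B : Blk J)
    (Z' : (J → Bool) → ℝ)
    (hZ : ∀ x, |Z' x| ≤ (2:ℝ) ^ (4 * r) * (6 * r + 4))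
    (hperp : ∀ P : Polynomial ℝ, P.natDegree ≤ 2 ^ (4 * r) - 2 ^ r → B.Perp fun x => P.eval (Z' x))
    {N : ℕ} (hN : N + 1 = 2 ^ (2 * r)) :
    ∃ (p : (J → Bool) → Option (Fin N) → ℝ) (t : Option (Fin N) → ℝ),
      (∀ x b, 1 / ((2:ℝ) ^ (4 * r)) ^ 4 ≤ p x b) ∧ (∀ x, ∑ b, p x b = 1) ∧
      (∀ b, B.Perp fun x => p x b) ∧
      (∀ b, |t b| ≤ (2:ℝ) ^ (4 * r) * (6 * r + 4)) ∧
      ∀ x, ∑ b, p x b * (Z' x - t b) ^ 2 ≤
        12400 * (6 * r + 4) ^ 2 + 3 * excess ((2:ℝ) ^ (2 * r) * (6 * r + 4)) (Z' x) ^ 2 := by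
  classical
  have hbig := two_pow_ge r hr
  set R : ℝ := 6 * r + 4 with hR
  set k : ℝ := (2:ℝ) ^ (4 * r) with hk
  set T : ℝ := (2:ℝ) ^ (2 * r) * R with hT
  have R0 : 0 < R := by rw [hR]; positivity
  have k0 : 0 < k := by positivity
  have hT0 : 0 ≤ T := by positivity
  have hq3 : 3 ≤ 4 * r := by omega
  set q : ℕ := 2 ^ (4 * r - 3) with hq
  have hqk : (q:ℝ) * 8 = k := by
    rw [hq, hk]; push_cast
    rw [show (8:ℝ) = 2 ^ 3 by norm_num, ← pow_add]; congr 1; omega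
  obtain ⟨P, w, c, hdeg, hc, hw⟩ := jackson q Nat.one_le_two_pow
  have hNpos : 1 ≤ N := by
    have : 4 ≤ 2 ^ (2 * r) := by
      calc 4 = 2 ^ 2 := by norm_num
        _ ≤ _ := Nat.pow_le_pow_right (by norm_num) (by omega)
    omega
  have hNR : (0:ℝ) < N := by exact_mod_cast hNpos
  set Δ : ℝ := 2 * T / N with hΔ
  have hΔ0 : 0 < Δ := by
    rw [hΔ, hT]; positivity
  have hbin := fun g => exists_bin hΔ0 N (by rw [hΔ]; field_simp) hT0 (k * R * c g)
  choose bin hbin using hbin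
  let eL : Option (Fin N) ≃ Fin (N + 1) := Fintype.equivOfCardEq (by simp)
  let t : Option (Fin N) → ℝ := fun b => -T + Δ * ((eL b : Fin (N+1)) : ℝ)
  let wp : Fin P → (J → Bool) → ℝ := fun g x => (w g).eval (Z' x / (k * R))
  have hy : ∀ x, |Z' x / (k * R)| ≤ 1 := fun x => by
    rw [abs_div, abs_of_pos (mul_pos k0 R0), div_le_one (mul_pos k0 R0)]
    exact hZ x
  let p0 : (J → Bool) → Option (Fin N) → ℝ := fun x b =>
    ∑ g ∈ univ.filter (fun g => eL.symm (bin g) = b), wp g x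
  have hp0 : ∀ x, ∑ b, p0 x b = 1 := fun x => by
    simp only [p0]
    rw [sum_fiberwise]
    exact (hw _ (hy x)).2.1
  have hp0n : ∀ x b, 0 ≤ p0 x b := fun x b => sum_nonneg fun g _ => (hw _ (hy x)).1 g
  set lam : ℝ := 1 / k ^ 4 with hlam
  have hcard : (Fintype.card (Option (Fin N)) : ℝ) = (2:ℝ) ^ (2 * r) := by
    rw [Fintype.card_option, Fintype.card_fin, hN]; push_cast; ring
  have hMk : (2:ℝ) ^ (2 * r) ≤ k := pow_le_pow_right₀ one_le_two (by omega)
  have k1 : 1 ≤ k := one_le_pow₀ one_le_two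
  have hsmall : (2:ℝ) ^ (2 * r) * lam ≤ 1 := by
    rw [hlam, mul_one_div, div_le_one (by positivity)]
    exact le_trans hMk (le_self_pow₀ k1 (by norm_num))
  let p : (J → Bool) → Option (Fin N) → ℝ := fun x b =>
    (1 - (2:ℝ) ^ (2 * r) * lam) * p0 x b + lam
  refine ⟨p, t, fun x b => ?_, fun x => ?_, fun b => ?_, fun b => ?_, fun x => ?_⟩
  · simp only [p]
    have := mul_nonneg (sub_nonneg.2 hsmall) (hp0n x b)
    linarith
  · simp only [p, sum_add_distrib, ← mul_sum, hp0, sum_const, card_univ, nsmul_eq_mul, hcard]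
    ring
  · simp only [p]
    refine B.perp_add (B.perp_smul _ (B.perp_sum _ fun g _ => ?_)) (B.perp_const _)
    have e : (fun x => wp g x) = fun x => ((w g).comp (Polynomial.C (1 / (k * R)) * Polynomial.X)).eval (Z' x) := by
      funext x; simp [wp]; ring_nf
    show B.Perp (fun x => wp g x)
    rw [e]
    refine hperp _ (le_trans Polynomial.natDegree_comp_le ?_)
    refine le_trans (Nat.mul_le_mul_left _ (le_trans (Polynomial.natDegree_C_mul_le _ _)
      Polynomial.natDegree_X_le)) ?_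
    rw [mul_one]
    refine le_trans (hdeg g) ?_
    rw [hq, ← pow_succ']
    have h1 : 2 ^ (4 * r - 3 + 1) + 2 ^ r ≤ 2 ^ (4 * r) := by
      have a : 2 ^ (4 * r - 3 + 1) ≤ 2 ^ (4 * r - 1) := Nat.pow_le_pow_right (by norm_num) (by omega)
      have b : 2 ^ r ≤ 2 ^ (4 * r - 1) := Nat.pow_le_pow_right (by norm_num) (by omega)
      have c : 2 ^ (4 * r) = 2 ^ (4 * r - 1) + 2 ^ (4 * r - 1) := by
        rw [← two_mul, ← pow_succ']; congr 1; omega
      omega
    omega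
  · simp only [t]
    have hi : ((eL b : Fin (N+1)) : ℝ) ≤ N := by exact_mod_cast Nat.lt_succ_iff.1 (eL b).2
    have e : Δ * N = 2 * T := by rw [hΔ]; field_simp
    have hTk : T ≤ k * R := by rw [hT]; gcongr
    have h0 : 0 ≤ Δ * ((eL b : Fin (N+1)) : ℝ) := by positivity
    have h1 := mul_le_mul_of_nonneg_left hi hΔ0.le
    rw [abs_le]; constructor <;> linarith
  · refine mix_cost (fun g => wp g x) c (fun g => eL.symm (bin g)) t k0 R0 hqk (hw _ (hy x)).1
      (hw _ (hy x)).2.1 (hw _ (hy x)).2.2 (fun g => ?_) hΔ0.le ?_ ?_ (by positivity) hcard ?_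
    · simp only [t, Equiv.apply_symm_apply]
      exact hbin g (Z' x)
    · have h2 : Δ ≤ 2 * R * (2:ℝ) ^ (2 * r) / ((2:ℝ) ^ (2 * r) - 1) := by
        rw [hΔ, hT]
        have : (N:ℝ) = (2:ℝ) ^ (2 * r) - 1 := by
          have : ((N + 1 : ℕ) : ℝ) = (2:ℝ) ^ (2 * r) := by rw [hN]; push_cast; ring
          push_cast at this; linarith
        rw [this]; exact le_of_eq (by ring)
      have h3 : (2:ℝ) ^ (2 * r) / ((2:ℝ) ^ (2 * r) - 1) ≤ 11/10 := by
        have h40 : (1024:ℝ) ≤ 2 ^ (2 * r) := by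
          calc (1024:ℝ) = 2 ^ 10 := by norm_num
            _ ≤ _ := pow_le_pow_right₀ one_le_two (by omega)
        rw [div_le_iff₀ (by linarith)]; linarith
      have h4 : Δ ≤ 22/10 * R := by
        refine le_trans h2 ?_
        rw [mul_div_assoc]
        nlinarith
      exact h4
    · have hb4 : ∀ b, (Z' x - t b) ^ 2 ≤ 4 * (k * R) ^ 2 := by
        intro b
        have hi : ((eL b : Fin (N+1)) : ℝ) ≤ N := by exact_mod_cast Nat.lt_succ_iff.1 (eL b).2
        have e : Δ * N = 2 * T := by rw [hΔ]; field_simp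
        have hTk : T ≤ k * R := by rw [hT]; gcongr
        have h0 : 0 ≤ Δ * ((eL b : Fin (N+1)) : ℝ) := by positivity
        have h1 := mul_le_mul_of_nonneg_left hi hΔ0.le
        obtain ⟨z1, z2⟩ := abs_le.1 (hZ x)
        simp only [t]
        have hlo : -(2 * (k * R)) ≤ Z' x - (-T + Δ * ((eL b : Fin (N+1)) : ℝ)) := by linarith
        have hhi : Z' x - (-T + Δ * ((eL b : Fin (N+1)) : ℝ)) ≤ 2 * (k * R) := by linarith
        nlinarith [mul_nonneg (sub_nonneg.2 hlo) (sub_nonneg.2 hhi)]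
      exact hb4
    · rw [hlam]
      calc (2:ℝ) ^ (2 * r) * (1 / k ^ 4 * (4 * (k * R) ^ 2))
          = (2:ℝ) ^ (2 * r) / k ^ 2 * (4 * R ^ 2) := by field_simp
        _ ≤ 1 * (4 * R ^ 2) := by
            gcongr
            rw [div_le_one (by positivity)]
            exact le_trans hMk (le_self_pow₀ k1 (by norm_num))
        _ = _ := one_mul _

theorem moment_bounds (r : ℕ) (g : Gadget (2 ^ (2 * r))) :
    let R : ℝ := 6 * r + 4
    let W := classPW g (2 ^ (4 * r))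
    W.E (fun ω => (∑ j, (g.v (ω j) - clipR R (g.v (ω j)))) ^ 2) ≤ 1 ∧
      W.E (fun ω => excess ((2:ℝ) ^ (2 * r) * R) (∑ j, g.v (ω j)) ^ 2) ≤ 1 := by
  intro R W
  have R0 : 0 ≤ R := by positivity
  obtain ⟨P0, P1, -, mgf⟩ := gadget_facts g
  have hk : ((2 ^ (4 * r) : ℕ) : ℝ) = ((2:ℝ) ^ (2 * r)) ^ 2 := by
    push_cast; rw [← pow_mul]; congr 1; ring
  set c : ℝ := (2:ℝ) ^ (2 * r) with hc
  have c0 : 0 < c := by positivity
  have hgrow : (c ^ 2) ^ 2 * Real.exp (-R) ≤ Real.exp (-4) := by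
    have h1 : (c ^ 2) ^ 2 ≤ Real.exp (6 * r) := by
      have e1 : (c ^ 2) ^ 2 = ((2:ℝ) ^ 8) ^ r := by
        rw [hc, ← pow_mul, ← pow_mul, ← pow_mul]; congr 1; ring
      have e2 : Real.exp (6 * (r:ℝ)) = (Real.exp 6) ^ r := by rw [← Real.exp_nat_mul]; ring_nf
      rw [e1, e2]
      refine pow_le_pow_left₀ (by positivity) ?_ r
      have h := pow_le_pow_left₀ (by norm_num) Real.exp_one_gt_d9.le 6
      rw [← Real.exp_nat_mul] at h
      norm_num at h ⊢
      linarith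
    calc (c ^ 2) ^ 2 * Real.exp (-R) ≤ Real.exp (6 * r) * Real.exp (-R) := by gcongr
      _ = _ := by rw [← Real.exp_add]; congr 1; simp only [R]; ring
  have hc1 : 1 ≤ c := one_le_pow₀ one_le_two
  have hsmall : Real.exp (-4) ≤ 1/50 := by
    rw [Real.exp_neg, ← one_div]
    refine one_div_le_one_div_of_le (by norm_num) ?_
    have h := pow_le_pow_left₀ (by norm_num) Real.exp_one_gt_d9.le 4
    rw [← Real.exp_nat_mul] at h
    norm_num at h ⊢
    linarith
  have e2 : Real.exp 2 ≤ 9 := by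
    calc Real.exp 2 = Real.exp 1 ^ 2 := by rw [← Real.exp_nat_mul]; norm_num
      _ ≤ (3:ℝ) ^ 2 := pow_le_pow_left₀ (Real.exp_pos _).le
            (Real.exp_one_lt_d9.le.trans (by norm_num)) 2
      _ = 9 := by norm_num
  constructor
  · refine le_trans (sq_moment_sum g _ fun a => g.v a - clipR R (g.v a)) ?_
    have h : ∑ a, g.P a * (g.v a - clipR R (g.v a)) ^ 2 ≤ 2 * Real.exp (-R) * (9 + 9) := by
      calc ∑ a, g.P a * (g.v a - clipR R (g.v a)) ^ 2
          ≤ ∑ a, 2 * Real.exp (-R) * (g.P a * Real.exp (2 * g.v a) + g.P a * Real.exp (-(2 * g.v a))) := by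
            refine sum_le_sum fun a _ => ?_
            refine le_trans (mul_le_mul_of_nonneg_left (clip_defect R0 _) (P0 a)) (le_of_eq ?_)
            ring
        _ ≤ _ := by
            rw [← mul_sum, sum_add_distrib]
            have a1 := mgf 2
            have a2 := mgf (-2)
            norm_num [neg_mul] at a1 a2
            gcongr <;> linarith
    rw [hk]
    calc (c ^ 2) ^ 2 * ∑ a, g.P a * (g.v a - clipR R (g.v a)) ^ 2
        ≤ (c ^ 2) ^ 2 * (2 * Real.exp (-R) * (9 + 9)) := by gcongr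
      _ = 36 * ((c ^ 2) ^ 2 * Real.exp (-R)) := by ring
      _ ≤ 1 := by linarith
  · refine le_trans (W.E_mono fun ω => excess_bound c0 (T := c * R) (∑ j, g.v (ω j))) ?_
    rw [W.E_smul, W.E_add, mul_div_cancel_left₀ _ c0.ne']
    have a1 := exp_sum_bound g (2 ^ (4 * r)) (1 / c)
    have a2 := exp_sum_bound g (2 ^ (4 * r)) (-1 / c)
    rw [hk] at a1 a2
    have e1 : c ^ 2 * ((1 / c) ^ 2 / 2) = 1/2 := by field_simp
    have e1' : c ^ 2 * ((-1 / c) ^ 2 / 2) = 1/2 := by field_simp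
    rw [e1] at a1
    rw [e1'] at a2
    have hh : Real.exp (1/2) ≤ 9 := le_trans (Real.exp_le_exp.2 (by norm_num)) e2
    have b1 : W.E (fun ω => Real.exp ((∑ j, g.v (ω j)) / c)) ≤ 9 := by
      refine le_trans (le_of_eq ?_) (le_trans a1 hh)
      congr 1; funext ω; ring_nf
    have b2 : W.E (fun ω => Real.exp (-((∑ j, g.v (ω j)) / c))) ≤ 9 := by
      refine le_trans (le_of_eq ?_) (le_trans a2 hh)
      congr 1; funext ω; ring_nf
    have h3 : c ^ 2 * Real.exp (-R) ≤ Real.exp (-4) :=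
      le_trans (by gcongr; exact le_self_pow₀ (by nlinarith) (by norm_num)) hgrow
    calc 2 * c ^ 2 * Real.exp (-R) * (W.E (fun ω => Real.exp ((∑ j, g.v (ω j)) / c)) +
          W.E (fun ω => Real.exp (-((∑ j, g.v (ω j)) / c))))
        ≤ 2 * c ^ 2 * Real.exp (-R) * (9 + 9) := by gcongr
      _ ≤ 1 := by linarith

theorem level_loss (r : ℕ) (g : Gadget (2 ^ (2 * r))) {Lab : Type*} [Fintype Lab]
    (e : (Fin (2 * r) → Bool) ≃ Fin (2 ^ (2 * r)))
    (p : (Fin (2 ^ (4 * r)) × Fin (2 * r) → Bool) → Lab → ℝ) (t : Lab → ℝ)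
    (F0 : (Fin (2 ^ (4 * r)) × Fin (2 * r) → Bool) → Lab)
    (hcost : ∀ x, ∑ b, p x b * ((∑ j, clipR (6 * r + 4) (g.v (e fun i => x (j, i)))) - t b) ^ 2 ≤
      12400 * (6 * r + 4) ^ 2 + 3 * excess ((2:ℝ) ^ (2 * r) * (6 * r + 4))
        (∑ j, clipR (6 * r + 4) (g.v (e fun i => x (j, i)))) ^ 2)
    (hround : ∑ x, g.wpi e x * ((∑ j, clipR (6 * r + 4) (g.v (e fun i => x (j, i)))) - t (F0 x)) ^ 2 ≤
      ∑ x, g.wpi e x * (∑ b, p x b * ((∑ j, clipR (6 * r + 4) (g.v (e fun i => x (j, i)))) - t b) ^ 2) +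
        5 * (6 * (r:ℝ) + 4) ^ 2) :
    ∑ x, g.wpi e x * (g.zsum e x - t (F0 x)) ^ 2 ≤ 30000 * (6 * (r:ℝ) + 4) ^ 2 := by
  set R : ℝ := 6 * r + 4 with hR
  let h : (Fin (2 * r) → Bool) → ℝ := fun b => clipR R (g.v (e b))
  let Z' : (Fin (2 ^ (4 * r)) × Fin (2 * r) → Bool) → ℝ := fun x => ∑ j, h fun i => x (j, i)
  let cost : (Fin (2 ^ (4 * r)) × Fin (2 * r) → Bool) → Lab → ℝ := fun x b => (Z' x - t b) ^ 2
  let wgt : (Fin (2 ^ (4 * r)) × Fin (2 * r) → Bool) → ℝ := g.wpi e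
  have hw0 : ∀ x, 0 ≤ wgt x := fun x => prod_nonneg fun j _ => (gadget_facts g).1 _
  have hw1 : ∑ x, wgt x = 1 := by
    have h := sum_wpi (k := 2 ^ (4 * r)) g e fun _ => 1
    simp only [mul_one, PW.E_const] at h
    exact h
  obtain ⟨m1, m2⟩ := moment_bounds r g
  set D : (Fin (2 ^ (4 * r)) → Fin (2 ^ (2 * r))) → ℝ := fun ω => ∑ j, (g.v (ω j) - clipR R (g.v (ω j)))
  set X : (Fin (2 ^ (4 * r)) → Fin (2 ^ (2 * r))) → ℝ := fun ω => ∑ j, g.v (ω j)
  have hD : ∀ x, D (words e x) = g.zsum e x - Z' x := fun x => by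
    simp only [D, Gadget.zsum, Z', h, sum_sub_distrib]; rfl
  have hX : ∀ x, X (words e x) = g.zsum e x := fun x => rfl
  have t1 : ∑ x, wgt x * D (words e x) ^ 2 ≤ 1 := by
    rw [sum_wpi g e fun ω => D ω ^ 2]; exact m1
  have t2 : ∑ x, wgt x * excess ((2:ℝ) ^ (2 * r) * R) (g.zsum e x) ^ 2 ≤ 1 := by
    simp only [← hX]
    rw [sum_wpi g e fun ω => excess ((2:ℝ) ^ (2 * r) * R) (X ω) ^ 2]; exact m2
  have t3 : ∑ x, wgt x * ∑ b, p x b * cost x b ≤ 12400 * R ^ 2 + 12 := by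
    calc ∑ x, wgt x * ∑ b, p x b * cost x b
        ≤ ∑ x, wgt x * (12400 * R ^ 2 + 6 * excess ((2:ℝ) ^ (2 * r) * R) (g.zsum e x) ^ 2 +
            6 * D (words e x) ^ 2) := by
          refine sum_le_sum fun x _ => mul_le_mul_of_nonneg_left (le_trans (hcost x) ?_) (hw0 x)
          have h1 := excess_lip ((2:ℝ) ^ (2 * r) * R) (Z' x) (g.zsum e x)
          have h2 := excess_nonneg ((2:ℝ) ^ (2 * r) * R) (Z' x)
          have h3 := excess_nonneg ((2:ℝ) ^ (2 * r) * R) (g.zsum e x)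
          have h4 := pow_le_pow_left₀ h2 h1 2
          rw [abs_sub_comm, ← hD] at h1 h4
          rw [hR] at *
          nlinarith [sq_nonneg (excess ((2:ℝ) ^ (2 * r) * (6 * r + 4)) (g.zsum e x) - |D (words e x)|),
            sq_abs (D (words e x))]
      _ = (12400 * R ^ 2) * ∑ x, wgt x + 6 * ∑ x, wgt x * excess ((2:ℝ) ^ (2 * r) * R) (g.zsum e x) ^ 2 +
            6 * ∑ x, wgt x * D (words e x) ^ 2 := by
          simp only [mul_sum, ← sum_add_distrib]
          exact sum_congr rfl fun x _ => by ring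
      _ ≤ _ := by rw [hw1]; linarith
  have hR1 : 4 ≤ R := by rw [hR]; linarith [Nat.cast_nonneg (α := ℝ) r]
  have t4 : ∑ x, wgt x * cost x (F0 x) ≤ 12500 * R ^ 2 := by
    have : 16 ≤ R ^ 2 := by nlinarith
    linarith [t3]
  calc ∑ x, g.wpi e x * (g.zsum e x - t (F0 x)) ^ 2
      ≤ ∑ x, (2 * (wgt x * D (words e x) ^ 2) + 2 * (wgt x * cost x (F0 x))) := by
        refine sum_le_sum fun x _ => ?_
        have h1 : (g.zsum e x - t (F0 x)) ^ 2 ≤ 2 * D (words e x) ^ 2 + 2 * cost x (F0 x) := by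
          rw [hD]; simp only [cost]; nlinarith [sq_nonneg (g.zsum e x - Z' x - (Z' x - t (F0 x)))]
        have := mul_le_mul_of_nonneg_left h1 (hw0 x)
        linarith
    _ ≤ _ := by rw [sum_add_distrib, ← mul_sum, ← mul_sum]; nlinarith

/-- **One level.** -/
theorem level (r : ℕ) (hr : 20 ≤ r) (g : Gadget (2 ^ (2 * r))) :
    ∃ g' : Gadget (2 ^ (2 * r)), g'.n = 2 ^ (4 * r) * g.n ∧
      g'.d = (2 ^ (4 * r) - 2 ^ r) * g.d ∧
      g.om - 30000 * (6 * r + 4) ^ 2 / (2:ℝ) ^ (4 * r) ≤ g'.om := by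
  classical
  set R : ℝ := 6 * r + 4 with hR
  have R0 : 0 ≤ R := by rw [hR]; positivity
  have hks : (2 ^ (4 * r)) = (2 ^ r) * 2 ^ (3 * r) := by rw [← pow_add]; congr 1; ring
  obtain ⟨B, hA, hbb, hd0, hd, ⟨T, hT, hdisj⟩, hpoly⟩ :=
    exists_blk (2 ^ (4 * r)) (2 * r) (2 ^ r) (2 ^ (3 * r)) Nat.one_le_two_pow hks Nat.one_le_two_pow (by omega)
  have hJ : Fintype.card (Fin (2 ^ (4 * r)) × Fin (2 * r)) = 2 ^ (4 * r) * (2 * r) := by simp
  obtain ⟨N, hlam, hβ⟩ := exists_roundNum r hr B hJ hbb hd0 hd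
  let e : (Fin (2 * r) → Bool) ≃ Fin (2 ^ (2 * r)) := Fintype.equivFinOfCardEq (by simp)
  let h : (Fin (2 * r) → Bool) → ℝ := fun b => clipR R (g.v (e b))
  let Z' : (Fin (2 ^ (4 * r)) × Fin (2 * r) → Bool) → ℝ := fun x => ∑ j, h fun i => x (j, i)
  have hZ' : ∀ x, |Z' x| ≤ (2:ℝ) ^ (4 * r) * R := fun x => by
    refine le_trans (abs_sum_le_sum_abs _ _) (le_trans (sum_le_card_nsmul _ _ R fun j _ => abs_clipR R0 _) ?_)
    rw [nsmul_eq_mul, card_univ, Fintype.card_fin]; push_cast; exact le_rfl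
  have hNc : (2 ^ (2 * r) - 1) + 1 = 2 ^ (2 * r) := Nat.sub_add_cancel Nat.one_le_two_pow
  obtain ⟨p, t, hp, hp1, hperp, ht, hcost⟩ :=
    frac_target r hr B Z' hZ' (fun P hP => hpoly h P hP) hNc
  let cost : (Fin (2 ^ (4 * r)) × Fin (2 * r) → Bool) → Option (Fin (2 ^ (2 * r) - 1)) → ℝ := fun x b => (Z' x - t b) ^ 2
  let wgt : (Fin (2 ^ (4 * r)) × Fin (2 * r) → Bool) → ℝ := g.wpi e
  have hw0 : ∀ x, 0 ≤ wgt x := fun x => prod_nonneg fun j _ => (gadget_facts g).1 _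
  have hw1 : ∑ x, wgt x = 1 := by
    have h := sum_wpi (k := 2 ^ (4 * r)) g e fun _ => 1
    simp only [mul_one, PW.E_const] at h
    exact h
  set cmax : ℝ := 4 * ((2:ℝ) ^ (4 * r)) ^ 2 * (6 * r + 4) ^ 2 with hcmax
  have hc1 : ∀ x b, cost x b ≤ cmax := fun x b => by
    have := abs_le.1 (hZ' x); have := abs_le.1 (ht b)
    simp only [cost, hcmax]
    rw [show (4:ℝ) * ((2:ℝ) ^ (4 * r)) ^ 2 * (6 * r + 4) ^ 2 = (2 * ((2:ℝ) ^ (4 * r) * R)) ^ 2 by rw [hR]; ring]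
    rw [sq_le_sq, abs_of_nonneg (by positivity : (0:ℝ) ≤ 2 * ((2:ℝ) ^ (4 * r) * R)), abs_le]
    constructor <;> linarith
  obtain ⟨N', hl, hρ⟩ : ∃ N' : RoundNum B (Fintype.card (Fin (2 ^ (2 * r) - 1))) (2 ^ (3 * r)),
      N'.lam = N.lam ∧ N'.ρ = N.ρ := by
    rw [Fintype.card_fin]; exact ⟨N, rfl, rfl⟩
  obtain ⟨F0, hF0, hF1⟩ := exists_rounding B T hT hdisj N' p (by
      intro x b
      rw [hl, hlam]; exact hp x b) hp1 hperp wgt hw0 hw1 cost (fun x b => sq_nonneg _) hc1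
  let eL : Option (Fin (2 ^ (2 * r) - 1)) ≃ Fin (2 ^ (2 * r)) := Fintype.equivOfCardEq (by simp [hNc])
  have hFperp : ∀ a S, (2 ^ (4 * r)) - (2 ^ r) < (touched S).card →
      hat (fun x => if eL (F0 x) = a then (1:ℝ) else 0) S = 0 := by
    intro a S hS
    have h := (B.perp_iff_hat.1 (hF0 (eL.symm a))) S ((hA S).2 hS)
    refine (congrArg (fun f => hat f S) (funext fun x => ?_)).trans h
    exact if_congr (eL.apply_eq_iff_eq_symm_apply) rfl rfl
  have hloss : ∑ x, g.wpi e x * (g.zsum e x - t (eL.symm (eL (F0 x)))) ^ 2 ≤ 30000 * R ^ 2 := by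
    simp only [Equiv.symm_apply_apply]
    refine level_loss r g e p t F0 hcost (le_trans hF1 ?_)
    rw [hl, hρ, hlam, Fintype.card_fin, add_assoc]
    refine add_le_add (le_of_eq rfl) ?_
    have hM1 : (((2 ^ (2 * r) - 1 : ℕ) : ℝ) + 1) = (2:ℝ) ^ (2 * r) := by
      rw [← Nat.cast_add_one, hNc]; push_cast; ring
    have h5 : (((2 ^ (2 * r) - 1 : ℕ) : ℝ) + 1) * (1 / ((2:ℝ) ^ (4 * r)) ^ 4) * cmax ≤ 4 * R ^ 2 := by
      rw [hM1, hcmax]
      have k1 : (1:ℝ) ≤ (2:ℝ) ^ (4 * r) := one_le_pow₀ one_le_two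
      have hMk : (2:ℝ) ^ (2 * r) ≤ (2:ℝ) ^ (4 * r) := pow_le_pow_right₀ one_le_two (by omega)
      calc (2:ℝ) ^ (2 * r) * (1 / ((2:ℝ) ^ (4 * r)) ^ 4) * (4 * ((2:ℝ) ^ (4 * r)) ^ 2 * (6 * r + 4) ^ 2)
          = (2:ℝ) ^ (2 * r) / ((2:ℝ) ^ (4 * r)) ^ 2 * (4 * R ^ 2) := by rw [hR]; field_simp
        _ ≤ 1 * (4 * R ^ 2) := by
            gcongr
            rw [div_le_one (by positivity)]
            exact le_trans hMk (le_self_pow₀ k1 (by norm_num))
        _ = _ := one_mul _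
    have hR1 : 4 ≤ R := by rw [hR]; linarith [Nat.cast_nonneg (α := ℝ) r]
    rw [hcmax] at h5 ⊢
    rw [hR] at h5 hR1
    nlinarith [hβ]
  obtain ⟨g', h1, h2, h3⟩ := gadget_compose g (2 ^ (4 * r)) (2 ^ r) (2 * r) Nat.one_le_two_pow
    (by rw [hks]; exact Nat.le_mul_of_pos_right _ (by positivity)) e (fun x => eL (F0 x)) hFperp
    (fun a => t (eL.symm a)) _ hloss
  refine ⟨g', h1, h2, ?_⟩
  refine le_trans (le_of_eq ?_) h3
  rw [hR]; push_cast; rfl

end Vale.Agent.P047
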