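import Mathlib
import Vale.Agent.P047.Level

/-! Iterating the level step. -/

namespace Vale.Agent.P047

open Finset

theorem iterate (r : ℕ) (hr : 20 ≤ r) : ∀ L : ℕ, ∃ g : Gadget (2 ^ (2 * r)),
    g.n = (2 ^ (4 * r)) ^ L * (2 * r) ∧ g.d = (2 ^ (4 * r) - 2 ^ r) ^ L * (2 * r) ∧
    1 - (L : ℝ) * (30000 * (6 * r + 4) ^ 2 / (2:ℝ) ^ (4 * r)) ≤ g.om := by
  intro L
  induction L with
  | zero =>
    obtain ⟨g, h1, h2, h3⟩ := gadget_start (2 * r) (by omega)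
    exact ⟨g, by simp [h1], by simp [h2], by simp [h3]⟩
  | succ L ih =>
    obtain ⟨g, h1, h2, h3⟩ := ih
    obtain ⟨g', a1, a2, a3⟩ := level r hr g
    refine ⟨g', ?_, ?_, ?_⟩
    · rw [a1, h1, pow_succ]; ring
    · rw [a2, h2, pow_succ]; ring
    · push_cast; linarith

theorem exists_r (A : ℝ) : ∃ r : ℕ, 20 ≤ r ∧ A * (6 * r + 4) ^ 2 ≤ (2:ℝ) ^ r := by
  have h := tendsto_pow_const_div_const_pow_of_one_lt 2 (one_lt_two (α := ℝ))
  have hA : (0:ℝ) < 1 / (49 * (|A| + 1)) := by positivity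
  have h' := (h.eventually (eventually_le_nhds hA)).and (Filter.eventually_ge_atTop 20)
  obtain ⟨r, h1, h2⟩ := h'.exists
  refine ⟨r, h2, ?_⟩
  rw [div_le_div_iff₀ (by positivity) (by positivity), one_mul] at h1
  have hr : (20:ℝ) ≤ r := by exact_mod_cast h2
  calc A * (6 * (r:ℝ) + 4) ^ 2 ≤ (|A| + 1) * (6 * (r:ℝ) + 4) ^ 2 :=
        mul_le_mul_of_nonneg_right (by linarith [le_abs_self A]) (sq_nonneg _)
    _ ≤ (|A| + 1) * (49 * (r:ℝ) ^ 2) := by
        refine mul_le_mul_of_nonneg_left ?_ (by positivity)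
        nlinarith
    _ ≤ _ := by linarith

/-- Boolean functions of degree at most `d` with first-level sum beyond any multiple of `√d`. -/
theorem large_linear_sum (C : ℝ) :
    ∃ (n d : ℕ), 1 ≤ d ∧ ∃ f : (Fin n → Bool) → ℝ, (∀ x, f x = 1 ∨ f x = -1) ∧ DegLE d f ∧
      C * Real.sqrt d < ∑ i, hat f {i} := by
  set p : ℕ := ⌈2500 * (|C| + 1) ^ 2⌉₊ with hp
  have hp' : 2500 * (|C| + 1) ^ 2 ≤ (p:ℝ) := Nat.le_ceil _
  obtain ⟨r, hr, hbig⟩ := exists_r (60000 * (p:ℝ))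
  obtain ⟨g, h1, h2, h3⟩ := iterate r hr (p * 2 ^ (3 * r))
  have e : ((p * 2 ^ (3 * r) : ℕ) : ℝ) * (30000 * (6 * r + 4) ^ 2 / (2:ℝ) ^ (4 * r)) =
      30000 * (p:ℝ) * (6 * r + 4) ^ 2 / (2:ℝ) ^ r := by
    push_cast
    rw [show 4 * r = 3 * r + r by ring, pow_add]
    field_simp
  have hom : 1/2 ≤ g.om := by
    rw [e] at h3
    have : 30000 * (p:ℝ) * (6 * r + 4) ^ 2 / (2:ℝ) ^ r ≤ 1/2 := by
      rw [div_le_iff₀ (by positivity)]; linarith
    linarith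
  obtain ⟨f, f1, f2, f3⟩ := gadget_final g hom
  have hks : 2 ^ r < 2 ^ (4 * r) := Nat.pow_lt_pow_right (by norm_num) (by omega)
  have hd : 1 ≤ g.d := by
    rw [h2]
    exact Nat.mul_pos (pow_pos (by omega) _) (by omega)
  refine ⟨g.n, g.d, hd, f, f1, f2, ?_⟩
  have hnd : ((p:ℝ) + 1) * (g.d : ℝ) ≤ (g.n : ℝ) := by
    rw [h1, h2]
    push_cast [Nat.cast_sub hks.le]
    set a : ℝ := (2:ℝ) ^ (4 * r) - (2:ℝ) ^ r with ha
    have ha0 : 0 < a := by
      have : (((2 ^ r : ℕ) : ℝ)) < ((2 ^ (4 * r) : ℕ) : ℝ) := by exact_mod_cast hks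
      push_cast at this; linarith
    set L := p * 2 ^ (3 * r)
    have key : ((p:ℝ) + 1) * a ^ L ≤ ((2:ℝ) ^ (4 * r)) ^ L := by
      have hb := one_add_mul_le_pow (a := (2:ℝ) ^ r / a) (le_trans (by norm_num) (div_nonneg (by positivity) ha0.le)) L
      have e2 : 1 + (2:ℝ) ^ r / a = (2:ℝ) ^ (4 * r) / a := by rw [one_add_div ha0.ne', show a + (2:ℝ) ^ r = (2:ℝ) ^ (4 * r) by rw [ha]; ring]
      rw [e2, div_pow] at hb
      have h6 : (p:ℝ) + 1 ≤ 1 + (L:ℝ) * ((2:ℝ) ^ r / a) := by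
        have : (p:ℝ) ≤ (L:ℝ) * ((2:ℝ) ^ r / a) := by
          rw [mul_div_assoc', le_div_iff₀ ha0]
          simp only [L]; push_cast
          rw [mul_assoc, ← pow_add, show 3 * r + r = 4 * r by ring]
          have : a ≤ (2:ℝ) ^ (4 * r) := by rw [ha]; linarith [show (0:ℝ) ≤ 2 ^ r by positivity]
          exact mul_le_mul_of_nonneg_left this (Nat.cast_nonneg _)
        linarith
      have := le_trans h6 hb
      rw [le_div_iff₀ (by positivity)] at this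
      exact this
    calc ((p:ℝ) + 1) * (a ^ L * (2 * r)) = ((p:ℝ) + 1) * a ^ L * (2 * r) := by ring
      _ ≤ _ := mul_le_mul_of_nonneg_right key (by positivity)
  refine lt_of_lt_of_le ?_ f3
  rw [lt_div_iff₀ (by norm_num : (0:ℝ) < 50)]
  calc C * Real.sqrt g.d * 50 ≤ |C| * Real.sqrt g.d * 50 := by gcongr; exact le_abs_self C
    _ < (50 * (|C| + 1)) * Real.sqrt g.d := by
        have : 0 < Real.sqrt g.d := Real.sqrt_pos.2 (by exact_mod_cast hd)
        nlinarith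
    _ = Real.sqrt (2500 * (|C| + 1) ^ 2 * g.d) := by
        rw [Real.sqrt_mul (by positivity), show 2500 * (|C| + 1) ^ 2 = (50 * (|C| + 1)) ^ 2 by ring,
          Real.sqrt_sq (by positivity)]
    _ ≤ Real.sqrt g.n := by
        refine Real.sqrt_le_sqrt (le_trans ?_ hnd)
        exact mul_le_mul_of_nonneg_right (by linarith) (Nat.cast_nonneg _)

end Vale.Agent.P047
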